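import Mathlib

/-!
# Fully reducible lacunary polynomials over a prime field

If `f = X ^ p * G + H` with `G`, `H` of degree at most `k < p`, and `f` is divisible by a product
of linear factors, then one of three things happens: the product is short, the product meets all
but `k` elements of the field, or almost all factors have a common zero.
-/

namespace Vale.Agent.P045.H84.Redei

open Polynomial

variable {p : ℕ} [hp : Fact p.Prime]

lemma eq_zero_of_derivative_eq_zero {r : Polynomial (ZMod p)} (hr : derivative r = 0) {n : ℕ}
    (hn : 0 < n) (hnp : n < p) : r.coeff n = 0 := by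
  have h := congrArg (fun s : Polynomial (ZMod p) => s.coeff (n - 1)) hr
  simp only [coeff_derivative, coeff_zero] at h
  rw [show n - 1 + 1 = n by omega] at h
  rcases mul_eq_zero.1 h with h | h
  · exact h
  · exfalso
    have h' : ((n : ℕ) : ZMod p) = 0 := by
      rw [← h, ← Nat.cast_add_one, show n - 1 + 1 = n by omega]
    exact absurd ((ZMod.natCast_eq_zero_iff n p).1 h')
      (Nat.not_dvd_of_pos_of_lt hn hnp)

/-- A vanishing Wronskian of two polynomials of degree below `p` forces proportionality. -/
lemma eq_C_mul_of_wronskian {G H : Polynomial (ZMod p)} (hG : G ≠ 0) (hGp : G.natDegree < p)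
    (hHp : H.natDegree < p) (h : derivative H * G = H * derivative G) :
    ∃ c, H = C c * G := by
  have lead : ∀ R : Polynomial (ZMod p), R ≠ 0 → R.natDegree < p →
      derivative R * G = R * derivative G → R.natDegree = G.natDegree := by
    intro R hR hRp hRG
    set m := G.natDegree
    set n := R.natDegree
    by_contra hne
    have hdR : (derivative R).natDegree ≤ n - 1 := natDegree_derivative_le R
    have hdG : (derivative G).natDegree ≤ m - 1 := natDegree_derivative_le G
    rcases Nat.eq_zero_or_pos n with hn | hn
    · -- `R` constant, so `G'` vanishes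
      have hR' : derivative R = 0 := by
        rw [eq_C_of_natDegree_eq_zero hn, derivative_C]
      rw [hR', zero_mul, eq_comm, mul_eq_zero] at hRG
      have hG' : derivative G = 0 := hRG.resolve_left hR
      exact leadingCoeff_ne_zero.2 hG
        (eq_zero_of_derivative_eq_zero hG' (n := m) (by omega) hGp)
    rcases Nat.eq_zero_or_pos m with hm | hm
    · have hG' : derivative G = 0 := by rw [eq_C_of_natDegree_eq_zero hm, derivative_C]
      rw [hG', mul_zero, mul_eq_zero] at hRG
      have hR' : derivative R = 0 := hRG.resolve_right hG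
      exact leadingCoeff_ne_zero.2 hR
        (eq_zero_of_derivative_eq_zero hR' (n := n) hn hRp)
    have e : (derivative R * G).coeff (n + m - 1) = (R * derivative G).coeff (n + m - 1) := by
      rw [hRG]
    rw [show n + m - 1 = (n - 1) + m by omega,
      coeff_mul_add_eq_of_natDegree_le hdR le_rfl,
      show (n - 1) + m = n + (m - 1) by omega,
      coeff_mul_add_eq_of_natDegree_le le_rfl hdG, coeff_derivative, coeff_derivative,
      show n - 1 + 1 = n by omega, show m - 1 + 1 = m by omega] at e
    have hc : ((n : ℕ) : ZMod p) = ((m : ℕ) : ZMod p) := by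
      have h0 : R.coeff n * G.coeff m ≠ 0 :=
        mul_ne_zero (leadingCoeff_ne_zero.2 hR) (leadingCoeff_ne_zero.2 hG)
      apply mul_left_cancel₀ h0
      have hn' : ((n - 1 : ℕ) : ZMod p) + 1 = n := by
        rw [← Nat.cast_add_one, Nat.sub_add_cancel hn]
      have hm' : ((m - 1 : ℕ) : ZMod p) + 1 = m := by
        rw [← Nat.cast_add_one, Nat.sub_add_cancel hm]
      rw [hn', hm'] at e
      linear_combination e
    exact hne (by
      have := (ZMod.natCast_eq_natCast_iff' n m p).1 hc
      rwa [Nat.mod_eq_of_lt hRp, Nat.mod_eq_of_lt hGp] at this)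
  rcases eq_or_ne H 0 with rfl | hH
  · exact ⟨0, by simp⟩
  refine ⟨H.leadingCoeff / G.leadingCoeff, ?_⟩
  set c := H.leadingCoeff / G.leadingCoeff with hc
  by_contra hne
  set R := H - C c * G with hR
  have hR0 : R ≠ 0 := sub_ne_zero.2 hne
  have hHG : H.natDegree = G.natDegree := lead H hH hHp h
  have hRle : R.natDegree ≤ G.natDegree :=
    (natDegree_sub_le _ _).trans (max_le hHG.le (natDegree_C_mul_le _ _))
  have hRw : derivative R * G = R * derivative G := by
    simp only [hR, derivative_sub, derivative_C_mul]
    linear_combination h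
  have hdeg := lead R hR0 (lt_of_le_of_lt hRle hGp) hRw
  apply leadingCoeff_ne_zero.2 hR0
  have hG' : G.coeff G.natDegree ≠ 0 := leadingCoeff_ne_zero.2 hG
  rw [leadingCoeff, hdeg, hR, coeff_sub, coeff_C_mul, hc, leadingCoeff, leadingCoeff, hHG,
    div_mul_cancel₀ _ hG', sub_self]

/-- Roots of `X ^ p * G + H` are roots of `X * G + H`, the repeated ones also of the Wronskian. -/
lemma roots_lacunary_le (f G H : Polynomial (ZMod p)) (heq : f = X ^ p * G + H) (hf0 : f ≠ 0)
    (h1 : X * G + H ≠ 0) (h2 : derivative H * G - H * derivative G ≠ 0) :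
    f.roots ≤ (X * G + H).roots + (derivative H * G - H * derivative G).roots := by
  classical
  have e : derivative H * G - H * derivative G = derivative f * G - f * derivative G := by
    have hd : derivative f = X ^ p * derivative G + derivative H := by
      rw [heq, derivative_add, derivative_mul, derivative_pow, derivative_X]
      simp
    rw [hd, heq]; ring
  rw [Multiset.le_iff_count]
  intro x
  rw [Multiset.count_add, count_roots, count_roots, count_roots]
  rcases Nat.eq_zero_or_pos (f.rootMultiplicity x) with hm | hm
  · omega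
  have hx : f.IsRoot x := (rootMultiplicity_pos hf0).1 hm
  have hz : 0 < (X * G + H).rootMultiplicity x := by
    refine (rootMultiplicity_pos h1).2 ?_
    rw [IsRoot, heq, eval_add, eval_mul, eval_pow, eval_X, ZMod.pow_card] at hx
    simpa [IsRoot] using hx
  have hdvd : (X - C x) ^ (f.rootMultiplicity x - 1) ∣
      derivative H * G - H * derivative G := by
    rw [e]
    exact dvd_sub
      (Dvd.dvd.mul_right (pow_sub_one_dvd_derivative_of_pow_dvd (pow_rootMultiplicity_dvd f x)) _)
      (Dvd.dvd.mul_right
        ((pow_dvd_pow _ (Nat.sub_le _ _)).trans (pow_rootMultiplicity_dvd f x)) _)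
  have hw := (le_rootMultiplicity_iff h2).2 hdvd
  omega

variable {ι : Type*}

lemma roots_prod_linear (s : Finset ι) (a b : ι → ZMod p) (hab : ∀ i ∈ s, a i ≠ 0 ∨ b i ≠ 0) :
    (∏ i ∈ s, (C (a i) * X + C (b i))) ≠ 0 ∧
      Multiset.card (∏ i ∈ s, (C (a i) * X + C (b i))).roots = (s.filter fun i => a i ≠ 0).card ∧
      (∀ x : ZMod p, Multiset.countP (fun y => y ≠ x) (∏ i ∈ s, (C (a i) * X + C (b i))).roots
        = (s.filter fun i => a i ≠ 0 ∧ a i * x + b i ≠ 0).card) := by
  classical
  induction s using Finset.induction_on with
  | empty => simp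
  | insert i s hi ih =>
    obtain ⟨h0, h1, h2⟩ := ih fun j hj => hab j (Finset.mem_insert_of_mem hj)
    have hi0 : C (a i) * X + C (b i) ≠ 0 := by
      intro h
      rcases hab i (Finset.mem_insert_self i s) with ha | hb
      · exact ha (by simpa using congrArg (fun r : Polynomial (ZMod p) => r.coeff 1) h)
      · exact hb (by simpa using congrArg (fun r : Polynomial (ZMod p) => r.coeff 0) h)
    rw [Finset.prod_insert hi]
    refine ⟨mul_ne_zero hi0 h0, ?_, fun x => ?_⟩
    · rw [roots_mul (mul_ne_zero hi0 h0), Multiset.card_add, h1]
      rcases eq_or_ne (a i) 0 with ha | ha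
      · rw [Finset.filter_insert, if_neg (by simp [ha]), ha]; simp
      · rw [Finset.filter_insert, if_pos ha, Finset.card_insert_of_notMem (by simp [hi]),
          roots_C_mul_X_add_C _ ha]
        simp [add_comm]
    · rw [roots_mul (mul_ne_zero hi0 h0), Multiset.countP_add, h2]
      rcases eq_or_ne (a i) 0 with ha | ha
      · rw [Finset.filter_insert, if_neg (by simp [ha]), ha]; simp
      · rw [roots_C_mul_X_add_C _ ha]
        by_cases hx : a i * x + b i = 0
        · rw [Finset.filter_insert, if_neg (by simp [hx])]
          have : -((a i)⁻¹ * b i) = x := by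
            field_simp
            linear_combination -hx
          simp [this, ← Multiset.cons_zero]
        · rw [Finset.filter_insert, if_pos ⟨ha, hx⟩, Finset.card_insert_of_notMem (by simp [hi])]
          have : ¬ -((a i)⁻¹ * b i) = x := by
            intro he
            apply hx
            rw [← he]
            field_simp
            ring
          simp [this, ← Multiset.cons_zero, add_comm]

lemma natDegree_prod_linear (s : Finset ι) (a b : ι → ZMod p)
    (hab : ∀ i ∈ s, a i ≠ 0 ∨ b i ≠ 0) :
    (∏ i ∈ s, (C (a i) * X + C (b i))).natDegree = (s.filter fun i => a i ≠ 0).card := by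
  classical
  rw [natDegree_prod, Finset.card_filter]
  · refine Finset.sum_congr rfl fun i _ => ?_
    rcases eq_or_ne (a i) 0 with ha | ha
    · simp [ha]
    · rw [if_pos ha, natDegree_linear ha]
  · intro i hi h
    rcases hab i hi with ha | hb
    · exact ha (by simpa using congrArg (fun r : Polynomial (ZMod p) => r.coeff 1) h)
    · exact hb (by simpa using congrArg (fun r : Polynomial (ZMod p) => r.coeff 0) h)

/-- The trichotomy for a fully reducible lacunary polynomial. -/
theorem lacunary_trichotomy (s : Finset ι) (a b : ι → ZMod p)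
    (hab : ∀ i ∈ s, a i ≠ 0 ∨ b i ≠ 0) (W G H : Polynomial (ZMod p)) (k : ℕ) (hW0 : W ≠ 0)
    (hW : W.natDegree ≤ k) (hG : G.natDegree ≤ k) (hH : H.natDegree ≤ k) (hk : k < p)
    (heq : (∏ i ∈ s, (C (a i) * X + C (b i))) * W = X ^ p * G + H) :
    (s.filter fun i => a i ≠ 0).card ≤ 3 * k + 1 ∨
      (Finset.univ.filter fun x : ZMod p => ∀ i ∈ s, a i * x + b i ≠ 0).card ≤ k ∨
      ∃ x : ZMod p, (s.filter fun i => a i ≠ 0 ∧ a i * x + b i ≠ 0).card ≤ k ∧
        p ≤ (s.filter fun i => a i ≠ 0).card + k := by
  classical
  obtain ⟨hP0, hPcard, hPcount⟩ := roots_prod_linear s a b hab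
  set P := ∏ i ∈ s, (C (a i) * X + C (b i)) with hP
  have hf0 : P * W ≠ 0 := mul_ne_zero hP0 hW0
  have hle : P.roots ≤ (P * W).roots := by
    rw [roots_mul hf0]; exact le_add_right le_rfl
  by_cases h1 : X * G + H = 0
  · -- the product meets almost every element
    refine Or.inr (Or.inl ?_)
    refine le_trans ?_ ((card_roots' W).trans hW)
    refine le_trans (Finset.card_le_card fun x hx => ?_) W.roots.toFinset_card_le
    have hz : (P * W).eval x = 0 := by
      rw [heq, eval_add, eval_mul, eval_pow, eval_X, ZMod.pow_card]
      have := congrArg (fun r : Polynomial (ZMod p) => r.eval x) h1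
      simpa using this
    rw [eval_mul, mul_eq_zero] at hz
    rcases hz with hz | hz
    · rw [hP, eval_prod, Finset.prod_eq_zero_iff] at hz
      obtain ⟨i, hi, hi0⟩ := hz
      exact absurd (by simpa using hi0) ((Finset.mem_filter.1 hx).2 i hi)
    · simp [mem_roots hW0, hz]
  by_cases h2 : derivative H * G - H * derivative G = 0
  · rcases eq_or_ne G 0 with rfl | hG0
    · -- no top part
      refine Or.inl ?_
      rw [← hPcard]
      refine le_trans (le_trans (Multiset.card_le_card hle) ((card_roots' _).trans ?_))
        (show k ≤ 3 * k + 1 by omega)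
      rw [heq, mul_zero, zero_add]; exact hH
    · -- almost all factors share a zero
      obtain ⟨c, rfl⟩ := eq_C_mul_of_wronskian hG0 (by omega) (by omega) (sub_eq_zero.1 h2)
      refine Or.inr (Or.inr ⟨-c, ?_, ?_⟩)
      swap
      · have hdeg : (P * W).natDegree = (G * (X + C c) ^ p).natDegree := by
          rw [heq, add_pow_char, ← C_pow, ZMod.pow_card]; congr 1; ring
        rw [natDegree_mul hP0 hW0, natDegree_mul hG0 (pow_ne_zero _ (X_add_C_ne_zero c)),
          natDegree_pow, natDegree_X_add_C, natDegree_prod_linear s a b hab] at hdeg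
        omega
      rw [← hPcount]
      have hfac : P * W = G * (X + C c) ^ p := by
        rw [heq, add_pow_char, ← C_pow, ZMod.pow_card]; ring
      have hG' : G * (X + C c) ^ p ≠ 0 := by rw [← hfac]; exact hf0
      refine le_trans (Multiset.countP_le_of_le _ hle) ?_
      rw [hfac, roots_mul hG', Multiset.countP_add, roots_pow, roots_X_add_C,
        Multiset.nsmul_singleton]
      have hz : Multiset.countP (fun y => y ≠ -c) (Multiset.replicate p (-c)) = 0 :=
        Multiset.countP_eq_zero.2 fun y hy => by simp [Multiset.eq_of_mem_replicate hy]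
      rw [hz, add_zero]
      exact (Multiset.countP_le_card _ _).trans ((card_roots' G).trans hG)
  · -- few roots in total
    refine Or.inl ?_
    rw [← hPcard]
    refine le_trans (Multiset.card_le_card hle) ?_
    have hroots := roots_lacunary_le (P * W) G H heq hf0 h1 h2
    refine le_trans (Multiset.card_le_card hroots) ?_
    rw [Multiset.card_add]
    have e1 : (X * G + H).natDegree ≤ k + 1 :=
      (natDegree_add_le _ _).trans (max_le
        (natDegree_mul_le.trans (by rw [natDegree_X]; omega)) (by omega))
    have e2 : (derivative H * G - H * derivative G).natDegree ≤ 2 * k := by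
      refine (natDegree_sub_le _ _).trans (max_le ?_ ?_) <;>
        refine natDegree_mul_le.trans ?_
      · have := natDegree_derivative_le H; omega
      · have := natDegree_derivative_le G; omega
    have := card_roots' (X * G + H)
    have := card_roots' (derivative H * G - H * derivative G)
    omega

end Vale.Agent.P045.H84.Redei
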