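import Mathlib
import Vale.Agent.P045.H84.AlgPoly

/-!
# The Rédei trichotomy in a chart

Affine forms `α t + β u + γ`, none proportional to `u`, that meet almost all points with `u ≠ 0`:
in the chart `(t, u) ↦ (t / u, 1 / u)` their product times a small vanishing polynomial is
lacunary along the line `u = 0`.
-/

namespace Vale.Agent.P045.H84.Redei

open Polynomial

variable {p : ℕ} [hp : Fact p.Prime]

/-- Substitution `X₀ ↦ S T`, `X₁ ↦ T`. -/
noncomputable def subst :
    MvPolynomial (Fin 2) (ZMod p) →ₐ[ZMod p] Polynomial (Polynomial (ZMod p)) :=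
  MvPolynomial.aeval ![Polynomial.C Polynomial.X * Polynomial.X, Polynomial.X]

lemma subst_monomial (s : Fin 2 →₀ ℕ) (c : ZMod p) :
    subst (MvPolynomial.monomial s c) =
      Polynomial.C (Polynomial.C c * Polynomial.X ^ s 0) * Polynomial.X ^ (s 0 + s 1) := by
  rw [subst, MvPolynomial.aeval_monomial, Finsupp.prod_fintype _ _ (fun _ => pow_zero _),
    Fin.prod_univ_two]
  simp [map_mul, mul_pow, pow_add, Polynomial.algebraMap_eq]
  ring

lemma coeff_subst (f : MvPolynomial (Fin 2) (ZMod p)) (j : ℕ) :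
    (subst f).coeff j = ∑ s ∈ f.support.filter (fun s => s 0 + s 1 = j),
      Polynomial.C (f.coeff s) * Polynomial.X ^ s 0 := by
  classical
  conv_lhs => rw [f.as_sum, map_sum, Polynomial.finsetSum_coeff]
  rw [Finset.sum_filter]
  refine Finset.sum_congr rfl fun s _ => ?_
  rw [subst_monomial, Polynomial.coeff_C_mul, Polynomial.coeff_X_pow]
  by_cases h : s 0 + s 1 = j
  · rw [if_pos h, if_pos h.symm, mul_one]
  · rw [if_neg h, if_neg (Ne.symm h), mul_zero]

lemma degree_eq_add (s : Fin 2 →₀ ℕ) : (s.sum fun _ e => e) = s 0 + s 1 := by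
  rw [Finsupp.sum_fintype _ _ (fun _ => rfl), Fin.sum_univ_two]

lemma natDegree_subst_le (f : MvPolynomial (Fin 2) (ZMod p)) :
    (subst f).natDegree ≤ f.totalDegree := by
  refine Polynomial.natDegree_le_iff_coeff_eq_zero.2 fun j hj => ?_
  rw [coeff_subst]
  refine Finset.sum_eq_zero fun s hs => ?_
  obtain ⟨hs, hs'⟩ := Finset.mem_filter.1 hs
  have := MvPolynomial.le_totalDegree hs
  rw [degree_eq_add] at this
  omega

lemma natDegree_coeff_subst_le (f : MvPolynomial (Fin 2) (ZMod p)) (j : ℕ) :
    ((subst f).coeff j).natDegree ≤ j := by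
  rw [coeff_subst]
  refine Polynomial.natDegree_sum_le_of_forall_le _ _ fun s hs => ?_
  refine (Polynomial.natDegree_C_mul_X_pow_le _ _).trans ?_
  have := (Finset.mem_filter.1 hs).2
  omega

lemma coeff_subst_totalDegree_ne_zero {f : MvPolynomial (Fin 2) (ZMod p)} (hf : f ≠ 0) :
    (subst f).coeff f.totalDegree ≠ 0 := by
  classical
  obtain ⟨s, hs, hmax⟩ := Finset.exists_mem_eq_sup f.support
    (MvPolynomial.support_nonempty.2 hf) (fun s => s.sum fun _ e => e)
  have hd : f.totalDegree = s 0 + s 1 := by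
    rw [← degree_eq_add]; exact hmax
  intro h
  have h2 := congrArg (fun r : Polynomial (ZMod p) => r.coeff (s 0)) h
  rw [coeff_subst, hd] at h2
  simp only [Polynomial.finsetSum_coeff, Polynomial.coeff_C_mul_X_pow, Polynomial.coeff_zero] at h2
  rw [Finset.sum_eq_single s, if_pos rfl] at h2
  · exact MvPolynomial.mem_support_iff.1 hs h2
  · intro t ht hne
    rw [if_neg]
    intro h0
    apply hne
    have := (Finset.mem_filter.1 ht).2
    ext i
    fin_cases i
    · exact h0.symm
    · show t 1 = s 1; omega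
  · intro h0
    exact absurd (Finset.mem_filter.2 ⟨hs, by omega⟩) h0

/-- A nonzero polynomial of small degree vanishing on a given finite set. -/
lemma exists_vanishing (U : Finset (ZMod p × ZMod p)) :
    ∃ w : MvPolynomial (Fin 2) (ZMod p), w ≠ 0 ∧ w.totalDegree ≤ 2 * Nat.sqrt U.card ∧
      ∀ x ∈ U, MvPolynomial.eval ![x.1, x.2] w = 0 := by
  classical
  set d := Nat.sqrt U.card with hd
  let expo : Fin (d + 1) × Fin (d + 1) → (Fin 2 →₀ ℕ) := fun ij =>
    Finsupp.single 0 (ij.1 : ℕ) + Finsupp.single 1 (ij.2 : ℕ)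
  have he0 : ∀ ij, expo ij 0 = ij.1 := fun ij => by simp [expo]
  have he1 : ∀ ij, expo ij 1 = ij.2 := fun ij => by simp [expo]
  let mk : (Fin (d + 1) × Fin (d + 1) → ZMod p) →ₗ[ZMod p] MvPolynomial (Fin 2) (ZMod p) :=
    ∑ ij, (MvPolynomial.monomial (expo ij)).comp (LinearMap.proj ij)
  let ev : MvPolynomial (Fin 2) (ZMod p) →ₗ[ZMod p] (U → ZMod p) :=
    LinearMap.pi fun x => (MvPolynomial.aeval ![x.1.1, x.1.2]).toLinearMap
  have hlt : Module.finrank (ZMod p) (U → ZMod p) <
      Module.finrank (ZMod p) (Fin (d + 1) × Fin (d + 1) → ZMod p) := by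
    simp only [Module.finrank_fintype_fun_eq_card, Fintype.card_coe, Fintype.card_prod,
      Fintype.card_fin]
    exact Nat.lt_succ_sqrt U.card
  obtain ⟨c, hc, hc0⟩ := Submodule.exists_mem_ne_zero_of_ne_bot
    (LinearMap.ker_ne_bot_of_finrank_lt (f := ev.comp mk) hlt)
  have hmk : ∀ c : Fin (d + 1) × Fin (d + 1) → ZMod p,
      mk c = ∑ ij, MvPolynomial.monomial (expo ij) (c ij) := fun c => by simp [mk]
  refine ⟨mk c, ?_, ?_, fun x hx => ?_⟩
  · intro h0
    apply hc0
    funext ij
    have h1 := congrArg (MvPolynomial.coeff (expo ij)) h0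
    rw [hmk, MvPolynomial.coeff_sum, Finset.sum_eq_single ij] at h1
    · simpa using h1
    · intro kl _ hne
      rw [MvPolynomial.coeff_monomial, if_neg]
      intro he
      apply hne
      have a0 := congrArg (fun s : Fin 2 →₀ ℕ => s 0) he
      have a1 := congrArg (fun s : Fin 2 →₀ ℕ => s 1) he
      simp only [he0, he1] at a0 a1
      exact Prod.ext (Fin.ext a0) (Fin.ext a1)
    · simp
  · rw [hmk]
    refine (MvPolynomial.totalDegree_finsetSum _ _).trans (Finset.sup_le fun ij _ => ?_)
    by_cases h : c ij = 0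
    · simp [h]
    · rw [MvPolynomial.totalDegree_monomial _ h, degree_eq_add, he0, he1]
      omega
  · have := congrFun (LinearMap.mem_ker.1 hc) ⟨x, hx⟩
    simpa [ev, MvPolynomial.aeval_eq_eval] using this

lemma subst_prod_coeff {ι : Type*} (s : Finset ι) (f : ι → MvPolynomial (Fin 2) (ZMod p))
    (hf : ∀ i ∈ s, (f i).totalDegree ≤ 1) :
    (subst (∏ i ∈ s, f i)).natDegree ≤ s.card ∧
      (subst (∏ i ∈ s, f i)).coeff s.card = ∏ i ∈ s, (subst (f i)).coeff 1 := by
  classical
  induction s using Finset.induction_on with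
  | empty => simp
  | insert i s hi ih =>
    obtain ⟨h1, h2⟩ := ih fun j hj => hf j (Finset.mem_insert_of_mem hj)
    have h3 : (subst (f i)).natDegree ≤ 1 :=
      (natDegree_subst_le _).trans (hf i (Finset.mem_insert_self i s))
    rw [Finset.prod_insert hi, map_mul, Finset.card_insert_of_notMem hi, Finset.prod_insert hi,
      add_comm s.card 1]
    exact ⟨Polynomial.natDegree_mul_le.trans (add_le_add h3 h1),
      by rw [Polynomial.coeff_mul_add_eq_of_natDegree_le h3 h1, h2]⟩

/-- The chart version of the trichotomy. -/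
theorem chart_trichotomy {ι : Type*} (s : Finset ι) (α β γ : ι → ZMod p)
    (hne : ∀ i ∈ s, α i ≠ 0 ∨ γ i ≠ 0) (U : Finset (ZMod p × ZMod p))
    (hU : ∀ t u : ZMod p, u ≠ 0 → (∀ i ∈ s, α i * t + β i * u + γ i ≠ 0) → (t, u) ∈ U)
    (k : ℕ) (hk : k < p) (hk1 : s.card + 1 + 2 * Nat.sqrt U.card ≤ p + k)
    (hk2 : 2 * Nat.sqrt U.card + 1 ≤ k) :
    (s.filter fun i => α i ≠ 0).card ≤ 3 * k + 1 ∨
      (Finset.univ.filter fun t : ZMod p => ∀ i ∈ s, α i * t + γ i ≠ 0).card ≤ k ∨
      ∃ t : ZMod p, (s.filter fun i => α i ≠ 0 ∧ α i * t + γ i ≠ 0).card ≤ k ∧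
        p ≤ (s.filter fun i => α i ≠ 0).card + k := by
  classical
  set U' := U.image fun x : ZMod p × ZMod p => (x.1 * x.2⁻¹, x.2⁻¹) with hU'
  have hcard : U'.card ≤ U.card := Finset.card_image_le
  obtain ⟨w, hw0, hwd, hw⟩ := exists_vanishing U'
  have hwd' : w.totalDegree ≤ 2 * Nat.sqrt U.card :=
    hwd.trans (Nat.mul_le_mul le_rfl (Nat.sqrt_le_sqrt hcard))
  set lin : ι → MvPolynomial (Fin 2) (ZMod p) := fun i =>
    MvPolynomial.C (α i) * MvPolynomial.X 0 + MvPolynomial.C (γ i) * MvPolynomial.X 1 +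
      MvPolynomial.C (β i) with hlin
  have hlind : ∀ i, (lin i).totalDegree ≤ 1 := fun i => by
    refine (MvPolynomial.totalDegree_add _ _).trans (max_le
      ((MvPolynomial.totalDegree_add _ _).trans (max_le ?_ ?_)) (by simp))
    all_goals exact (MvPolynomial.totalDegree_mul _ _).trans (by simp)
  set f := (∏ i ∈ s, lin i) * (MvPolynomial.X 1 * w) with hf
  set D := s.card + (1 + w.totalDegree) with hD
  have hfD : f.totalDegree ≤ D := by
    refine (MvPolynomial.totalDegree_mul _ _).trans (add_le_add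
      ((MvPolynomial.totalDegree_finsetProd _ _).trans ?_)
      ((MvPolynomial.totalDegree_mul _ _).trans (by simp)))
    simpa using Finset.sum_le_card_nsmul s _ 1 fun i _ => hlind i
  have hvan : ∀ x : Fin 2 → ZMod p, (∀ i, x i ∈ (Finset.univ : Finset (ZMod p))) →
      MvPolynomial.eval x f = 0 := by
    intro x _
    rw [hf, map_mul, map_mul, MvPolynomial.eval_X, map_prod]
    rcases eq_or_ne (x 1) 0 with h | h
    · simp [h]
    by_cases hex : ∃ i ∈ s, α i * (x 0 / x 1) + β i * (x 1)⁻¹ + γ i = 0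
    · obtain ⟨i, hi, h0⟩ := hex
      rw [Finset.prod_eq_zero hi, zero_mul]
      simp only [hlin, map_add, map_mul, MvPolynomial.eval_C, MvPolynomial.eval_X]
      field_simp at h0
      linear_combination h0
    · push Not at hex
      have hm := hU (x 0 / x 1) (x 1)⁻¹ (inv_ne_zero h) hex
      have hm' : (x 0, x 1) ∈ U' := Finset.mem_image.2
        ⟨_, hm, by simp [div_mul_cancel₀ _ h]⟩
      have hx : ![x 0, x 1] = x := by funext i; fin_cases i <;> rfl
      have := hw _ hm'
      rw [hx] at this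
      rw [this, mul_zero, mul_zero]
  obtain ⟨hh, hhd, hhf⟩ := MvPolynomial.combinatorial_nullstellensatz_exists_linearCombination
    (fun _ => (Finset.univ : Finset (ZMod p))) (fun _ => Finset.univ_nonempty) f hvan
  rw [Finsupp.linearCombination_apply, Finsupp.sum,
    Finset.sum_subset (Finset.subset_univ _) (fun i _ hi => by
      rw [Finsupp.notMem_support_iff.1 hi, zero_smul]),
    Fin.sum_univ_two, smul_eq_mul, smul_eq_mul] at hhf
  -- degree bookkeeping for one block
  have hblock : ∀ i : Fin 2,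
      (subst (hh i * ∏ r : ZMod p, (MvPolynomial.X i - MvPolynomial.C r))).coeff D =
        (![Polynomial.X, 1] i) ^ p * (subst (hh i)).coeff (D - p) ∧
      (hh i ≠ 0 → p ≤ D) := by
    intro i
    set P := ∏ r : ZMod p, (MvPolynomial.X i - MvPolynomial.C r) with hP
    have hPd : ∀ r ∈ (Finset.univ : Finset (ZMod p)),
        (MvPolynomial.X i - MvPolynomial.C r).totalDegree ≤ 1 := fun r _ =>
      (MvPolynomial.totalDegree_sub _ _).trans (by simp)
    obtain ⟨hPn, hPc⟩ := subst_prod_coeff Finset.univ _ hPd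
    rw [Finset.card_univ, ZMod.card] at hPn hPc
    have hPc' : (subst P).coeff p = (![Polynomial.X, 1] i) ^ p := by
      rw [hP, hPc]
      refine (Finset.prod_congr rfl fun r _ => ?_).trans (Finset.prod_const _) |>.trans
        (by rw [Finset.card_univ, ZMod.card])
      fin_cases i <;> simp [subst, Polynomial.coeff_C]
    have hP0 : P ≠ 0 := by
      intro h0
      rw [h0, map_zero, Polynomial.coeff_zero] at hPc'
      exact pow_ne_zero p (by fin_cases i <;> simp [Polynomial.X_ne_zero]) hPc'.symm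
    by_cases hi : hh i = 0
    · simp [hi]
    have hdeg : P.totalDegree + (hh i).totalDegree ≤ D := by
      rw [← MvPolynomial.totalDegree_mul_of_isDomain hP0 hi]
      exact (hhd i).trans hfD
    have hp' : p ≤ P.totalDegree := by
      refine le_trans ?_ (natDegree_subst_le P)
      refine Polynomial.le_natDegree_of_ne_zero ?_
      rw [hPc']
      fin_cases i <;> simp [Polynomial.X_ne_zero]
    refine ⟨?_, fun _ => by omega⟩
    rw [map_mul, mul_comm, show D = p + (D - p) by omega,
      Polynomial.coeff_mul_add_eq_of_natDegree_le hPn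
        ((natDegree_subst_le _).trans (by omega)), hPc', Nat.add_sub_cancel_left]
  -- the top coefficient of `f`
  set P1 := ∏ i ∈ s, (Polynomial.C (α i) * Polynomial.X + Polynomial.C (γ i)) with hP1
  set W := (subst w).coeff w.totalDegree with hWdef
  have htop : (subst f).coeff D = P1 * W := by
    obtain ⟨hn, hc⟩ := subst_prod_coeff s lin fun i _ => hlind i
    rw [hf, map_mul, map_mul, hD, Polynomial.coeff_mul_add_eq_of_natDegree_le hn
      (Polynomial.natDegree_mul_le.trans (add_le_add
        ((natDegree_subst_le _).trans (by simp)) (natDegree_subst_le _))), hc,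
      Polynomial.coeff_mul_add_eq_of_natDegree_le
        ((natDegree_subst_le _).trans (by simp)) (natDegree_subst_le _)]
    congr 1
    · refine Finset.prod_congr rfl fun i _ => ?_
      simp [hlin, subst, Polynomial.coeff_C, Polynomial.algebraMap_eq, Polynomial.coeff_C_mul]
    · simp [subst, hWdef]
  have hsplit : (subst f).coeff D =
      Polynomial.X ^ p * (subst (hh 0)).coeff (D - p) + (subst (hh 1)).coeff (D - p) := by
    conv_lhs => rw [hhf, map_add, Polynomial.coeff_add, (hblock 0).1, (hblock 1).1]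
    simp
  refine lacunary_trichotomy s α γ hne W ((subst (hh 0)).coeff (D - p))
    ((subst (hh 1)).coeff (D - p)) k (coeff_subst_totalDegree_ne_zero hw0)
    ((natDegree_coeff_subst_le _ _).trans (by omega))
    ((natDegree_coeff_subst_le _ _).trans (by omega))
    ((natDegree_coeff_subst_le _ _).trans (by omega)) hk ?_
  rw [← hP1, ← htop, hsplit]

end Vale.Agent.P045.H84.Redei
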