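import Vale.Agent.P045.H84.Choice
import Vale.Agent.P045.H84.AlgChart

/-!
# Stability of near-blocking families of lines over a prime field

If about `q` lines leave few points uncovered then almost all of them are concurrent.

Proof plan.
* Fix `l₀ ∈ Cl` and move it to infinity (linear change of homogeneous coordinates). The other
  `n` lines cover all but `≤ U + q + 1` of the new affine points. Interpolate `w ≠ 0` with both
  degrees `≤ b / 2` vanishing there; `f = ∏ lines * w` vanishes on all of `F²`.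
* Combinatorial Nullstellensatz: `f = (X^q - X) A + (Y^q - Y) B` with degree bounds; top
  component with `Y = 1`: `F(X) W(X) = X^q g + h`, `deg g, deg h ≤ e := n + deg w - q ≤ 2 b`.
* A root of `F W` of multiplicity `m` is a root of `X g + h` and an `(m-1)`-fold root of
  `g' f₁ - g f₁' = g' h - g h'`. Hence at most `3 e + 1` finite roots unless
  (i) `X g + h = 0`: all but `≤ b` slopes occur, so `l₀` has `≤ b + 1` simple points, or
  (ii) `g' h = g h'` (`deg < p`): `h = c g`, one slope has all but `2 e` lines.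
  A large vertical class is also (ii).
* If (i) holds for every line, at most `m (b+1) + m q / 2` points are covered: impossible.
-/

namespace Vale.Agent.P045.H84

open Finset

variable {q : ℕ} [Fact q.Prime]

/-- A coordinate system in which the line `l₀` is the axis `u = 0`. -/
def chartPt : Line (ZMod q) → ZMod q × ZMod q → ZMod q × ZMod q
  | Sum.inl (m, b), x => (x.1, x.2 + m * x.1 + b)
  | Sum.inr c, x => (x.2 + c, x.1)

/-- Coefficients of a line in the coordinates of `chartPt l₀`. -/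
def chartCoef : Line (ZMod q) → Line (ZMod q) → ZMod q × ZMod q × ZMod q
  | Sum.inl (m, b), Sum.inl (m', b') => (m - m', 1, b - b')
  | Sum.inl _, Sum.inr c' => (1, 0, -c')
  | Sum.inr c, Sum.inl (m', b') => (1, -m', -(m' * c) - b')
  | Sum.inr c, Sum.inr c' => (0, 1, c - c')

lemma onLine_chartPt (l₀ l : Line (ZMod q)) (t u : ZMod q) :
    onLine (chartPt l₀ (t, u)) l ↔
      (chartCoef l₀ l).1 * t + (chartCoef l₀ l).2.1 * u + (chartCoef l₀ l).2.2 = 0 := by
  rcases l₀ with ⟨m, b⟩ | c <;> rcases l with ⟨m', b'⟩ | c' <;>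
    simp only [onLine, chartPt, chartCoef] <;>
    constructor <;> intro h <;> linear_combination h

lemma chartPt_injective (l₀ : Line (ZMod q)) : Function.Injective (chartPt l₀) := by
  rintro ⟨t, u⟩ ⟨t', u'⟩ h
  rcases l₀ with ⟨m, b⟩ | c <;> simp only [chartPt, Prod.ext_iff] at h ⊢ <;> obtain ⟨h1, h2⟩ := h
  · subst h1; exact ⟨rfl, by linear_combination h2⟩
  · exact ⟨h2, by linear_combination h1⟩

lemma onLine_self_iff (l₀ : Line (ZMod q)) (x : ZMod q × ZMod q) :
    onLine x l₀ ↔ ∃ t, chartPt l₀ (t, 0) = x := by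
  rcases l₀ with ⟨m, b⟩ | c <;> simp only [onLine, chartPt]
  · exact ⟨fun h => ⟨x.1, by ext <;> simp [h]⟩, by rintro ⟨t, rfl⟩; simp⟩
  · exact ⟨fun h => ⟨x.2, by ext <;> simp [h]⟩, by rintro ⟨t, rfl⟩; simp⟩

lemma card_onLine (l : Line (ZMod q)) :
    (univ.filter fun x : ZMod q × ZMod q => onLine x l).card = q := by
  have h : (univ.filter fun x : ZMod q × ZMod q => onLine x l) =
      (univ : Finset (ZMod q)).image fun t => chartPt l (t, 0) := by
    ext x; simp [onLine_self_iff l x, eq_comm]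
  rw [h, card_image_of_injective _ fun t t' htt => (Prod.ext_iff.1 (chartPt_injective l htt)).1,
    Finset.card_univ, ZMod.card]

lemma chartCoef_fst_eq_zero (l₀ l : Line (ZMod q)) :
    (chartCoef l₀ l).1 = 0 ↔ dirOf l = dirOf l₀ := by
  rcases l₀ with ⟨m, b⟩ | c <;> rcases l with ⟨m', b'⟩ | c' <;>
    simp [chartCoef, dirOf, sub_eq_zero, eq_comm]

lemma chartCoef_ne {l₀ l : Line (ZMod q)} (h : l ≠ l₀) :
    (chartCoef l₀ l).1 ≠ 0 ∨ (chartCoef l₀ l).2.2 ≠ 0 := by
  rcases l₀ with ⟨m, b⟩ | c <;> rcases l with ⟨m', b'⟩ | c' <;> simp [chartCoef, sub_eq_zero]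
  · by_contra hh
    push Not at hh
    exact h (by rw [hh.1, hh.2])
  · exact fun hh => h (by rw [hh])

/-- A line either yields a centre, or has few simple points. -/
lemma line_alternative (Cl : Finset (Line (ZMod q))) (b : ℕ) (h1 : Cl.card ≤ q + b)
    (h2 : 4 * ((uncov Cl).card + q + 1) ≤ b * b) (h3 : 20 * b + 20 ≤ q)
    {l₀ : Line (ZMod q)} (hl₀ : l₀ ∈ Cl) :
    (∃ z : Centre (ZMod q), (Cl.filter fun l => ¬ through z l).card ≤ 8 * b + 8) ∨
      (univ.filter fun x : ZMod q × ZMod q =>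
        onLine x l₀ ∧ ∀ l ∈ Cl, l ≠ l₀ → ¬ onLine x l).card ≤ 2 * b + 1 := by
  classical
  set s := Cl.erase l₀ with hs
  have hscard : s.card + 1 = Cl.card := card_erase_add_one hl₀
  set U := univ.filter fun x : ZMod q × ZMod q => ∀ l ∈ Cl, ¬ onLine (chartPt l₀ x) l with hU
  have hUc : U.card ≤ (uncov Cl).card :=
    card_le_card_of_injOn (chartPt l₀)
      (fun x hx => by
        have hx' := (mem_filter.1 hx).2
        exact mem_filter.2 ⟨mem_univ _, hx'⟩)
      fun x _ y _ hxy => chartPt_injective l₀ hxy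
  have hUs : 2 * Nat.sqrt U.card ≤ b := by
    have h := Nat.sqrt_le U.card
    by_contra hc
    push Not at hc
    have := Nat.mul_le_mul (show b + 1 ≤ 2 * Nat.sqrt U.card by omega)
      (show b + 1 ≤ 2 * Nat.sqrt U.card by omega)
    nlinarith
  have htri := Redei.chart_trichotomy s (fun l => (chartCoef l₀ l).1)
    (fun l => (chartCoef l₀ l).2.1) (fun l => (chartCoef l₀ l).2.2)
    (fun l hl => chartCoef_ne (ne_of_mem_erase hl)) U
    (fun t u hu hall => mem_filter.2 ⟨mem_univ _, fun l hl hon => by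
      rcases eq_or_ne l l₀ with rfl | hne
      · obtain ⟨t', ht'⟩ := (onLine_self_iff l _).1 hon
        exact hu (Prod.ext_iff.1 (chartPt_injective l ht')).2.symm
      · exact hall l (mem_erase.2 ⟨hne, hl⟩) ((onLine_chartPt l₀ l t u).1 hon)⟩)
    (2 * b + 1) (by omega) (by omega) (by omega)
  rcases htri with hA | hB | ⟨t, hC1, hC2⟩
  · refine Or.inl ⟨Sum.inr (dirOf l₀), le_trans (card_le_card fun l hl => ?_) (hA.trans (by omega))⟩
    obtain ⟨hl, hth⟩ := mem_filter.1 hl
    have hne : l ≠ l₀ := fun h => hth (by rw [h]; rfl)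
    exact mem_filter.2 ⟨mem_erase.2 ⟨hne, hl⟩, fun h => hth ((chartCoef_fst_eq_zero l₀ l).1 h)⟩
  · set T := univ.filter fun t : ZMod q =>
      ∀ l ∈ s, (chartCoef l₀ l).1 * t + (chartCoef l₀ l).2.2 ≠ 0 with hT
    have hTc : T.card ≤ 2 * b + 1 := by convert hB using 3
    refine Or.inr (le_trans (card_le_card (t := T.image fun t => chartPt l₀ (t, 0))
      fun x hx => ?_) (le_trans card_image_le hTc))
    obtain ⟨hx0, hx1⟩ := (mem_filter.1 hx).2
    obtain ⟨t, rfl⟩ := (onLine_self_iff l₀ x).1 hx0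
    refine mem_image.2 ⟨t, mem_filter.2 ⟨mem_univ _, fun l hl h => ?_⟩, rfl⟩
    refine hx1 l (mem_of_mem_erase hl) (ne_of_mem_erase hl) ((onLine_chartPt l₀ l t 0).2 ?_)
    rw [mul_zero, add_zero]; exact h
  · refine Or.inl ⟨Sum.inl (chartPt l₀ (t, 0)), ?_⟩
    have hsub : (Cl.filter fun l => ¬ through (Sum.inl (chartPt l₀ (t, 0))) l) ⊆
        (s.filter fun l => (chartCoef l₀ l).1 ≠ 0 ∧
          (chartCoef l₀ l).1 * t + (chartCoef l₀ l).2.2 ≠ 0) ∪
        (s.filter fun l => ¬ (chartCoef l₀ l).1 ≠ 0) := by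
      intro l hl
      obtain ⟨hl, hth⟩ := mem_filter.1 hl
      have hne : l ≠ l₀ := fun h => hth (by rw [h]; exact (onLine_self_iff l₀ _).2 ⟨t, rfl⟩)
      by_cases ha : (chartCoef l₀ l).1 = 0
      · exact mem_union_right _ (mem_filter.2 ⟨mem_erase.2 ⟨hne, hl⟩, fun h => h ha⟩)
      · refine mem_union_left _ (mem_filter.2 ⟨mem_erase.2 ⟨hne, hl⟩, ha, fun h => hth ?_⟩)
        refine (onLine_chartPt l₀ l t 0).2 ?_
        rw [mul_zero, add_zero]; exact h
    have hsplit := card_filter_add_card_filter_not (s := s)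
      (fun l => (chartCoef l₀ l).1 ≠ 0)
    have := (card_le_card hsub).trans (card_union_le _ _)
    omega

theorem stability (Cl : Finset (Line (ZMod q))) (b : ℕ) (h1 : Cl.card ≤ q + b)
    (h2 : 4 * ((uncov Cl).card + q + 1) ≤ b * b) (h3 : 20 * b + 20 ≤ q) :
    ∃ z : Centre (ZMod q), (Cl.filter fun l => ¬ through z l).card ≤ 8 * b + 8 := by
  classical
  by_contra hno
  set simp1 := fun l : Line (ZMod q) => univ.filter fun x : ZMod q × ZMod q =>
    onLine x l ∧ ∀ l' ∈ Cl, l' ≠ l → ¬ onLine x l'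
  have hsimple : ∀ l ∈ Cl, (simp1 l).card ≤ 2 * b + 1 := fun l hl =>
    (line_alternative Cl b h1 h2 h3 hl).resolve_left hno
  set cov := univ.filter fun x : ZMod q × ZMod q => ∃ l ∈ Cl, onLine x l with hcov
  have hpt : ∀ x ∈ cov, 2 ≤ ∑ l ∈ Cl,
      ((if onLine x l then 1 else 0) + (if x ∈ simp1 l then 1 else 0)) := by
    intro x hx
    obtain ⟨l, hl, hon⟩ := (mem_filter.1 hx).2
    by_cases h : ∃ l' ∈ Cl, l' ≠ l ∧ onLine x l'
    · obtain ⟨l', hl', hne, hon'⟩ := h
      refine le_trans ?_ (sum_le_sum_of_subset (s := {l', l})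
        (insert_subset_iff.2 ⟨hl', singleton_subset_iff.2 hl⟩))
      rw [sum_pair hne, if_pos hon', if_pos hon]
      omega
    · push Not at h
      refine le_trans ?_ (single_le_sum (fun _ _ => Nat.zero_le _) hl)
      rw [if_pos hon, if_pos (mem_filter.2 ⟨mem_univ _, hon, h⟩)]
  have hsum : 2 * cov.card ≤ Cl.card * (q + (2 * b + 1)) := by
    calc 2 * cov.card ≤ ∑ x ∈ cov, ∑ l ∈ Cl,
          ((if onLine x l then 1 else 0) + (if x ∈ simp1 l then 1 else 0)) := by
            rw [mul_comm, ← smul_eq_mul]; exact card_nsmul_le_sum _ _ _ hpt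
      _ ≤ ∑ x : ZMod q × ZMod q, ∑ l ∈ Cl,
          ((if onLine x l then 1 else 0) + (if x ∈ simp1 l then 1 else 0)) :=
            sum_le_sum_of_subset (subset_univ _)
      _ = ∑ l ∈ Cl, (q + (simp1 l).card) := by
          rw [sum_comm]
          refine sum_congr rfl fun l _ => ?_
          rw [sum_add_distrib, ← card_filter, card_onLine, ← card_filter]
          congr 2
          ext x; simp
      _ ≤ Cl.card * (q + (2 * b + 1)) := by
          rw [← smul_eq_mul]
          exact sum_le_card_nsmul _ _ _ fun l hl => Nat.add_le_add_left (hsimple l hl) q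
  have htot : q * q ≤ cov.card + (uncov Cl).card := by
    refine le_trans (le_of_eq ?_) (le_trans (card_le_card (s := univ) (t := cov ∪ uncov Cl)
      fun x _ => ?_) (card_union_le _ _))
    · rw [Finset.card_univ, Fintype.card_prod, ZMod.card]
    · by_cases h : ∃ l ∈ Cl, onLine x l
      · exact mem_union_left _ (mem_filter.2 ⟨mem_univ _, h⟩)
      · push Not at h
        exact mem_union_right _ (mem_filter.2 ⟨mem_univ _, h⟩)
  have hb : 20 * b * q + 20 * q ≤ q * q := by nlinarith
  have hbb : 20 * (b * b) + 20 * b ≤ q * b := by nlinarith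
  have := Nat.mul_le_mul h1 (le_refl (q + (2 * b + 1)))
  nlinarith

end Vale.Agent.P045.H84
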