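import Vale.Agent.P045.H84.Defs

/-!
# The random choice: parameters and the properties required of an outcome

`M` is a large natural number, `q` a prime with `M ^ 40 < q ≤ 2 * M ^ 40`, `F = ZMod q`.
An outcome is a map `ω : F → F`; the random lines of slope `d ≠ 0` have intercepts
`ω d, ω d + 1, ω d + 2`.
-/

namespace Vale.Agent.P045.H84

open Finset

variable {q : ℕ} [Fact q.Prime]

/-- Size of a group of slopes sharing a block. -/
def gSize (M : ℕ) : ℕ := M ^ 10

/-- Rows of each type in a block, before removals. -/
def poolSize (M : ℕ) : ℕ := M ^ 2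

/-- Number of sampled lines. -/
def kSize (M : ℕ) : ℕ := M ^ 35

/-- Threshold for rich lines. -/
def lThr (M : ℕ) : ℕ := M ^ 33

/-- The regime of the parameters. -/
structure Regime (M q : ℕ) : Prop where
  lo : M ^ 40 < q
  hi : q ≤ 2 * M ^ 40

/-- The directions whose lines through `p` are random lines. -/
def killsW (ω : ZMod q → ZMod q) (p : ZMod q × ZMod q) : Finset (ZMod q) :=
  univ.filter fun d => d ≠ 0 ∧ ∃ i : Fin 3, ω d + (i : ℕ) = icpt p d

/-- Points on no random line. -/
def liveW (ω : ZMod q → ZMod q) : Finset (ZMod q × ZMod q) :=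
  univ.filter fun p => killsW ω p = ∅

/-- The line is not one of the random lines. -/
def notRandom (ω : ZMod q → ZMod q) : Line (ZMod q) → Prop
  | Sum.inl (d, c) => ¬ (d ≠ 0 ∧ ∃ i : Fin 3, ω d + (i : ℕ) = c)
  | Sum.inr _ => True

/-- Block of a random line. -/
def blockOf (M : ℕ) (d : ZMod q) (i : Fin 3) : ℕ := (d.val / gSize M) * 3 + i

/-- Number of blocks. -/
def numBlocks (M q : ℕ) : ℕ := 3 * (q / gSize M + 1)

/-- The block and type of a row, before removals. -/
def lab0 (M : ℕ) (y : ZMod q) : Option (ℕ × Six) :=
  if y.val < numBlocks M q * 6 * poolSize M then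
    some (y.val / poolSize M / 6, ⟨y.val / poolSize M % 6, Nat.mod_lt _ (by norm_num)⟩)
  else none

/-- The rows of the pool of block `b` and type `S`. -/
def pool (M : ℕ) (b : ℕ) (S : Six) : Finset (ZMod q) :=
  univ.filter fun y => lab0 M y = some (b, S)

/-- Random lines of block `b` through `p`. -/
def blkThrough (M : ℕ) (ω : ZMod q → ZMod q) (p : ZMod q × ZMod q) (b : ℕ) :
    Finset (ZMod q) :=
  univ.filter fun d => d ≠ 0 ∧ ∃ i : Fin 3, ω d + (i : ℕ) = icpt p d ∧ blockOf M d i = b

/-- Rows of block `b` on which two random lines of block `b` meet. -/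
def forbidden (M : ℕ) (ω : ZMod q → ZMod q) (b : ℕ) : Finset (ZMod q) :=
  univ.filter fun y => (∃ S, lab0 M y = some (b, S)) ∧ ∃ x, 2 ≤ (blkThrough M ω (x, y) b).card

/-- Points lying on at least two lines of `A`. -/
def dbl (A : Finset (Line (ZMod q))) : Finset (ZMod q × ZMod q) :=
  univ.filter fun p => 2 ≤ (A.filter fun l => onLine p l).card

/-- Points of `dbl A` killed by the value `v` in direction `d`. -/
def load (A : Finset (Line (ZMod q))) (d v : ZMod q) : Finset (ZMod q × ZMod q) :=
  (dbl A).filter fun p => ∃ i : Fin 3, v + (i : ℕ) = icpt p d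

/-- Directions in which the random lines are rich for `A`. -/
def richDirs (M : ℕ) (ω : ZMod q → ZMod q) (A : Finset (Line (ZMod q))) :
    Finset (ZMod q) :=
  univ.filter fun d => d ≠ 0 ∧ lThr M ≤ (load A d (ω d)).card

/-- Double points of `A` outside the rich random lines. -/
def dblPoor (M : ℕ) (ω : ZMod q → ZMod q) (A : Finset (Line (ZMod q))) :
    Finset (ZMod q × ZMod q) :=
  (dbl A).filter fun p => ∀ d ∈ richDirs M ω A, p ∉ load A d (ω d)

/-- The properties required of an outcome. -/
structure Outcome (M : ℕ) (ω : ZMod q → ZMod q) : Prop where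
  /-- all other lines carry nearly the same number of live points -/
  lineCount : ∃ e, q ≤ 30 * e ∧ ∀ l : Line (ZMod q), notRandom ω l →
    e ≤ ((liveW ω).filter fun p => onLine p l).card ∧
      ((liveW ω).filter fun p => onLine p l).card ≤ e + q / M ^ 8
  /-- few random lines through each point -/
  killsLe : ∀ p, (killsW ω p).card ≤ M
  /-- in the pools, every random line has many points on no other random line -/
  poolGood : ∀ d : ZMod q, d ≠ 0 → ∀ (i : Fin 3) (S : Six),
    3 * M ≤ ((pool M (blockOf M d i) S).filter fun y =>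
      killsW ω (rowPt d (ω d + (i : ℕ)) y) = {d}).card
  /-- no four random lines of one block are concurrent -/
  fourFree : ∀ p b, (blkThrough M ω p b).card ≤ 3
  /-- at most one forbidden row in each block -/
  oneForbidden : ∀ b, (forbidden M ω b).card ≤ 1
  /-- double points of any `k` lines cannot nearly all be covered by poor random lines -/
  manyKilled : ∀ A : Finset (Line (ZMod q)), A.card = kSize M →
    M ^ 69 ≤ (dblPoor M ω A).card → M ^ 68 < (dbl A ∩ liveW ω).card

/-- Points on no line of `Cl`. -/
def uncov (Cl : Finset (Line (ZMod q))) : Finset (ZMod q × ZMod q) :=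
  univ.filter fun p => ∀ l ∈ Cl, ¬ onLine p l

end Vale.Agent.P045.H84
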