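import Mathlib

/-!
# A counterexample to the intersecting case of Ryser's conjecture: definitions

Parts of the hypergraph: the `q+1` directions of `AG(2,q)` together with four slot parts.
-/

namespace Vale.Agent.P045.H84

/-- The six 2-subsets of `Fin 4`, coded by a number `< 6`. -/
abbrev Six := Fin 6

/-- Membership table of the six pairs. -/
def mem : Six → Fin 4 → Bool
  | 0, i => i = 0 || i = 1
  | 1, i => i = 2 || i = 3
  | 2, i => i = 0 || i = 2
  | 3, i => i = 1 || i = 3
  | 4, i => i = 0 || i = 3
  | 5, i => i = 1 || i = 2

/-- The pairing (partition of `Fin 4` into two pairs) containing a pair. -/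
def pairing : Six → Fin 3
  | 0 => 0
  | 1 => 0
  | 2 => 1
  | 3 => 1
  | 4 => 2
  | 5 => 2

/-- Complementary pair. -/
def compl6 : Six → Six
  | 0 => 1
  | 1 => 0
  | 2 => 3
  | 3 => 2
  | 4 => 5
  | 5 => 4

theorem mem_compl6 : ∀ S i, mem (compl6 S) i = !mem S i := by decide

theorem rows_meet : ∀ S S', (∃ i, mem S i = true ∧ mem S' i = true) ∨ pairing S = pairing S' := by
  decide

theorem cols_meet : ∀ S S', (∃ i, mem S i = false ∧ mem S' i = false) ∨ pairing S = pairing S' := by
  decide

/-- Local vertices of a structured line: four slot classes and three versions. -/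
abbrev Loc := Fin 4 ⊕ Fin 3

/-- Which local vertices of a row (or of a random line) lie on an edge of type `S`. -/
def covR (S : Six) : Loc → Bool
  | Sum.inl i => mem S i
  | Sum.inr P => pairing S = P

/-- Which local vertices of a column lie on an edge of type `S`. -/
def covC (S : Six) : Loc → Bool
  | Sum.inl i => !mem S i
  | Sum.inr P => pairing S = P

variable (F : Type) [Field F] [Fintype F] [DecidableEq F]

/-- Affine lines: `inl (d, c)` is `y = d x + c`, `inr a` is `x = a`. -/
abbrev Line := (F × F) ⊕ F

variable {F}

/-- Incidence. -/
def onLine (p : F × F) : Line F → Prop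
  | Sum.inl (d, c) => p.2 = d * p.1 + c
  | Sum.inr a => p.1 = a

instance (p : F × F) : DecidablePred (onLine (F := F) p) := fun l => by
  rcases l with ⟨d, c⟩ | a <;> unfold onLine <;> infer_instance

/-- Direction of a line (`none` is vertical). -/
def dirOf : Line F → Option F
  | Sum.inl (d, _) => some d
  | Sum.inr _ => none

/-- A place where lines can be concurrent: an affine point or a direction. -/
abbrev Centre (F : Type) := (F × F) ⊕ Option F

/-- `l` passes through the centre `z`. -/
def through : Centre F → Line F → Prop
  | Sum.inl p, l => onLine p l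
  | Sum.inr o, l => dirOf l = o

instance (z : Centre F) : DecidablePred (through (F := F) z) := fun l => by
  rcases z with p | o <;> unfold through <;> infer_instance

/-- The intercept of the line of slope `d` through `p`. -/
def icpt (p : F × F) (d : F) : F := p.2 - d * p.1

theorem onLine_iff_icpt (p : F × F) (d c : F) :
    onLine p (Sum.inl (d, c) : Line F) ↔ icpt p d = c := by
  simp only [onLine, icpt]
  exact (sub_eq_iff_eq_add').symm

/-- Two points with the same intercept for two different slopes are equal. -/
theorem eq_of_icpt {p p' : F × F} {d e : F} (hde : d ≠ e) (h1 : icpt p d = icpt p' d)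
    (h2 : icpt p e = icpt p' e) : p = p' := by
  simp only [icpt] at h1 h2
  have h : (d - e) * (p.1 - p'.1) = 0 := by linear_combination h2 - h1
  rcases mul_eq_zero.mp h with h | h
  · exact absurd (sub_eq_zero.mp h) hde
  · have hx : p.1 = p'.1 := sub_eq_zero.mp h
    refine Prod.ext hx ?_
    rw [hx] at h1
    linear_combination h1

/-- The point of the line `y = d x + c` in row `y`. -/
def rowPt (d c y : F) : F × F := ((y - c) / d, y)

theorem icpt_rowPt {d : F} (hd : d ≠ 0) (c y : F) : icpt (rowPt d c y) d = c := by
  simp only [icpt, rowPt]
  field_simp
  ring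

variable (F)

/-- The combinatorial data: three random lines in every direction other than the horizontal and
vertical one, the block of each of them, and the labelled rows. -/
structure Config (B : Type) where
  /-- intercepts of the three lines of slope `d` -/
  t : F → Fin 3 → F
  t_inj : ∀ d, Function.Injective (t d)
  /-- block of a line -/
  blk : F → Fin 3 → B
  /-- labelled rows -/
  lab : F → Option (B × Six)

variable {F} {B : Type} [DecidableEq B]

namespace Config

variable (K : Config F B)

/-- The line of slope `d` and intercept `c` is one of the random lines. -/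
def isT (d c : F) : Prop := d ≠ 0 ∧ ∃ i, K.t d i = c

instance (d c : F) : Decidable (K.isT d c) := by unfold isT; infer_instance

/-- A line is not one of the random lines. -/
def nonT : Line F → Prop
  | Sum.inl (d, c) => ¬ K.isT d c
  | Sum.inr _ => True

instance : DecidablePred K.nonT := fun l => by
  rcases l with ⟨d, c⟩ | a <;> unfold nonT <;> infer_instance

/-- Directions of the random lines through `p`. -/
def kills (p : F × F) : Finset F := Finset.univ.filter fun d => K.isT d (icpt p d)

/-- Points on no random line. -/
def live : Finset (F × F) := Finset.univ.filter fun p => K.kills p = ∅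

/-- Points of a line. -/
def liveOn (l : Line F) : Finset (F × F) := K.live.filter fun p => onLine p l

/-- Designated points of type `S` on the random line `(d, i)`. -/
def desig (d : F) (i : Fin 3) (S : Six) : Finset (F × F) :=
  Finset.univ.filter fun p =>
    icpt p d = K.t d i ∧ K.kills p = {d} ∧ K.lab p.2 = some (K.blk d i, S)

/-- Rows carrying a label. -/
def labelled : Finset F := Finset.univ.filter fun y => (K.lab y).isSome

/-- An edge `(p, S)` is present. -/
def Valid (p : F × F) (S : Six) : Prop :=
  K.kills p = ∅ ∨ ∃ d i, p ∈ K.desig d i S

end Config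

/-- The parts. -/
abbrev Part (F : Type) := Option F ⊕ Fin 4

/-- The vertices of each part. -/
@[reducible] def Vert (F B : Type) : Part F → Type
  | Sum.inl _ => F × Option (Fin 3)
  | Sum.inr _ => (F ⊕ F) ⊕ B

namespace Config

variable (K : Config F B)

/-- Slot class of a row. -/
def rowClass (y : F) (i : Fin 4) : (F ⊕ F) ⊕ B :=
  match K.lab y with
  | some (b, S) => if mem S i then Sum.inr b else Sum.inl (Sum.inl y)
  | none => Sum.inl (Sum.inl y)

/-- Version used by the edge `(p, S)` in direction `o`. -/
def dirVert (p : F × F) (S : Six) : Option F → F × Option (Fin 3)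
  | none => (p.1, some (pairing S))
  | some d =>
    if d = 0 then (p.2, some (pairing S))
    else (icpt p d, if K.isT d (icpt p d) then some (pairing S) else none)

/-- Slot vertex used by the edge `(p, S)`. -/
def slotVert (p : F × F) (S : Six) (i : Fin 4) : (F ⊕ F) ⊕ B :=
  if mem S i then K.rowClass p.2 i else Sum.inl (Sum.inr p.1)

/-- The edge `(p, S)`. -/
def edge (p : F × F) (S : Six) : (i : Part F) → Vert F B i
  | Sum.inl o => K.dirVert p S o
  | Sum.inr i => K.slotVert p S i

end Config

end Vale.Agent.P045.H84
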