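import Vale.Agent.P045.H84.Choice

/-!
# Concurrency events: `fourFree` and `oneForbidden` fail with small probability
-/

namespace Vale.Agent.P045.H84

open Finset Filter

section Count

variable {ι V : Type*} [Fintype ι] [DecidableEq ι] [Fintype V] [DecidableEq V]

omit [DecidableEq V] in
/-- An event on which the coordinates in `D` are determined by the others is small. -/
theorem card_mul_pow_le (D : Finset ι) (Ev : Finset (ι → V))
    (h : ∀ ω ∈ Ev, ∀ ω' ∈ Ev, (∀ i, i ∉ D → ω i = ω' i) → ω = ω') :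
    Ev.card * Fintype.card V ^ D.card ≤ Fintype.card (ι → V) := by
  classical
  have h2 : (Ev ×ˢ (univ : Finset (D → V))).card ≤ (univ : Finset (ι → V)).card := by
    refine Finset.card_le_card_of_injOn
      (fun x i => if hi : i ∈ D then x.2 ⟨i, hi⟩ else x.1 i) (fun _ _ => mem_univ _) ?_
    rintro ⟨ω, σ⟩ hx ⟨ω', σ'⟩ hx' he
    simp only [coe_product, Set.mem_prod, mem_coe] at hx hx'
    obtain rfl : ω = ω' := h ω hx.1 ω' hx'.1 fun i hi => by
      have := congr_fun he i
      simpa [hi] using this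
    refine Prod.ext rfl (funext fun i => ?_)
    have := congr_fun he i.1
    simpa [i.2] using this
  simpa [Fintype.card_pi, card_product] using h2

/-- An event not depending on the coordinates in `S`, intersected with prescribed values on `S`. -/
theorem card_pinned_mul_pow_le (S : Finset ι) (π : ι → V) (Ev : Finset (ι → V))
    (h : ∀ ω ∈ Ev, ∀ ω', (∀ i, i ∉ S → ω i = ω' i) → ω' ∈ Ev) :
    (Ev.filter fun ω => ∀ i ∈ S, ω i = π i).card * Fintype.card V ^ S.card ≤ Ev.card := by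
  classical
  have h2 : ((Ev.filter fun ω => ∀ i ∈ S, ω i = π i) ×ˢ (univ : Finset (S → V))).card ≤
      Ev.card := by
    refine Finset.card_le_card_of_injOn
      (fun x i => if hi : i ∈ S then x.2 ⟨i, hi⟩ else x.1 i) ?_ ?_
    · rintro ⟨ω, σ⟩ hx
      simp only [coe_product, Set.mem_prod, mem_coe, mem_filter] at hx
      exact h ω hx.1.1 _ fun i hi => by simp [hi]
    rintro ⟨ω, σ⟩ hx ⟨ω', σ'⟩ hx' he
    simp only [coe_product, Set.mem_prod, mem_coe, mem_filter] at hx hx'
    obtain rfl : ω = ω' := funext fun i => by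
      by_cases hi : i ∈ S
      · rw [hx.1.2 i hi, hx'.1.2 i hi]
      · have := congr_fun he i
        simpa [hi] using this
    refine Prod.ext rfl (funext fun i => ?_)
    have := congr_fun he i.1
    simpa [i.2] using this
  simpa [Fintype.card_pi, card_product] using h2

end Count

variable {q : ℕ} [Fact q.Prime]

theorem card_q_pos : 0 < q := (Fact.out : q.Prime).pos

theorem card_fun_zmod : Fintype.card (ZMod q → ZMod q) = q ^ q := by
  rw [Fintype.card_pi]; simp [ZMod.card]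

/-- Bridge from `ncard` of an event to a finset bound. -/
theorem ncard_setOf_eq (P : (ZMod q → ZMod q) → Prop) [DecidablePred P] :
    {ω | P ω}.ncard = (univ.filter P).card := by
  rw [← Set.ncard_coe_finset]; simp

/-- Slopes of a group. -/
def grp (M c : ℕ) : Finset (ZMod q) := univ.filter fun d => d.val / gSize M = c

theorem card_grp_le (M c : ℕ) (hM : 0 < M) : (grp (q := q) M c).card ≤ gSize M := by
  have hG : 0 < gSize M := pow_pos hM 10
  calc (grp (q := q) M c).card ≤ (Finset.Ico (c * gSize M) ((c + 1) * gSize M)).card := by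
        refine Finset.card_le_card_of_injOn ZMod.val (fun d hd => ?_)
          (fun a _ b _ h => ZMod.val_injective q h)
        simp only [grp, coe_filter, Set.mem_ofPred_eq, mem_univ, true_and] at hd
        simp only [coe_Ico, Set.mem_Ico]
        exact ⟨(Nat.le_div_iff_mul_le hG).1 hd.ge,
          (Nat.div_lt_iff_lt_mul hG).1 (by omega)⟩
    _ = gSize M := by simp [add_mul]

theorem mem_blkThrough {M : ℕ} {ω : ZMod q → ZMod q} {p : ZMod q × ZMod q} {b : ℕ} {d : ZMod q}
    (h : d ∈ blkThrough M ω p b) :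
    d ≠ 0 ∧ d ∈ grp M (b / 3) ∧ b < numBlocks M q ∧
      ω d + (((b % 3 : ℕ) : ZMod q)) = icpt p d := by
  simp only [blkThrough, mem_filter, mem_univ, true_and] at h
  obtain ⟨hd, i, hi, hb⟩ := h
  have h3 : b / 3 = d.val / gSize M ∧ b % 3 = (i : ℕ) := by
    unfold blockOf at hb; omega
  refine ⟨hd, ?_, ?_, ?_⟩
  · simp [grp, h3.1]
  · have : d.val / gSize M ≤ q / gSize M := Nat.div_le_div_right (ZMod.val_lt d).le
    unfold numBlocks; omega
  · rw [h3.2]; exact hi

theorem fourFree_count (M : ℕ) (hM : 0 < M) :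
    {ω : ZMod q → ZMod q | ¬ ∀ p b, (blkThrough M ω p b).card ≤ 3}.ncard * q ^ 2 ≤
      numBlocks M q * gSize M ^ 4 * q ^ q := by
  classical
  rw [ncard_setOf_eq]
  set B := (univ : Finset (ZMod q → ZMod q)).filter
    fun ω => ¬ ∀ p b, (blkThrough M ω p b).card ≤ 3 with hB
  let E : (_ : ℕ) × (Fin 4 → ZMod q) → Finset (ZMod q → ZMod q) := fun x =>
    univ.filter fun ω => Function.Injective x.2 ∧ ∃ p : ZMod q × ZMod q,
      ∀ j, ω (x.2 j) + ((x.1 % 3 : ℕ) : ZMod q) = icpt p (x.2 j)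
  let I : Finset ((_ : ℕ) × (Fin 4 → ZMod q)) :=
    (Finset.range (numBlocks M q)).sigma fun b => Fintype.piFinset fun _ : Fin 4 => grp M (b / 3)
  have hsub : B ⊆ I.biUnion E := by
    intro ω hω
    simp only [hB, mem_filter, mem_univ, true_and, not_forall, not_le] at hω
    obtain ⟨p, b, hb⟩ := hω
    obtain ⟨s, hs, hs4⟩ := Finset.exists_subset_card_eq (n := 4) hb
    let e := (s.equivFinOfCardEq hs4).symm
    have hm : ∀ j, ((e j : ZMod q) ∈ blkThrough M ω p b) := fun j => hs (e j).2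
    refine mem_biUnion.2 ⟨⟨b, fun j => (e j : ZMod q)⟩, ?_, ?_⟩
    · simp only [I, mem_sigma, mem_range, Fintype.mem_piFinset]
      exact ⟨(mem_blkThrough (hm 0)).2.2.1, fun j => (mem_blkThrough (hm j)).2.1⟩
    · simp only [E, mem_filter, mem_univ, true_and]
      exact ⟨Subtype.val_injective.comp e.injective, p, fun j => (mem_blkThrough (hm j)).2.2.2⟩
  have hE : ∀ x ∈ I, (E x).card * q ^ 2 ≤ q ^ q := by
    rintro ⟨b, d⟩ -
    by_cases hd : Function.Injective d
    · have h := card_mul_pow_le ({d 2, d 3} : Finset (ZMod q)) (E ⟨b, d⟩) ?_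
      · rw [Finset.card_pair (hd.ne (by decide)), ZMod.card, card_fun_zmod] at h
        exact h
      intro ω hω ω' hω' hag
      simp only [E, mem_filter, mem_univ, true_and] at hω hω'
      obtain ⟨-, p, hp⟩ := hω
      obtain ⟨-, p', hp'⟩ := hω'
      have e0 : ω (d 0) = ω' (d 0) := hag _ (by
        simp only [mem_insert, mem_singleton, not_or]
        exact ⟨hd.ne (by decide), hd.ne (by decide)⟩)
      have e1 : ω (d 1) = ω' (d 1) := hag _ (by
        simp only [mem_insert, mem_singleton, not_or]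
        exact ⟨hd.ne (by decide), hd.ne (by decide)⟩)
      obtain rfl : p = p' := eq_of_icpt (hd.ne (by decide : (0 : Fin 4) ≠ 1))
        (by rw [← hp 0, ← hp' 0, e0]) (by rw [← hp 1, ← hp' 1, e1])
      funext z
      by_cases hz : z ∈ ({d 2, d 3} : Finset (ZMod q))
      · simp only [mem_insert, mem_singleton] at hz
        rcases hz with rfl | rfl
        · exact add_right_cancel ((hp 2).trans (hp' 2).symm)
        · exact add_right_cancel ((hp 3).trans (hp' 3).symm)
      · exact hag z hz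
    · simp [E, hd]
  have hI : I.card ≤ numBlocks M q * gSize M ^ 4 := by
    simp only [I, card_sigma, Fintype.card_piFinset, prod_const, card_univ, Fintype.card_fin]
    calc ∑ b ∈ Finset.range (numBlocks M q), (grp (q := q) M (b / 3)).card ^ 4
        ≤ ∑ _b ∈ Finset.range (numBlocks M q), gSize M ^ 4 :=
          sum_le_sum fun b _ => Nat.pow_le_pow_left (card_grp_le M _ hM) 4
      _ = _ := by simp
  calc B.card * q ^ 2 ≤ (∑ x ∈ I, (E x).card) * q ^ 2 :=
        Nat.mul_le_mul_right _ ((card_le_card hsub).trans card_biUnion_le)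
    _ = ∑ x ∈ I, (E x).card * q ^ 2 := sum_mul ..
    _ ≤ ∑ _x ∈ I, q ^ q := sum_le_sum hE
    _ ≤ numBlocks M q * gSize M ^ 4 * q ^ q := by
        rw [sum_const, smul_eq_mul]; exact Nat.mul_le_mul_right _ hI

/-- Rows of block `b`. -/
def blockRows (M b : ℕ) : Finset (ZMod q) := univ.filter fun y => ∃ S, lab0 M y = some (b, S)

theorem card_blockRows_le (M b : ℕ) (hM : 0 < M) :
    (blockRows (q := q) M b).card ≤ 6 * poolSize M := by
  have hP : 0 < poolSize M := pow_pos hM 2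
  calc (blockRows (q := q) M b).card
      ≤ (Finset.Ico (b * (6 * poolSize M)) ((b + 1) * (6 * poolSize M))).card := by
        refine Finset.card_le_card_of_injOn ZMod.val (fun y hy => ?_)
          (fun a _ b _ h => ZMod.val_injective q h)
        simp only [blockRows, coe_filter, Set.mem_ofPred_eq, mem_univ, true_and] at hy
        obtain ⟨S, hS⟩ := hy
        unfold lab0 at hS
        split_ifs at hS with h
        simp only [Option.some.injEq, Prod.mk.injEq] at hS
        have hb : y.val / (6 * poolSize M) = b := by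
          rw [mul_comm 6, ← Nat.div_div_eq_div_mul]; exact hS.1
        have hpos : 0 < 6 * poolSize M := by omega
        simp only [coe_Ico, Set.mem_Ico]
        exact ⟨(Nat.le_div_iff_mul_le hpos).1 hb.ge, (Nat.div_lt_iff_lt_mul hpos).1 (by omega)⟩
    _ = 6 * poolSize M := by simp [add_mul]

theorem oneForbidden_count (M : ℕ) (hM : 0 < M) :
    {ω : ZMod q → ZMod q | ¬ ∀ b, (forbidden M ω b).card ≤ 1}.ncard * q ^ 2 ≤
      numBlocks M q * ((6 * poolSize M) ^ 2 * gSize M ^ 4) * q ^ q := by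
  classical
  rw [ncard_setOf_eq]
  set B := (univ : Finset (ZMod q → ZMod q)).filter
    fun ω => ¬ ∀ b, (forbidden M ω b).card ≤ 1 with hB
  let pr : ℕ → ZMod q → ZMod q → ZMod q → (ZMod q → ZMod q) → Prop := fun b y a c ω =>
    ∃ x, ω a + ((b % 3 : ℕ) : ZMod q) = icpt (x, y) a ∧
      ω c + ((b % 3 : ℕ) : ZMod q) = icpt (x, y) c
  let E : (_ : ℕ) × ((ZMod q × ZMod q) × (Fin 4 → ZMod q)) → Finset (ZMod q → ZMod q) := fun x =>
    univ.filter fun ω => (x.2.2 0 ≠ 0 ∧ x.2.2 2 ≠ 0 ∧ x.2.2 0 ≠ x.2.2 1 ∧ x.2.2 2 ≠ x.2.2 3 ∧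
      x.2.2 3 ≠ x.2.2 0 ∧ x.2.2 3 ≠ x.2.2 1) ∧
      pr x.1 x.2.1.1 (x.2.2 0) (x.2.2 1) ω ∧ pr x.1 x.2.1.2 (x.2.2 2) (x.2.2 3) ω
  let I : Finset ((_ : ℕ) × ((ZMod q × ZMod q) × (Fin 4 → ZMod q))) :=
    (Finset.range (numBlocks M q)).sigma fun b => (blockRows M b ×ˢ blockRows M b) ×ˢ
      Fintype.piFinset fun _ : Fin 4 => grp M (b / 3)
  have hsub : B ⊆ I.biUnion E := by
    intro ω hω
    simp only [hB, mem_filter, mem_univ, true_and, not_forall, not_le] at hω
    obtain ⟨b, hb⟩ := hω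
    obtain ⟨y, hy, y', hy', hne⟩ := Finset.one_lt_card.1 hb
    simp only [forbidden, mem_filter, mem_univ, true_and] at hy hy'
    obtain ⟨hyb, x, hx⟩ := hy
    obtain ⟨hyb', x', hx'⟩ := hy'
    obtain ⟨a, ha, c, hc, hac⟩ := Finset.one_lt_card.1 hx
    obtain ⟨a', ha', c', hc', hac'⟩ := Finset.one_lt_card.1 hx'
    have Ha := mem_blkThrough ha
    have Hc := mem_blkThrough hc
    have Ha' := mem_blkThrough ha'
    have Hc' := mem_blkThrough hc'
    have key : ∀ u v, u ∈ grp M (b / 3) → v ∈ grp M (b / 3) → u ≠ 0 → u ≠ v → v ≠ a → v ≠ c →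
        pr b y' u v ω → ω ∈ I.biUnion E := by
      intro u v hu hv hu0 huv hva hvc hp
      refine mem_biUnion.2 ⟨⟨b, (y, y'), ![a, c, u, v]⟩, ?_, ?_⟩
      · simp only [I, mem_sigma, mem_range, mem_product, Fintype.mem_piFinset, blockRows,
          mem_filter, mem_univ, true_and]
        refine ⟨Ha.2.2.1, ⟨hyb, hyb'⟩, fun j => ?_⟩
        fin_cases j
        exacts [Ha.2.1, Hc.2.1, hu, hv]
      · simp only [E, mem_filter, mem_univ, true_and]
        exact ⟨⟨Ha.1, hu0, hac, huv, hva, hvc⟩, ⟨x, Ha.2.2.2, Hc.2.2.2⟩, hp⟩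
    by_cases h1 : c' ≠ a ∧ c' ≠ c
    · exact key a' c' Ha'.2.1 Hc'.2.1 Ha'.1 hac' h1.1 h1.2 ⟨x', Ha'.2.2.2, Hc'.2.2.2⟩
    by_cases h2 : a' ≠ a ∧ a' ≠ c
    · exact key c' a' Hc'.2.1 Ha'.2.1 Hc'.1 (Ne.symm hac') h2.1 h2.2
        ⟨x', Hc'.2.2.2, Ha'.2.2.2⟩
    exfalso
    rw [not_and_or, not_not, not_not] at h1 h2
    apply hne
    have hp : ((x, y) : ZMod q × ZMod q) = (x', y') := by
      rcases h1 with rfl | rfl <;> rcases h2 with rfl | rfl
      · exact absurd rfl hac'
      · exact eq_of_icpt hac' (Hc.2.2.2.symm.trans Ha'.2.2.2) (Ha.2.2.2.symm.trans Hc'.2.2.2)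
      · exact eq_of_icpt hac' (Ha.2.2.2.symm.trans Ha'.2.2.2) (Hc.2.2.2.symm.trans Hc'.2.2.2)
      · exact absurd rfl hac'
    exact congrArg Prod.snd hp
  have hE : ∀ x ∈ I, (E x).card * q ^ 2 ≤ q ^ q := by
    rintro ⟨b, ⟨y, y'⟩, d⟩ -
    by_cases hd : d 0 ≠ 0 ∧ d 2 ≠ 0 ∧ d 0 ≠ d 1 ∧ d 2 ≠ d 3 ∧ d 3 ≠ d 0 ∧ d 3 ≠ d 1
    · have h := card_mul_pow_le ({d 1, d 3} : Finset (ZMod q)) (E ⟨b, (y, y'), d⟩) ?_
      · rw [Finset.card_pair (Ne.symm hd.2.2.2.2.2), ZMod.card, card_fun_zmod] at h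
        exact h
      intro ω hω ω' hω' hag
      simp only [E, mem_filter, mem_univ, true_and] at hω hω'
      obtain ⟨-, ⟨x, hx0, hx1⟩, x', hx2, hx3⟩ := hω
      obtain ⟨-, ⟨z, hz0, hz1⟩, z', hz2, hz3⟩ := hω'
      have hxz : ∀ {u : ZMod q} {s t w : ZMod q}, u ≠ 0 → icpt (s, w) u = icpt (t, w) u → s = t := by
        intro u s t w hu h
        simp only [icpt, sub_right_inj] at h
        exact mul_left_cancel₀ hu h
      have e0 : ω (d 0) = ω' (d 0) := hag _ (by
        simp only [mem_insert, mem_singleton, not_or]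
        exact ⟨hd.2.2.1, Ne.symm hd.2.2.2.2.1⟩)
      obtain rfl : x = z := hxz hd.1 (by rw [← hx0, ← hz0, e0])
      have e1 : ω (d 1) = ω' (d 1) := add_right_cancel (hx1.trans hz1.symm)
      have e2 : ω (d 2) = ω' (d 2) := by
        by_cases h : d 2 = d 1
        · rw [h, e1]
        · exact hag _ (by simp only [mem_insert, mem_singleton, not_or]; exact ⟨h, hd.2.2.2.1⟩)
      obtain rfl : x' = z' := hxz hd.2.1 (by rw [← hx2, ← hz2, e2])
      have e3 : ω (d 3) = ω' (d 3) := add_right_cancel (hx3.trans hz3.symm)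
      funext u
      by_cases hu : u ∈ ({d 1, d 3} : Finset (ZMod q))
      · simp only [mem_insert, mem_singleton] at hu
        rcases hu with rfl | rfl <;> assumption
      · exact hag u hu
    · simp [E, hd]
  have hI : I.card ≤ numBlocks M q * ((6 * poolSize M) ^ 2 * gSize M ^ 4) := by
    simp only [I, card_sigma, card_product, Fintype.card_piFinset, prod_const, card_univ,
      Fintype.card_fin]
    refine (sum_le_sum (g := fun _ => (6 * poolSize M) ^ 2 * gSize M ^ 4) fun b _ => ?_).trans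
      (by simp)
    rw [← sq]
    exact Nat.mul_le_mul (Nat.pow_le_pow_left (card_blockRows_le M _ hM) 2)
      (Nat.pow_le_pow_left (card_grp_le M _ hM) 4)
  calc B.card * q ^ 2 ≤ (∑ x ∈ I, (E x).card) * q ^ 2 :=
        Nat.mul_le_mul_right _ ((card_le_card hsub).trans card_biUnion_le)
    _ = ∑ x ∈ I, (E x).card * q ^ 2 := sum_mul ..
    _ ≤ ∑ _x ∈ I, q ^ q := sum_le_sum hE
    _ ≤ numBlocks M q * ((6 * poolSize M) ^ 2 * gSize M ^ 4) * q ^ q := by
        rw [sum_const, smul_eq_mul]; exact Nat.mul_le_mul_right _ hI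

theorem ten_mul_le_of_count {N T : ℕ} (h : N * q ^ 2 ≤ T * q ^ q) (hT : 10 * T ≤ q ^ 2) :
    10 * N ≤ q ^ q := by
  have h1 : 10 * N * q ^ 2 ≤ q ^ q * q ^ 2 := by
    calc 10 * N * q ^ 2 ≤ 10 * (T * q ^ q) := by rw [mul_assoc]; exact Nat.mul_le_mul_left _ h
      _ = 10 * T * q ^ q := by ring
      _ ≤ q ^ 2 * q ^ q := Nat.mul_le_mul_right _ hT
      _ = _ := mul_comm _ _
  exact Nat.le_of_mul_le_mul_right h1 (pow_pos card_q_pos 2)

omit [Fact q.Prime] in
theorem numBlocks_mul_gSize_le {M : ℕ} (hM : 0 < M) (hR : Regime M q) :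
    numBlocks M q * gSize M ≤ 6 * q := by
  have hG : 0 < gSize M := pow_pos hM 10
  have h1 := Nat.div_mul_le_self q (gSize M)
  have h2 : gSize M ≤ q := (Nat.pow_le_pow_right hM (by norm_num)).trans hR.lo.le
  unfold numBlocks
  nlinarith

theorem fourFree_bad : ∀ᶠ M : ℕ in atTop, ∀ (q : ℕ) [Fact q.Prime], Regime M q →
    10 * {ω : ZMod q → ZMod q | ¬ ∀ p b, (blkThrough M ω p b).card ≤ 3}.ncard ≤ q ^ q := by
  filter_upwards [eventually_ge_atTop 4] with M hM q _ hR
  have hM0 : 0 < M := by omega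
  refine ten_mul_le_of_count (fourFree_count M hM0) ?_
  have h1 := numBlocks_mul_gSize_le hM0 hR
  have h2 : 60 * M ^ 30 ≤ M ^ 40 := by
    calc 60 * M ^ 30 ≤ M ^ 10 * M ^ 30 := by
          refine Nat.mul_le_mul_right _ (le_trans ?_ (Nat.pow_le_pow_left hM 10)); norm_num
      _ = M ^ 40 := by rw [← pow_add]
  calc 10 * (numBlocks M q * gSize M ^ 4)
      = 10 * (numBlocks M q * gSize M) * M ^ 30 := by simp only [gSize]; ring
    _ ≤ 10 * (6 * q) * M ^ 30 := Nat.mul_le_mul_right _ (Nat.mul_le_mul_left _ h1)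
    _ = q * (60 * M ^ 30) := by ring
    _ ≤ q * q := Nat.mul_le_mul_left _ (h2.trans hR.lo.le)
    _ = q ^ 2 := (sq q).symm

theorem oneForbidden_bad : ∀ᶠ M : ℕ in atTop, ∀ (q : ℕ) [Fact q.Prime], Regime M q →
    10 * {ω : ZMod q → ZMod q | ¬ ∀ b, (forbidden M ω b).card ≤ 1}.ncard ≤ q ^ q := by
  filter_upwards [eventually_ge_atTop 5] with M hM q _ hR
  have hM0 : 0 < M := by omega
  refine ten_mul_le_of_count (oneForbidden_count M hM0) ?_
  have h1 := numBlocks_mul_gSize_le hM0 hR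
  have h2 : 2160 * M ^ 34 ≤ M ^ 40 := by
    calc 2160 * M ^ 34 ≤ M ^ 6 * M ^ 34 := by
          refine Nat.mul_le_mul_right _ (le_trans ?_ (Nat.pow_le_pow_left hM 6)); norm_num
      _ = M ^ 40 := by rw [← pow_add]
  calc 10 * (numBlocks M q * ((6 * poolSize M) ^ 2 * gSize M ^ 4))
      = 10 * (numBlocks M q * gSize M) * (36 * M ^ 34) := by simp only [gSize, poolSize]; ring
    _ ≤ 10 * (6 * q) * (36 * M ^ 34) := Nat.mul_le_mul_right _ (Nat.mul_le_mul_left _ h1)
    _ = q * (2160 * M ^ 34) := by ring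
    _ ≤ q * q := Nat.mul_le_mul_left _ (h2.trans hR.lo.le)
    _ = q ^ 2 := (sq q).symm

end Vale.Agent.P045.H84
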