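import Mathlib

/-!
# Exponential moment of the number of points surviving independent kills

Backward induction over the indices: revealing one coordinate multiplies
`exp (μ a · #alive)` in expectation by at most `exp (- μ a κ #alive + μ² L κ #alive)`,
using `exp y ≤ 1 + y + y²` for `|y| ≤ 1`.
-/

namespace Vale.Agent.P045.H84

open Finset

/-- Points of `R` killed by no index of `I`. -/
noncomputable def aliveSet {ι V α : Type*} [DecidableEq α] (I : Finset ι)
    (K : ι → V → Finset α) (R : Finset α) (ω : ι → V) : Finset α := by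
  classical exact R.filter fun x => ∀ i ∈ I, x ∉ K i (ω i)

/-- Averaging over one coordinate does not change a sum over all outcomes. -/
theorem sum_update_coord {ι V : Type*} [Fintype ι] [DecidableEq ι] [Fintype V] (i : ι)
    (f : (ι → V) → ℝ) :
    ∑ ω : ι → V, ∑ v : V, f (Function.update ω i v) = (Fintype.card V : ℝ) * ∑ ω : ι → V, f ω := by
  rw [← Fintype.sum_prod_type']
  let e : (ι → V) × V ≃ (ι → V) × V :=
    { toFun := fun x => (Function.update x.1 i x.2, x.1 i)
      invFun := fun x => (Function.update x.1 i x.2, x.1 i)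
      left_inv := fun x => by simp
      right_inv := fun x => by simp }
  rw [Fintype.sum_equiv e (fun x => f (Function.update x.1 i x.2)) (fun x => f x.1) (fun x => rfl),
    Fintype.sum_prod_type]
  simp [Finset.mul_sum]

theorem mgf_alive_aux {ι V α : Type*} [Fintype ι] [DecidableEq ι] [Fintype V] [Nonempty V]
    [DecidableEq α] (I : Finset ι) (K : ι → V → Finset α) (R : Finset α) (L : ℕ) (κ μ : ℝ)
    (hκ0 : 0 ≤ κ) (hκ1 : κ ≤ 1) (hL : ∀ i ∈ I, ∀ v, (K i v ∩ R).card ≤ L)
    (hμ : |μ| * L ≤ 1)
    (hle : ∀ i ∈ I, ∀ x ∈ R,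
      ((univ.filter fun v => x ∈ K i v).card : ℝ) ≤ κ * Fintype.card V)
    (heq : 0 < μ → ∀ i ∈ I, ∀ x ∈ R,
      ((univ.filter fun v => x ∈ K i v).card : ℝ) = κ * Fintype.card V) :
    ∑ ω : ι → V, Real.exp (μ * (aliveSet I K R ω).card) ≤
      (Fintype.card V : ℝ) ^ Fintype.card ι *
        Real.exp (μ * (1 - κ) ^ I.card * R.card + I.card * κ * μ ^ 2 * L * R.card) := by
  classical
  induction I using Finset.induction_on generalizing μ with
  | empty =>
    have h : ∀ ω : ι → V, aliveSet (∅ : Finset ι) K R ω = R := by intro ω; simp [aliveSet]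
    simp [h, Fintype.card_fun]
  | insert i I hi ih =>
    set n : ℝ := (Fintype.card V : ℝ) with hn
    have hn0 : 0 < n := by rw [hn]; exact_mod_cast Fintype.card_pos
    have hupd : ∀ ω v, aliveSet (insert i I) K R (Function.update ω i v) =
        aliveSet I K R ω \ K i v := by
      intro ω v
      ext x
      simp only [aliveSet, mem_filter, mem_sdiff, mem_insert, forall_eq_or_imp,
        Function.update_self]
      constructor
      · rintro ⟨hx, h1, h2⟩
        refine ⟨⟨hx, fun j hj => ?_⟩, h1⟩
        have := h2 j hj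
        rwa [Function.update_of_ne (fun h : j = i => hi (h ▸ hj))] at this
      · rintro ⟨⟨hx, h2⟩, h1⟩
        refine ⟨hx, h1, fun j hj => ?_⟩
        rw [Function.update_of_ne (fun h : j = i => hi (h ▸ hj))]
        exact h2 j hj
    set μ' : ℝ := μ * (1 - κ) with hμ'
    have hsub : ∀ ω, aliveSet I K R ω ⊆ R := fun ω => by simp [aliveSet]
    have key : ∀ ω : ι → V, ∑ v, Real.exp (μ * (aliveSet (insert i I) K R
        (Function.update ω i v)).card) ≤
        n * (Real.exp (μ' * (aliveSet I K R ω).card) * Real.exp (κ * μ ^ 2 * L * R.card)) := by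
      intro ω
      set B := aliveSet I K R ω with hB
      have hX : ∀ v, ((aliveSet (insert i I) K R (Function.update ω i v)).card : ℝ) =
          (B.card : ℝ) - ((K i v ∩ B).card : ℝ) := by
        intro v
        rw [hupd, ← hB, eq_sub_iff_add_eq, ← Nat.cast_add, Nat.cast_inj, inter_comm]
        exact card_sdiff_add_card_inter B (K i v)
      have hXL : ∀ v, ((K i v ∩ B).card : ℝ) ≤ L := by
        intro v
        exact_mod_cast (card_le_card (inter_subset_inter_left (hsub ω))).trans
          (hL i (mem_insert_self i I) v)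
      have hsumX : ∑ v, ((K i v ∩ B).card : ℝ) =
          ∑ x ∈ B, ((univ.filter fun v => x ∈ K i v).card : ℝ) := by
        have h1 : ∀ v, ((K i v ∩ B).card : ℝ) = ∑ x ∈ B, (if x ∈ K i v then (1:ℝ) else 0) := by
          intro v
          rw [Finset.sum_boole, Finset.filter_mem_eq_inter, inter_comm]
        rw [Finset.sum_congr rfl fun v _ => h1 v, Finset.sum_comm]
        exact Finset.sum_congr rfl fun x _ => by rw [Finset.sum_boole]
      set T : ℝ := ∑ v, ((K i v ∩ B).card : ℝ) with hT
      have hT0 : 0 ≤ T := Finset.sum_nonneg fun v _ => Nat.cast_nonneg _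
      have hTle : T ≤ κ * n * B.card := by
        rw [hsumX]
        calc ∑ x ∈ B, ((univ.filter fun v => x ∈ K i v).card : ℝ) ≤ ∑ _x ∈ B, κ * n := by
              exact Finset.sum_le_sum fun x hx => hle i (mem_insert_self i I) x (hsub ω hx)
          _ = κ * n * B.card := by rw [Finset.sum_const, nsmul_eq_mul]; ring
      have hlin : -μ * T ≤ -μ * (κ * n * B.card) := by
        rcases le_or_gt μ 0 with h | h
        · exact mul_le_mul_of_nonneg_left hTle (by linarith)
        · have : T = κ * n * B.card := by
            rw [hsumX, Finset.sum_congr rfl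
              fun x hx => heq h i (mem_insert_self i I) x (hsub ω hx),
              Finset.sum_const, nsmul_eq_mul]
            ring
          rw [this]
      have hexp : ∀ y : ℝ, |y| ≤ 1 → Real.exp y ≤ 1 + y + y ^ 2 := fun y hy => by
        have := (abs_le.mp (Real.abs_exp_sub_one_sub_id_le hy)).2; linarith
      have hBR : (B.card : ℝ) ≤ R.card := by exact_mod_cast card_le_card (hsub ω)
      calc ∑ v, Real.exp (μ * (aliveSet (insert i I) K R (Function.update ω i v)).card)
          = Real.exp (μ * B.card) * ∑ v, Real.exp (-μ * ((K i v ∩ B).card : ℝ)) := by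
            rw [Finset.mul_sum]
            refine Finset.sum_congr rfl fun v _ => ?_
            rw [hX, ← Real.exp_add]; ring_nf
        _ ≤ Real.exp (μ * B.card) * ∑ v, (1 + -μ * ((K i v ∩ B).card : ℝ)
              + μ ^ 2 * L * ((K i v ∩ B).card : ℝ)) := by
            refine mul_le_mul_of_nonneg_left (Finset.sum_le_sum fun v _ => ?_) (Real.exp_pos _).le
            have h0 : (0:ℝ) ≤ ((K i v ∩ B).card : ℝ) := Nat.cast_nonneg _
            have habs : |-μ * ((K i v ∩ B).card : ℝ)| ≤ 1 := by
              rw [abs_mul, abs_neg, abs_of_nonneg h0]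
              exact (mul_le_mul_of_nonneg_left (hXL v) (abs_nonneg μ)).trans hμ
            refine (hexp _ habs).trans ?_
            have := mul_le_mul_of_nonneg_left (hXL v)
              (mul_nonneg (sq_nonneg μ) h0)
            nlinarith [this]
        _ = Real.exp (μ * B.card) * (n + -μ * T + μ ^ 2 * L * T) := by
            rw [Finset.sum_add_distrib, Finset.sum_add_distrib, ← Finset.mul_sum, ← Finset.mul_sum,
              Finset.sum_const, Finset.card_univ, nsmul_eq_mul, mul_one]
        _ ≤ Real.exp (μ * B.card) *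
              (n * (-μ * (κ * B.card) + μ ^ 2 * L * (κ * R.card) + 1)) := by
            refine mul_le_mul_of_nonneg_left ?_ (Real.exp_pos _).le
            have h2 : μ ^ 2 * L * T ≤ μ ^ 2 * L * (κ * n * R.card) := by
              refine mul_le_mul_of_nonneg_left (hTle.trans ?_) (by positivity)
              gcongr
            nlinarith [hlin, h2]
        _ ≤ Real.exp (μ * B.card) *
              (n * Real.exp (-μ * (κ * B.card) + μ ^ 2 * L * (κ * R.card))) := by
            gcongr; exact Real.add_one_le_exp _
        _ = _ := by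
            rw [mul_left_comm, ← Real.exp_add, ← Real.exp_add, hμ']; ring_nf
    have hμ'L : |μ'| * L ≤ 1 := by
      refine le_trans ?_ hμ
      rw [hμ', abs_mul, abs_of_nonneg (by linarith : (0:ℝ) ≤ 1 - κ)]
      refine mul_le_mul_of_nonneg_right ?_ (Nat.cast_nonneg _)
      exact mul_le_of_le_one_right (abs_nonneg μ) (by linarith)
    have hrec := ih μ' (fun j hj => hL j (mem_insert_of_mem hj)) hμ'L
      (fun j hj => hle j (mem_insert_of_mem hj))
      (fun h j hj => heq (by
        by_contra h'
        push Not at h'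
        exact absurd h (not_lt.mpr (mul_nonpos_of_nonpos_of_nonneg h' (by linarith))))
        j (mem_insert_of_mem hj))
    have havg := sum_update_coord i
      (fun ω => Real.exp (μ * (aliveSet (insert i I) K R ω).card))
    rw [← hn] at havg
    have h1 : ∑ ω : ι → V, Real.exp (μ * (aliveSet (insert i I) K R ω).card) ≤
        (∑ ω : ι → V, Real.exp (μ' * (aliveSet I K R ω).card)) *
          Real.exp (κ * μ ^ 2 * L * R.card) := by
      refine le_of_mul_le_mul_left ?_ hn0
      rw [← havg]
      refine (Finset.sum_le_sum fun ω _ => key ω).trans (le_of_eq ?_)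
      rw [Finset.sum_mul, Finset.mul_sum]
    refine h1.trans ((mul_le_mul_of_nonneg_right hrec (Real.exp_pos _).le).trans ?_)
    rw [mul_assoc, ← Real.exp_add, card_insert_of_notMem hi]
    refine mul_le_mul_of_nonneg_left (Real.exp_le_exp.mpr ?_) (by positivity)
    have hμsq : μ' ^ 2 ≤ μ ^ 2 := by
      rw [hμ', mul_pow]
      exact mul_le_of_le_one_right (sq_nonneg μ) (pow_le_one₀ (by linarith) (by linarith))
    have h2 : (I.card : ℝ) * κ * μ' ^ 2 * L * R.card ≤ I.card * κ * μ ^ 2 * L * R.card := by
      gcongr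
    have h3 : μ * (1 - κ) ^ (I.card + 1) = μ' * (1 - κ) ^ I.card := by rw [hμ', pow_succ]; ring
    rw [h3]
    push_cast
    linarith

theorem mgf_alive {ι V α : Type*} [Fintype ι] [DecidableEq ι] [Fintype V] [Nonempty V]
    [DecidableEq α] (I : Finset ι) (K : ι → V → Finset α) (R : Finset α) (L : ℕ) (κ μ : ℝ)
    (hκ0 : 0 ≤ κ) (hκ1 : κ ≤ 1) (hL : ∀ i ∈ I, ∀ v, (K i v ∩ R).card ≤ L)
    (hμ : |μ| * L ≤ 1)
    (hneg : μ < 0 → ∀ i ∈ I, ∀ x ∈ R,
      ((univ.filter fun v => x ∈ K i v).card : ℝ) ≤ κ * Fintype.card V)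
    (hpos : 0 ≤ μ → ∀ i ∈ I, ∀ x ∈ R,
      ((univ.filter fun v => x ∈ K i v).card : ℝ) = κ * Fintype.card V) :
    ∑ ω : ι → V, Real.exp (μ * (aliveSet I K R ω).card) ≤
      (Fintype.card V : ℝ) ^ Fintype.card ι *
        Real.exp (μ * (1 - κ) ^ I.card * R.card + I.card * κ * μ ^ 2 * L * R.card) := by
  rcases lt_trichotomy μ 0 with h | h | h
  · exact mgf_alive_aux I K R L κ μ hκ0 hκ1 hL hμ (hneg h) (fun h' => absurd h' (not_lt.mpr h.le))
  · subst h; simp [Fintype.card_fun]
  · exact mgf_alive_aux I K R L κ μ hκ0 hκ1 hL hμ (fun i hi x hx => (hpos h.le i hi x hx).le)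
      (fun _ => hpos h.le)

end Vale.Agent.P045.H84
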