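import Vale.Agent.P045.H84.Ex2Conc
import Vale.Agent.P045.H84.Mgf

/-!
# The event `manyKilled` fails with small probability

For a fixed family `A` of `k` lines: sum over the possible values of the rich directions
(a factor `exp (#candidates / q)`), and an exponential moment for the poor directions.
-/

namespace Vale.Agent.P045.H84

open Finset Filter

variable {q : ℕ} [Fact q.Prime]

theorem card_onLine_inter_le (l l' : Line (ZMod q)) (h : l ≠ l') :
    (univ.filter fun p => onLine p l ∧ onLine p l').card ≤ 1 := by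
  rw [Finset.card_le_one]
  intro p hp p' hp'
  simp only [mem_filter, mem_univ, true_and] at hp hp'
  rcases l with ⟨d, c⟩ | a <;> rcases l' with ⟨d', c'⟩ | a' <;>
    simp only [onLine] at hp hp'
  · by_cases hd : d = d'
    · subst hd
      have : c = c' := add_left_cancel (hp.1.symm.trans hp.2)
      exact absurd (by rw [this]) h
    · exact eq_of_icpt hd (by simp only [icpt, hp.1, hp'.1]; ring)
        (by simp only [icpt, hp.2, hp'.2]; ring)
  · exact Prod.ext (hp.2.trans hp'.2.symm) (by rw [hp.1, hp'.1, hp.2, hp'.2])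
  · exact Prod.ext (hp.1.trans hp'.1.symm) (by rw [hp.2, hp'.2, hp.1, hp'.1])
  · exact absurd (by rw [hp.1.symm.trans hp.2]) h

theorem card_dbl_le (A : Finset (Line (ZMod q))) : (dbl A).card ≤ A.card ^ 2 := by
  classical
  calc (dbl A).card
      ≤ ((A.offDiag).biUnion fun x => univ.filter fun p => onLine p x.1 ∧ onLine p x.2).card := by
        refine card_le_card fun p hp => ?_
        simp only [dbl, mem_filter, mem_univ, true_and] at hp
        obtain ⟨l, hl, l', hl', hne⟩ := Finset.one_lt_card.1 hp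
        simp only [mem_filter] at hl hl'
        exact mem_biUnion.2 ⟨(l, l'), mem_offDiag.2 ⟨hl.1, hl'.1, hne⟩,
          mem_filter.2 ⟨mem_univ _, hl.2, hl'.2⟩⟩
    _ ≤ ∑ x ∈ A.offDiag, (univ.filter fun p => onLine p x.1 ∧ onLine p x.2).card := card_biUnion_le
    _ ≤ ∑ _x ∈ A.offDiag, 1 :=
        sum_le_sum fun x hx => card_onLine_inter_le _ _ (mem_offDiag.1 hx).2.2
    _ ≤ A.card ^ 2 := by
        rw [sum_const, smul_eq_mul, mul_one, offDiag_card, sq]; exact Nat.sub_le _ _

theorem card_pair_load_le (A : Finset (Line (ZMod q))) (p p' : ZMod q × ZMod q) :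
    ((univ : Finset (ZMod q × ZMod q)).filter fun x =>
      p ∈ load A x.1 x.2 ∧ p' ∈ load A x.1 x.2).card ≤
      9 + 3 * q * (if p.1 = p'.1 ∧ ∃ ij : Fin 3 × Fin 3,
        ((ij.1 : ℕ) : ZMod q) - ((ij.2 : ℕ) : ZMod q) = p.2 - p'.2 then 1 else 0) := by
  classical
  set T := (univ : Finset (ZMod q × ZMod q)).filter fun x =>
      p ∈ load A x.1 x.2 ∧ p' ∈ load A x.1 x.2 with hT
  have hmem : ∀ x ∈ T, ∃ ij : Fin 3 × Fin 3,
      x.2 + ((ij.1 : ℕ) : ZMod q) = icpt p x.1 ∧ x.2 + ((ij.2 : ℕ) : ZMod q) = icpt p' x.1 := by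
    intro x hx
    simp only [hT, load, mem_filter, mem_univ, true_and] at hx
    obtain ⟨⟨-, i, hi⟩, -, j, hj⟩ := hx
    exact ⟨(i, j), hi, hj⟩
  choose! f hf using hmem
  by_cases hv : p.1 = p'.1
  · by_cases hne : T.Nonempty
    · obtain ⟨x, hx⟩ := hne
      have hx' := hf x hx
      rw [if_pos ⟨hv, f x, by simp only [icpt, hv] at hx'; linear_combination hx'.1 - hx'.2⟩,
        mul_one]
      refine le_add_left ?_
      calc T.card ≤ ((univ : Finset (ZMod q × Fin 3))).card :=
            Finset.card_le_card_of_injOn (fun x => (x.1, (f x).1)) (fun _ _ => mem_univ _)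
              (fun x hx y hy h => by
                simp only [Prod.mk.injEq] at h
                refine Prod.ext h.1 ?_
                have h1 := (hf x hx).1
                have h2 := (hf y hy).1
                rw [h.1, h.2, ← h2] at h1
                exact add_right_cancel h1)
        _ = 3 * q := by simp [card_univ, ZMod.card, mul_comm]
    · simp [Finset.not_nonempty_iff_eq_empty.1 hne]
  · refine le_add_right ?_
    calc T.card ≤ ((univ : Finset (Fin 3 × Fin 3))).card :=
          Finset.card_le_card_of_injOn f (fun _ _ => mem_univ _) (fun x hx y hy h => by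
            have h1 := hf x hx
            have h2 := hf y hy
            rw [← h] at h2
            simp only [icpt] at h1 h2
            have hd : (x.1 - y.1) * (p.1 - p'.1) = 0 := by
              linear_combination h1.1 - h1.2 - h2.1 + h2.2
            rcases mul_eq_zero.1 hd with hd | hd
            · have hd := sub_eq_zero.1 hd
              refine Prod.ext hd ?_
              have h3 := h1.1
              rw [hd, ← h2.1] at h3
              exact add_right_cancel h3
            · exact absurd (sub_eq_zero.1 hd) hv)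
      _ = 9 := by simp

/-- Candidate values of a rich direction. -/
def candVals (M : ℕ) (A : Finset (Line (ZMod q))) (d : ZMod q) : Finset (ZMod q) :=
  univ.filter fun v => d ≠ 0 ∧ lThr M ≤ (load A d v).card

theorem sum_card_candVals_le (M : ℕ) (A : Finset (Line (ZMod q))) :
    lThr M ^ 2 * ∑ d, (candVals M A d).card ≤
      9 * (dbl A).card ^ 2 + 27 * q * (dbl A).card := by
  classical
  set R := dbl A with hR
  have hsub : ∀ d v, load A d v ⊆ R := fun d v => filter_subset _ _
  calc lThr M ^ 2 * ∑ d, (candVals M A d).card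
      = ∑ d, ∑ v ∈ candVals M A d, lThr M ^ 2 := by
        simp [mul_sum, mul_comm]
    _ ≤ ∑ d, ∑ v ∈ candVals M A d, (load A d v).card ^ 2 :=
        sum_le_sum fun d _ => sum_le_sum fun v hv =>
          Nat.pow_le_pow_left (mem_filter.1 hv).2.2 2
    _ ≤ ∑ d, ∑ v, (load A d v).card ^ 2 :=
        sum_le_sum fun d _ => sum_le_sum_of_subset_of_nonneg (subset_univ _) (fun _ _ _ => Nat.zero_le _)
    _ = ∑ p ∈ R, ∑ p' ∈ R, ((univ : Finset (ZMod q × ZMod q)).filter fun x =>
          p ∈ load A x.1 x.2 ∧ p' ∈ load A x.1 x.2).card := by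
        have h1 : ∀ d v, (load A d v).card ^ 2 =
            ∑ p ∈ R, ∑ p' ∈ R, if p ∈ load A d v ∧ p' ∈ load A d v then 1 else 0 := fun d v => by
          have hc : (load A d v).card = ∑ p ∈ R, if p ∈ load A d v then 1 else 0 := by
            rw [sum_boole, Nat.cast_id, filter_mem_eq_inter, inter_eq_right.2 (hsub d v)]
          rw [sq, hc, sum_mul_sum]
          refine sum_congr rfl fun p _ => sum_congr rfl fun p' _ => ?_
          by_cases ha : p ∈ load A d v <;> by_cases hb : p' ∈ load A d v <;> simp [ha, hb]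
        simp only [h1, ← Fintype.sum_prod_type']
        rw [sum_comm]
        refine sum_congr rfl fun p _ => ?_
        rw [sum_comm]
        exact sum_congr rfl fun p' _ => by rw [sum_boole, Nat.cast_id]
    _ ≤ ∑ p ∈ R, ∑ p' ∈ R, (9 + 3 * q * (if p.1 = p'.1 ∧ ∃ ij : Fin 3 × Fin 3,
        ((ij.1 : ℕ) : ZMod q) - ((ij.2 : ℕ) : ZMod q) = p.2 - p'.2 then 1 else 0)) :=
        sum_le_sum fun p _ => sum_le_sum fun p' _ => card_pair_load_le A p p'
    _ ≤ ∑ _p ∈ R, (9 * R.card + 3 * q * 9) := by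
        refine sum_le_sum fun p _ => ?_
        rw [sum_add_distrib, sum_const, smul_eq_mul, mul_comm R.card, ← mul_sum]
        refine Nat.add_le_add_left (Nat.mul_le_mul_left _ ?_) _
        rw [sum_boole, Nat.cast_id]
        refine (card_le_card (t := (univ : Finset (Fin 3 × Fin 3)).image fun ij =>
          (p.1, p.2 - (((ij.1 : ℕ) : ZMod q) - ((ij.2 : ℕ) : ZMod q)))) fun p' hp' => ?_).trans
          (card_image_le.trans (by simp))
        simp only [mem_filter] at hp'
        obtain ⟨-, hx, ij, hy⟩ := hp'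
        exact mem_image.2 ⟨ij, mem_univ _, Prod.ext hx (by rw [hy]; ring)⟩
    _ = 9 * R.card ^ 2 + 27 * q * R.card := by
        rw [sum_const, smul_eq_mul]; ring

/-- Loads below the threshold. -/
def poorLoad (M : ℕ) (A : Finset (Line (ZMod q))) (d v : ZMod q) : Finset (ZMod q × ZMod q) :=
  if lThr M ≤ (load A d v).card then ∅ else load A d v

theorem card_poorLoad_hits_le (M : ℕ) (A : Finset (Line (ZMod q))) (d : ZMod q)
    (p : ZMod q × ZMod q) : (univ.filter fun v => p ∈ poorLoad M A d v).card ≤ 3 := by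
  classical
  refine (card_le_card (t := (univ : Finset (Fin 3)).image fun i : Fin 3 =>
    icpt p d - (((i : Fin 3) : ℕ) : ZMod q)) fun v hv => ?_).trans (card_image_le.trans (by simp))
  have hv' : p ∈ poorLoad M A d v := (Finset.mem_filter.1 hv).2
  unfold poorLoad at hv'
  split_ifs at hv'
  · simp at hv'
  · obtain ⟨-, i, hi⟩ := mem_filter.1 hv'
    exact mem_image.2 ⟨i, mem_univ _, by rw [← hi]; ring⟩

omit [Fact q.Prime] in
theorem one_sub_three_div_pow_ge (hq : 12 ≤ q) :
    (1 : ℝ) / 81 ≤ (1 - 3 / (q : ℝ)) ^ q := by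
  have hq' : (12 : ℝ) ≤ q := by exact_mod_cast hq
  set x : ℝ := 3 / q with hx
  have hx0 : 0 ≤ x := by positivity
  have hx1 : x ≤ 1 / 4 := by rw [hx, div_le_iff₀ (by linarith)]; linarith
  have h1 : Real.exp (-(x / (1 - x))) ≤ 1 - x := by
    rw [Real.exp_neg, inv_le_comm₀ (Real.exp_pos _) (by linarith)]
    have h := Real.add_one_le_exp (x / (1 - x))
    have hne : (1 - x) ≠ 0 := by linarith
    calc (1 - x)⁻¹ = x / (1 - x) + 1 := by field_simp; ring
      _ ≤ _ := h
  calc (1 : ℝ) / 81 ≤ Real.exp (-4) := by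
        have h3 : Real.exp 1 ≤ 3 := by
          have := Real.exp_one_lt_d9; linarith
        have h4 : Real.exp 4 ≤ 81 := by
          rw [show (4 : ℝ) = ((4 : ℕ) : ℝ) * 1 by norm_num, Real.exp_nat_mul]
          calc Real.exp 1 ^ 4 ≤ 3 ^ 4 := pow_le_pow_left₀ (Real.exp_pos _).le h3 4
            _ = 81 := by norm_num
        rw [Real.exp_neg, one_div]
        exact inv_anti₀ (Real.exp_pos _) h4
    _ ≤ Real.exp ((q : ℝ) * -(x / (1 - x))) := by
        refine Real.exp_le_exp.2 ?_
        have hqx : (q : ℝ) * x = 3 := by rw [hx]; field_simp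
        rw [mul_neg, neg_le_neg_iff, ← mul_div_assoc, hqx, div_le_iff₀ (by linarith)]
        linarith
    _ = Real.exp (-(x / (1 - x))) ^ q := Real.exp_nat_mul _ _
    _ ≤ (1 - x) ^ q := pow_le_pow_left₀ (Real.exp_pos _).le h1 q

/-- Few outcomes leave few live points among a large poor part. -/
theorem card_few_alive_le (M : ℕ) (hM : 0 < M) (hq : 12 ≤ q) (A : Finset (Line (ZMod q)))
    (J : Finset (ZMod q)) (R : Finset (ZMod q × ZMod q)) (hRc : M ^ 69 ≤ R.card) :
    ((univ.filter fun ω : ZMod q → ZMod q =>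
        (aliveSet J (poorLoad M A) R ω).card ≤ M ^ 68).card : ℝ) ≤
      (q : ℝ) ^ q * Real.exp ((M : ℝ) ^ 35 / 1000 - (M : ℝ) ^ 36 / 200000) := by
  classical
  have hM' : (0 : ℝ) < M := by exact_mod_cast hM
  have hq' : (12 : ℝ) ≤ q := by exact_mod_cast hq
  set L : ℕ := lThr M with hL
  have hL0 : (0 : ℝ) < L := by rw [hL, lThr]; push_cast; positivity
  set μ : ℝ := -((1 : ℝ) / 1000) / L with hμ
  have hμneg : μ < 0 := div_neg_of_neg_of_pos (by norm_num) hL0
  have hμL : μ * L = -((1 : ℝ) / 1000) := by rw [hμ, div_mul_cancel₀ _ hL0.ne']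
  have key := mgf_alive J (poorLoad M A) R L (3 / (q : ℝ)) μ (by positivity)
    (by rw [div_le_one (by linarith)]; linarith)
    (fun d _ v => by
      refine (card_le_card inter_subset_left).trans ?_
      simp only [poorLoad]
      split_ifs with h
      · simp
      · exact (not_le.1 h).le)
    (by rw [abs_of_neg hμneg, neg_mul, hμL]; norm_num)
    (fun _ d _ p _ => by
      rw [ZMod.card, div_mul_cancel₀ _ (by positivity)]
      exact_mod_cast card_poorLoad_hits_le M A d p)
    (fun h => absurd h (not_le.2 hμneg))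
  rw [ZMod.card] at key
  have h1 : ((univ.filter fun ω : ZMod q → ZMod q =>
      (aliveSet J (poorLoad M A) R ω).card ≤ M ^ 68).card : ℝ) ≤
      Real.exp (-μ * (M : ℝ) ^ 68) *
        ∑ ω : ZMod q → ZMod q, Real.exp (μ * (aliveSet J (poorLoad M A) R ω).card) := by
    rw [mul_sum]
    calc _ = ∑ ω ∈ univ.filter fun ω : ZMod q → ZMod q =>
          (aliveSet J (poorLoad M A) R ω).card ≤ M ^ 68, (1 : ℝ) := by simp
      _ ≤ ∑ ω ∈ univ.filter fun ω : ZMod q → ZMod q =>
          (aliveSet J (poorLoad M A) R ω).card ≤ M ^ 68,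
          Real.exp (-μ * (M : ℝ) ^ 68) *
            Real.exp (μ * (aliveSet J (poorLoad M A) R ω).card) := by
          refine sum_le_sum fun ω hω => ?_
          rw [← Real.exp_add]
          refine Real.one_le_exp ?_
          have : ((aliveSet J (poorLoad M A) R ω).card : ℝ) ≤ (M : ℝ) ^ 68 := by
            exact_mod_cast (mem_filter.1 hω).2
          nlinarith
      _ ≤ _ := sum_le_sum_of_subset_of_nonneg (subset_univ _) fun _ _ _ => by positivity
  refine h1.trans ((mul_le_mul_of_nonneg_left key (Real.exp_pos _).le).trans ?_)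
  rw [mul_left_comm, ← Real.exp_add]
  refine mul_le_mul_of_nonneg_left (Real.exp_le_exp.2 ?_) (by positivity)
  have hJ : (J.card : ℝ) ≤ q := by
    exact_mod_cast (card_le_univ J).trans_eq (ZMod.card q)
  have hκ0 : 0 ≤ (1 : ℝ) - 3 / q := by
    rw [sub_nonneg, div_le_one (by linarith)]; linarith
  have hκJ : (1 : ℝ) / 81 ≤ (1 - 3 / (q : ℝ)) ^ J.card :=
    (one_sub_three_div_pow_ge hq).trans (pow_le_pow_of_le_one hκ0
      (sub_le_self _ (by positivity)) ((card_le_univ J).trans_eq (ZMod.card q)))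
  have hJκ : (J.card : ℝ) * (3 / q) ≤ 3 := by
    rw [← mul_div_assoc, div_le_iff₀ (by linarith)]; linarith
  have hR : (M : ℝ) ^ 69 ≤ R.card := by exact_mod_cast hRc
  have hR0 : (0 : ℝ) ≤ R.card := Nat.cast_nonneg _
  have hLM : (L : ℝ) = (M : ℝ) ^ 33 := by rw [hL, lThr]; push_cast; rfl
  have e1 : -μ * (M : ℝ) ^ 68 = (M : ℝ) ^ 35 / 1000 := by
    rw [hμ, hLM]; field_simp
  have e2 : μ * (1 - 3 / (q : ℝ)) ^ J.card * R.card ≤ μ * (1 / 81) * R.card := by
    refine mul_le_mul_of_nonneg_right ?_ hR0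
    exact mul_le_mul_of_nonpos_left hκJ hμneg.le
  have e3 : (J.card : ℝ) * (3 / q) * μ ^ 2 * L * R.card ≤ 3 * μ ^ 2 * L * R.card :=
    mul_le_mul_of_nonneg_right (mul_le_mul_of_nonneg_right
      (mul_le_mul_of_nonneg_right hJκ (sq_nonneg μ)) hL0.le) hR0
  have e4 : μ * (1 / 81) * R.card + 3 * μ ^ 2 * L * R.card ≤ μ / 200 * R.card := by
    have : μ ^ 2 * L = -(μ / 1000) := by rw [sq, mul_assoc, hμL]; ring
    rw [show 3 * μ ^ 2 * (L : ℝ) * R.card = 3 * (μ ^ 2 * L) * R.card by ring, this]
    nlinarith [mul_nonpos_of_nonpos_of_nonneg hμneg.le hR0]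
  have e5 : μ / 200 * R.card ≤ -((M : ℝ) ^ 36 / 200000) := by
    calc μ / 200 * R.card ≤ μ / 200 * (M : ℝ) ^ 69 :=
          mul_le_mul_of_nonpos_left hR (by linarith)
      _ = _ := by rw [hμ, hLM]; field_simp; ring
  linarith

/-- For a fixed family of lines, the bad outcomes are few. -/
theorem card_bad_le (M : ℕ) (hM : 0 < M) (hq : 12 ≤ q) (A : Finset (Line (ZMod q))) :
    ((univ.filter fun ω : ZMod q → ZMod q =>
        M ^ 69 ≤ (dblPoor M ω A).card ∧ (dbl A ∩ liveW ω).card ≤ M ^ 68).card : ℝ) ≤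
      Real.exp (((∑ d, (candVals M A d).card : ℕ) : ℝ) / q) *
        ((q : ℝ) ^ q * Real.exp ((M : ℝ) ^ 35 / 1000 - (M : ℝ) ^ 36 / 200000)) := by
  classical
  set B : ℝ := (q : ℝ) ^ q * Real.exp ((M : ℝ) ^ 35 / 1000 - (M : ℝ) ^ 36 / 200000) with hB
  have hq0 : (0 : ℝ) < q := by exact_mod_cast card_q_pos
  let Rπ : (ZMod q → Option (ZMod q)) → Finset (ZMod q × ZMod q) := fun π =>
    (dbl A).filter fun p => ∀ d, ∀ v ∈ π d, p ∉ load A d v
  let Jπ : (ZMod q → Option (ZMod q)) → Finset (ZMod q) := fun π =>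
    univ.filter fun d => d ≠ 0 ∧ π d = none
  let Sπ : (ZMod q → Option (ZMod q)) → Finset (ZMod q) := fun π =>
    univ.filter fun d => π d ≠ none
  let Ev : (ZMod q → Option (ZMod q)) → Finset (ZMod q → ZMod q) := fun π =>
    univ.filter fun ω => M ^ 69 ≤ (Rπ π).card ∧
      (aliveSet (Jπ π) (poorLoad M A) (Rπ π) ω).card ≤ M ^ 68
  let P := Fintype.piFinset fun d => (candVals M A d).insertNone
  let Pin : (ZMod q → Option (ZMod q)) → Finset (ZMod q → ZMod q) := fun π =>
    (Ev π).filter fun ω => ∀ d ∈ Sπ π, ω d = (π d).getD 0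
  have hsub : (univ.filter fun ω : ZMod q → ZMod q => M ^ 69 ≤ (dblPoor M ω A).card ∧
      (dbl A ∩ liveW ω).card ≤ M ^ 68) ⊆ P.biUnion Pin := by
    intro ω hω
    simp only [mem_filter, mem_univ, true_and] at hω
    let π : ZMod q → Option (ZMod q) := fun d =>
      if d ∈ richDirs M ω A then some (ω d) else none
    have hπ : ∀ d, (π d ≠ none → ω d = (π d).getD 0) := fun d h => by
      simp only [π] at h ⊢
      split_ifs with hd
      · rfl
      · simp [hd] at h
    have hR : Rπ π = dblPoor M ω A := by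
      refine filter_congr fun p _ => ⟨fun h d hd => h d (ω d) (by simp [π, hd]), ?_⟩
      intro h d v hv
      simp only [π] at hv
      split_ifs at hv with hd
      · obtain rfl : v = ω d := by simpa [eq_comm] using hv
        exact h d hd
      · simp at hv
    refine mem_biUnion.2 ⟨π, ?_, ?_⟩
    · refine Fintype.mem_piFinset.2 fun d => mem_insertNone.2 fun v hv => ?_
      simp only [π] at hv
      split_ifs at hv with hd
      · obtain rfl : v = ω d := by simpa [eq_comm] using hv
        exact mem_filter.2 ⟨mem_univ _, (mem_filter.1 hd).2⟩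
      · simp at hv
    · simp only [Pin, Ev, mem_filter, mem_univ, true_and, hR]
      refine ⟨⟨hω.1, ?_⟩, fun d hd => hπ d (mem_filter.1 hd).2⟩
      refine (card_le_card fun p hp => ?_).trans hω.2
      simp only [aliveSet, mem_filter] at hp
      obtain ⟨hp, hal⟩ := hp
      simp only [dblPoor, mem_filter] at hp
      refine mem_inter.2 ⟨hp.1, mem_filter.2 ⟨mem_univ _, ?_⟩⟩
      rw [eq_empty_iff_forall_notMem]
      intro d hd
      simp only [killsW, mem_filter, mem_univ, true_and] at hd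
      have hmem : p ∈ load A d (ω d) := mem_filter.2 ⟨hp.1, hd.2⟩
      by_cases hr : d ∈ richDirs M ω A
      · exact hp.2 d hr hmem
      · have hlt : ¬ lThr M ≤ (load A d (ω d)).card := fun h =>
          hr (mem_filter.2 ⟨mem_univ _, hd.1, h⟩)
        exact hal d (by simp [Jπ, π, hr, hd.1]) (by simpa [poorLoad, hlt] using hmem)
  have hPin : ∀ π ∈ P, ((Pin π).card : ℝ) ≤
      (∏ d, if π d = none then 1 else (1 : ℝ) / q) * B := by
    intro π _
    have hindep := card_pinned_mul_pow_le (Sπ π) (fun d => (π d).getD 0) (Ev π) ?_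
    · have hprod : (∏ d, if π d = none then 1 else (1 : ℝ) / q) = (1 / (q : ℝ)) ^ (Sπ π).card := by
        rw [prod_ite, prod_const_one, one_mul, prod_const]
      have hEv : ((Ev π).card : ℝ) ≤ B := by
        by_cases hR : M ^ 69 ≤ (Rπ π).card
        · refine le_trans (le_of_eq ?_) (card_few_alive_le M hM hq A (Jπ π) (Rπ π) hR)
          simp [Ev, hR]
        · have : Ev π = ∅ := filter_eq_empty_iff.2 fun ω _ h => hR h.1
          rw [this, card_empty, Nat.cast_zero, hB]; positivity
      rw [hprod, one_div_pow, one_div_mul_eq_div, le_div_iff₀ (by positivity)]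
      rw [ZMod.card] at hindep
      calc ((Pin π).card : ℝ) * (q : ℝ) ^ (Sπ π).card ≤ (Ev π).card := by exact_mod_cast hindep
        _ ≤ B := hEv
    · intro ω hω ω' hag
      simp only [Ev, mem_filter, mem_univ, true_and] at hω ⊢
      refine ⟨hω.1, le_of_eq_of_le ?_ hω.2⟩
      congr 1
      ext p
      simp only [aliveSet, mem_filter]
      refine and_congr_right fun _ => forall₂_congr fun d hd => ?_
      rw [hag d (by simp only [Sπ, Jπ, mem_filter, mem_univ, true_and] at hd ⊢; simp [hd.2])]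
  calc _ ≤ ((P.biUnion Pin).card : ℝ) := by exact_mod_cast card_le_card hsub
    _ ≤ ∑ π ∈ P, ((Pin π).card : ℝ) := by exact_mod_cast card_biUnion_le
    _ ≤ ∑ π ∈ P, (∏ d, if π d = none then 1 else (1 : ℝ) / q) * B := sum_le_sum hPin
    _ = (∏ d, ∑ o ∈ (candVals M A d).insertNone, if o = none then 1 else (1 : ℝ) / q) * B := by
        rw [prod_univ_sum, sum_mul]
    _ ≤ (∏ d, Real.exp (((candVals M A d).card : ℝ) / q)) * B := by
        refine mul_le_mul_of_nonneg_right (prod_le_prod (fun d _ => ?_) fun d _ => ?_) (by positivity)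
        · exact sum_nonneg fun o _ => by split_ifs <;> positivity
        · rw [show (candVals M A d).insertNone = cons none ((candVals M A d).map Function.Embedding.some)
            (by simp) from rfl, sum_cons]
          simp
          simpa [div_eq_mul_inv, add_comm] using Real.add_one_le_exp (((candVals M A d).card : ℝ) / q)
    _ = _ := by rw [← Real.exp_sum]; push_cast; rw [sum_div]

theorem eventually_kill_exponent : ∀ᶠ M : ℕ in atTop,
    (M : ℝ) ^ 35 * (83 * Real.log M) + 100 * (M : ℝ) ^ 34 + (M : ℝ) ^ 35 / 1000 + 10 ≤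
      (M : ℝ) ^ 36 / 200000 := by
  have h := (Real.isLittleO_log_id_atTop.bound (show (0 : ℝ) < 1 / 100000000000 by norm_num))
  filter_upwards [tendsto_natCast_atTop_atTop.eventually h, eventually_ge_atTop 100000000]
    with M hM hM1
  have hM' : (100000000 : ℝ) ≤ M := by exact_mod_cast hM1
  have hlog : Real.log M ≤ (M : ℝ) / 100000000000 := by
    have : |Real.log M| ≤ 1 / 100000000000 * |(M : ℝ)| := by
      simpa [Real.norm_eq_abs, abs_of_nonneg, id] using hM
    rw [abs_of_nonneg (by linarith : (0 : ℝ) ≤ (M : ℝ))] at this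
    linarith [le_abs_self (Real.log M)]
  have h34 : (1 : ℝ) ≤ (M : ℝ) ^ 34 := one_le_pow₀ (by linarith)
  have h35 : (M : ℝ) ^ 35 = (M : ℝ) * (M : ℝ) ^ 34 := by ring
  have h36 : (M : ℝ) ^ 36 = (M : ℝ) * ((M : ℝ) * (M : ℝ) ^ 34) := by ring
  have a1 : (M : ℝ) ^ 35 * (83 * Real.log M) ≤
      (M : ℝ) ^ 35 * (83 * ((M : ℝ) / 100000000000)) := by gcongr
  rw [h35, h36] at *
  nlinarith [mul_le_mul_of_nonneg_right hM' (by linarith : (0 : ℝ) ≤ (M : ℝ) ^ 34)]

/-- `manyKilled` holds outside few outcomes. -/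
theorem manyKilled_bad : ∀ᶠ M : ℕ in atTop, ∀ (q : ℕ) [Fact q.Prime], Regime M q →
    10 * {ω : ZMod q → ZMod q | ¬ ∀ A : Finset (Line (ZMod q)), A.card = kSize M →
      M ^ 69 ≤ (dblPoor M ω A).card → M ^ 68 < (dbl A ∩ liveW ω).card}.ncard ≤ q ^ q := by
  filter_upwards [eventually_kill_exponent, eventually_ge_atTop 12] with M hexp hM q _ hR
  classical
  rw [ncard_setOf_eq]
  have hM0 : 0 < M := by omega
  have hM' : (12 : ℝ) ≤ M := by exact_mod_cast hM
  have hq : 12 ≤ q := le_trans (le_trans hM (Nat.le_self_pow (by norm_num) M)) hR.lo.le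
  have hqlo : (M : ℝ) ^ 40 ≤ q := by exact_mod_cast hR.lo.le
  set s := (univ : Finset (Line (ZMod q))).powersetCard (kSize M)
  let Bad : Finset (Line (ZMod q)) → Finset (ZMod q → ZMod q) := fun A =>
    univ.filter fun ω => M ^ 69 ≤ (dblPoor M ω A).card ∧ (dbl A ∩ liveW ω).card ≤ M ^ 68
  set E : ℝ := (q : ℝ) ^ q *
    Real.exp (100 * (M : ℝ) ^ 34 + ((M : ℝ) ^ 35 / 1000 - (M : ℝ) ^ 36 / 200000)) with hE
  have hA : ∀ A ∈ s, ((Bad A).card : ℝ) ≤ E := by
    intro A hA
    refine (card_bad_le M hM0 hq A).trans ?_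
    rw [hE, mul_left_comm, ← Real.exp_add]
    refine mul_le_mul_of_nonneg_left (Real.exp_le_exp.2 ?_) (by positivity)
    refine add_le_add ?_ le_rfl
    rw [div_le_iff₀ (by positivity)]
    have h1 := sum_card_candVals_le M A
    have h2 : (dbl A).card ≤ M ^ 70 := by
      refine (card_dbl_le A).trans ?_
      rw [(mem_powersetCard.1 hA).2, kSize, ← pow_mul]
    have h3 : q ≤ M ^ 70 := by
      refine hR.hi.trans ?_
      calc 2 * M ^ 40 ≤ M ^ 30 * M ^ 40 :=
            Nat.mul_le_mul_right _ (le_trans (by omega) (Nat.le_self_pow (by norm_num) M))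
        _ = M ^ 70 := by rw [← pow_add]
    have h4 : M ^ 66 * ∑ d, (candVals M A d).card ≤ M ^ 66 * (36 * M ^ 74) := by
      have : lThr M ^ 2 = M ^ 66 := by rw [lThr, ← pow_mul]
      rw [← this]
      refine h1.trans ?_
      rw [this]
      calc 9 * (dbl A).card ^ 2 + 27 * q * (dbl A).card
          ≤ 9 * (M ^ 70) ^ 2 + 27 * M ^ 70 * M ^ 70 := by gcongr
        _ = M ^ 66 * (36 * M ^ 74) := by ring
    have h5 := Nat.le_of_mul_le_mul_left h4 (pow_pos hM0 66)
    calc ((∑ d, (candVals M A d).card : ℕ) : ℝ) ≤ 36 * (M : ℝ) ^ 74 := by exact_mod_cast h5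
      _ ≤ 100 * (M : ℝ) ^ 34 * (M : ℝ) ^ 40 := by
          rw [mul_assoc, ← pow_add, show 34 + 40 = 74 from rfl]
          linarith [pow_nonneg (by linarith : (0 : ℝ) ≤ M) 74]
      _ ≤ 100 * (M : ℝ) ^ 34 * q := mul_le_mul_of_nonneg_left hqlo (by positivity)
  have hs : (s.card : ℝ) ≤ Real.exp ((M : ℝ) ^ 35 * (83 * Real.log M)) := by
    have h1 : s.card ≤ (M ^ 83) ^ kSize M := by
      rw [card_powersetCard]
      refine (Nat.choose_le_pow _ _).trans (Nat.pow_le_pow_left ?_ _)
      rw [card_univ, Fintype.card_sum, Fintype.card_prod, ZMod.card]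
      calc q * q + q ≤ 2 * (q * q) := by nlinarith
        _ ≤ 2 * ((2 * M ^ 40) * (2 * M ^ 40)) := by
            exact Nat.mul_le_mul_left _ (Nat.mul_le_mul hR.hi hR.hi)
        _ = 8 * M ^ 80 := by ring
        _ ≤ M ^ 3 * M ^ 80 :=
            Nat.mul_le_mul_right _ (le_trans (by omega) (Nat.le_self_pow (by norm_num) M))
        _ = M ^ 83 := by rw [← pow_add]
    calc (s.card : ℝ) ≤ (((M ^ 83) ^ kSize M : ℕ) : ℝ) := by exact_mod_cast h1
      _ = Real.exp ((M : ℝ) ^ 35 * (83 * Real.log M)) := by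
          push_cast
          rw [← pow_mul, ← Real.rpow_natCast, Real.rpow_def_of_pos (by linarith)]
          push_cast [kSize]
          ring_nf
  set B := (univ : Finset (ZMod q → ZMod q)).filter fun ω =>
    ¬ ∀ A : Finset (Line (ZMod q)), A.card = kSize M →
      M ^ 69 ≤ (dblPoor M ω A).card → M ^ 68 < (dbl A ∩ liveW ω).card with hB
  have hB' : ((10 * B.card : ℕ) : ℝ) ≤ (q : ℝ) ^ q := by
    push_cast
    have hsub : B ⊆ s.biUnion Bad := by
      intro ω hω
      simp only [hB, mem_filter, mem_univ, true_and, not_forall, not_lt] at hω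
      obtain ⟨A, hAc, hA1, hA2⟩ := hω
      exact mem_biUnion.2 ⟨A, mem_powersetCard.2 ⟨subset_univ _, hAc⟩,
        mem_filter.2 ⟨mem_univ _, hA1, hA2⟩⟩
    calc 10 * (B.card : ℝ) ≤ 10 * ∑ A ∈ s, ((Bad A).card : ℝ) := by
          gcongr
          exact_mod_cast (card_le_card hsub).trans card_biUnion_le
      _ ≤ 10 * (s.card * E) := by
          gcongr
          simpa using sum_le_card_nsmul s (fun A => ((Bad A).card : ℝ)) E hA
      _ ≤ Real.exp 10 * (Real.exp ((M : ℝ) ^ 35 * (83 * Real.log M)) * E) := by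
          refine mul_le_mul (by linarith [Real.add_one_le_exp 10]) ?_ (by positivity) (by positivity)
          exact mul_le_mul_of_nonneg_right hs (by positivity)
      _ = (q : ℝ) ^ q * Real.exp (10 + ((M : ℝ) ^ 35 * (83 * Real.log M) +
            (100 * (M : ℝ) ^ 34 + ((M : ℝ) ^ 35 / 1000 - (M : ℝ) ^ 36 / 200000)))) := by
          rw [hE, Real.exp_add 10, Real.exp_add ((M : ℝ) ^ 35 * (83 * Real.log M))]; ring
      _ ≤ (q : ℝ) ^ q * 1 := by
          refine mul_le_mul_of_nonneg_left (Real.exp_le_one_iff.2 ?_) (by positivity)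
          linarith
      _ = _ := mul_one _
  exact_mod_cast hB'

end Vale.Agent.P045.H84
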