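import Vale.Agent.P045.H84.Choice
import Vale.Agent.P045.H84.Mgf

/-!
# Tools for the union bound over outcomes
-/

namespace Vale.Agent.P045.H84

open Finset Real

/-- Exponential Markov inequality for counting. -/
lemma card_mul_exp_le {α : Type*} (s : Finset α) (P : α → Prop) [DecidablePred P] (g : α → ℝ)
    (a : ℝ) (h : ∀ x ∈ s, P x → a ≤ g x) :
    ((s.filter P).card : ℝ) * exp a ≤ ∑ x ∈ s, exp (g x) := by
  calc ((s.filter P).card : ℝ) * exp a = ∑ _x ∈ s.filter P, exp a := by
        rw [sum_const, nsmul_eq_mul]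
    _ ≤ ∑ x ∈ s.filter P, exp (g x) :=
        sum_le_sum fun x hx => exp_le_exp.mpr (h x (mem_filter.mp hx).1 (mem_filter.mp hx).2)
    _ ≤ ∑ x ∈ s, exp (g x) :=
        sum_le_sum_of_subset_of_nonneg (filter_subset _ _) fun x _ _ => (exp_pos _).le

lemma exp_three_two_le : exp (3.2 : ℝ) ≤ 26 := by
  have h1 : exp (1 : ℝ) ≤ 2.72 := by have := exp_one_lt_d9; linarith
  have h2 : exp (0.2 : ℝ) ≤ 1.25 := by
    have := add_one_le_exp (-0.2 : ℝ)
    rw [exp_neg] at this
    have h0 := exp_pos (0.2 : ℝ)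
    rw [le_inv_comm₀ (by norm_num) h0] at this
    norm_num at this ⊢; linarith
  have h3 : exp (3.2 : ℝ) = exp 1 * exp 1 * exp 1 * exp 0.2 := by
    rw [← exp_add, ← exp_add, ← exp_add]; norm_num
  rw [h3]
  calc exp (1:ℝ) * exp 1 * exp 1 * exp 0.2 ≤ 2.72 * 2.72 * 2.72 * 1.25 := by
        gcongr
    _ ≤ 26 := by norm_num

/-- A point survives all directions with probability at least `1/26`. -/
lemma survive_ge {q n : ℕ} (hq : 100 ≤ q) (hn : n ≤ q) :
    (1 : ℝ) / 26 ≤ (1 - 3 / (q : ℝ)) ^ n := by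
  have hq' : (100 : ℝ) ≤ q := by exact_mod_cast hq
  have h0 : (0:ℝ) < q - 3 := by linarith
  have h1 : exp (-(3 / ((q : ℝ) - 3))) ≤ 1 - 3 / (q : ℝ) := by
    have e : 1 - 3 / (q : ℝ) = (3 / ((q : ℝ) - 3) + 1)⁻¹ := by field_simp; ring
    rw [exp_neg, e]
    gcongr
    exact add_one_le_exp _
  calc (1 : ℝ) / 26 ≤ 1 / exp 3.2 := by gcongr; exact exp_three_two_le
    _ = exp (-3.2) := by rw [exp_neg, one_div]
    _ ≤ exp (-(3 / ((q : ℝ) - 3))) ^ n := by
        rw [← exp_nat_mul, exp_le_exp, mul_neg, neg_le_neg_iff, ← mul_div_assoc, div_le_iff₀ h0]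
        have : (n : ℝ) ≤ q := by exact_mod_cast hn
        nlinarith
    _ ≤ (1 - 3 / (q : ℝ)) ^ n := pow_le_pow_left₀ (exp_pos _).le h1 n

variable {q : ℕ} [Fact q.Prime]

/-- Points of `R` killed by the value `v` in direction `d`. -/
def killSet (R : Finset (ZMod q × ZMod q)) (d v : ZMod q) : Finset (ZMod q × ZMod q) :=
  R.filter fun p => ∃ i : Fin 3, v + (i : ℕ) = icpt p d

lemma fin3_cast_inj (hq : 3 ≤ q) : Function.Injective (fun i : Fin 3 => ((i : ℕ) : ZMod q)) := by
  intro i j h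
  have hi : (i : ℕ) < q := lt_of_lt_of_le i.isLt hq
  have hj : (j : ℕ) < q := lt_of_lt_of_le j.isLt hq
  apply Fin.ext
  have := congrArg ZMod.val h
  simpa [ZMod.val_natCast, Nat.mod_eq_of_lt hi, Nat.mod_eq_of_lt hj] using this

/-- Exactly three values kill a given point in a given direction. -/
lemma card_kill (hq : 3 ≤ q) (R : Finset (ZMod q × ZMod q)) {x : ZMod q × ZMod q} (hx : x ∈ R)
    (d : ZMod q) : (univ.filter fun v => x ∈ killSet R d v).card = 3 := by
  have : (univ.filter fun v => x ∈ killSet R d v) =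
      (univ : Finset (Fin 3)).image fun i : Fin 3 => icpt x d - ((i : ℕ) : ZMod q) := by
    ext v
    simp only [killSet, mem_filter, mem_univ, true_and, hx, mem_image]
    exact ⟨fun ⟨i, hi⟩ => ⟨i, by rw [← hi]; ring⟩, fun ⟨i, hi⟩ => ⟨i, by rw [← hi]; ring⟩⟩
  rw [this, card_image_of_injective _ fun i j h => fin3_cast_inj hq (sub_right_inj.mp h)]
  rfl

/-- A line contains at most three points killed by one value in another direction. -/
lemma killSet_line_le (R : Finset (ZMod q × ZMod q)) (l : Line (ZMod q)) (d v : ZMod q)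
    (hd : dirOf l ≠ some d) (hR : ∀ p ∈ R, onLine p l) : (killSet R d v).card ≤ 3 := by
  have h : killSet R d v ⊆ (univ : Finset (Fin 3)).biUnion
      fun i => R.filter fun p => icpt p d = v + (i : ℕ) := by
    intro p hp
    simp only [killSet, mem_filter] at hp
    obtain ⟨hp, i, hi⟩ := hp
    simp only [mem_biUnion, mem_univ, true_and, mem_filter]
    exact ⟨i, hp, hi.symm⟩
  refine (card_le_card h).trans (card_biUnion_le.trans ?_)
  refine le_trans (sum_le_card_nsmul _ _ 1 fun i _ => ?_) (by simp)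
  rw [card_le_one]
  intro p hp p' hp'
  simp only [mem_filter] at hp hp'
  have h1 := hR p hp.1
  have h2 := hR p' hp'.1
  rcases l with ⟨e, c⟩ | a
  · rw [onLine_iff_icpt] at h1 h2
    exact eq_of_icpt (d := e) (e := d) (fun h => hd (by simp [dirOf, h])) (h1.trans h2.symm)
      (hp.2.trans hp'.2.symm)
  · simp only [onLine] at h1 h2
    have h3 := hp.2.trans hp'.2.symm
    simp only [icpt, h1, h2] at h3
    exact Prod.ext (h1.trans h2.symm) (sub_left_inj.mp h3)

open Classical in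
/-- Both tails for the survivors among points with loads at most three. -/
lemma alive_tail (hq : 3 ≤ q) (R : Finset (ZMod q × ZMod q)) (I : Finset (ZMod q))
    (hload : ∀ i ∈ I, ∀ v, (killSet R i v).card ≤ 3) {Q s : ℝ} (hQ : (R.card : ℝ) ≤ Q)
    (hs0 : 0 < s) (hsQ : s ≤ Q) :
    ((univ.filter fun ω : ZMod q → ZMod q =>
      s ≤ |((aliveSet I (killSet R) R ω).card : ℝ) - (1 - 3 / (q : ℝ)) ^ I.card * R.card|).card : ℝ)
      ≤ 2 * (q : ℝ) ^ q * exp (-(s ^ 2) / (36 * Q)) := by
  have hq0 : (0:ℝ) < q := by exact_mod_cast (show 0 < q by omega)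
  have hκ1 : 3 / (q : ℝ) ≤ 1 := by rw [div_le_one hq0]; exact_mod_cast hq
  have hcard : ∀ i ∈ I, ∀ x ∈ R, ((univ.filter fun v => x ∈ killSet R i v).card : ℝ) =
      3 / (q : ℝ) * Fintype.card (ZMod q) := by
    intro i _ x hx
    rw [card_kill hq R hx, ZMod.card]; field_simp; norm_num
  have hQ0 : 0 < Q := by linarith
  set m : ℝ := (1 - 3 / (q : ℝ)) ^ I.card * R.card with hm
  have one : ∀ σ : ℝ, σ = 1 ∨ σ = -1 → ((univ.filter fun ω : ZMod q → ZMod q =>
      s ≤ σ * (((aliveSet I (killSet R) R ω).card : ℝ) - m)).card : ℝ) ≤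
      (q : ℝ) ^ q * exp (-(s ^ 2) / (36 * Q)) := by
    intro σ hσ
    have hσ2 : σ ^ 2 = 1 := by rcases hσ with h | h <;> simp [h]
    set μ : ℝ := σ * (s / (18 * Q)) with hμdef
    have hμ : |μ| * ((3:ℕ):ℝ) ≤ 1 := by
      rw [hμdef, abs_mul, show |σ| = 1 by rcases hσ with h | h <;> simp [h], one_mul,
        abs_of_nonneg (by positivity), Nat.cast_ofNat, div_mul_eq_mul_div,
        div_le_one (by positivity)]
      linarith
    have key := mgf_alive I (killSet R) R 3 (3 / (q : ℝ)) μ (by positivity) hκ1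
      (fun i hi v => (card_le_card inter_subset_left).trans (hload i hi v)) hμ
      (fun _ i hi x hx => (hcard i hi x hx).le) (fun _ => hcard)
    have hmark := card_mul_exp_le (univ : Finset (ZMod q → ZMod q))
      (fun ω => s ≤ σ * (((aliveSet I (killSet R) R ω).card : ℝ) - m))
      (fun ω => μ * (aliveSet I (killSet R) R ω).card) (μ * m + s ^ 2 / (18 * Q))
      (fun ω _ hω => by
        have h2 : μ * ((aliveSet I (killSet R) R ω).card : ℝ) - μ * m =
            s / (18 * Q) * (σ * (((aliveSet I (killSet R) R ω).card : ℝ) - m)) := by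
          rw [hμdef]; ring
        have h3 : s / (18 * Q) * s ≤ s / (18 * Q) *
            (σ * (((aliveSet I (killSet R) R ω).card : ℝ) - m)) := by gcongr
        have h4 : s / (18 * Q) * s = s ^ 2 / (18 * Q) := by ring
        linarith)
    rw [ZMod.card] at key
    have hbound := hmark.trans key
    rw [← le_div_iff₀ (exp_pos _), mul_div_assoc, ← exp_sub] at hbound
    refine hbound.trans (mul_le_mul_of_nonneg_left (exp_le_exp.mpr ?_) (by positivity))
    have hI : (I.card : ℝ) * (3 / (q : ℝ)) ≤ 3 := by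
      rw [mul_div_assoc', div_le_iff₀ hq0]
      have : (I.card : ℝ) ≤ q := by
        have := card_le_univ I
        rw [ZMod.card] at this
        exact_mod_cast this
      linarith
    have h1 : (I.card : ℝ) * (3 / (q : ℝ)) * μ ^ 2 * ((3:ℕ):ℝ) * R.card ≤ 9 * μ ^ 2 * Q := by
      calc (I.card : ℝ) * (3 / (q : ℝ)) * μ ^ 2 * ((3:ℕ):ℝ) * R.card
          ≤ 3 * μ ^ 2 * ((3:ℕ):ℝ) * Q := by gcongr
        _ = _ := by push_cast; ring
    have h2 : 9 * μ ^ 2 * Q - s ^ 2 / (18 * Q) = -(s ^ 2) / (36 * Q) := by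
      rw [hμdef, mul_pow, hσ2]; field_simp; ring
    have h3 : μ * (1 - 3 / (q : ℝ)) ^ I.card * R.card = μ * m := by rw [hm]; ring
    linarith
  refine le_trans ?_ (le_of_eq (two_mul ((q : ℝ) ^ q * exp (-(s ^ 2) / (36 * Q)))).symm |>.trans
    (le_of_eq (by ring)))
  refine le_trans ?_ (add_le_add (one 1 (Or.inl rfl)) (one (-1) (Or.inr rfl)))
  rw [← Nat.cast_add, Nat.cast_le]
  refine (card_le_card ?_).trans (card_union_le _ _)
  intro ω hω
  simp only [mem_filter, mem_univ, true_and, mem_union, one_mul, neg_one_mul] at hω ⊢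
  exact le_abs.mp hω

end Vale.Agent.P045.H84
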