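import Vale.Agent.P045.H84.ExBasic

/-!
# Union bounds: line counts, pools, number of random lines through a point
-/

namespace Vale.Agent.P045.H84

open Finset Real Filter

/-- Polynomial factors lose against `exp (-M)`. -/
lemma eventually_pow_mul_exp (n : ℕ) {ε : ℝ} (hε : 0 < ε) :
    ∀ᶠ M : ℕ in atTop, (M : ℝ) ^ n * exp (-(M : ℝ)) ≤ ε :=
  tendsto_natCast_atTop_atTop.eventually
    ((tendsto_pow_mul_exp_neg_atTop_nhds_zero n).eventually (eventually_le_nhds hε))

variable {q : ℕ} [Fact q.Prime]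

lemma Regime.facts {M : ℕ} (h : Regime M q) (hM : 2 ≤ M) :
    100 ≤ q ∧ (M : ℝ) ^ 40 < q ∧ (q : ℝ) ≤ 2 * (M : ℝ) ^ 40 := by
  refine ⟨?_, by exact_mod_cast h.lo, by exact_mod_cast h.hi⟩
  have : 2 ^ 40 ≤ M ^ 40 := Nat.pow_le_pow_left hM 40
  have := h.lo
  omega

lemma mem_killsW {ω : ZMod q → ZMod q} {p : ZMod q × ZMod q} {d : ZMod q} :
    d ∈ killsW ω p ↔ d ≠ 0 ∧ ∃ i : Fin 3, ω d + (i : ℕ) = icpt p d := by
  simp [killsW]

/-- Points of a line. -/
def pts (l : Line (ZMod q)) : Finset (ZMod q × ZMod q) := univ.filter fun p => onLine p l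

lemma card_pts (l : Line (ZMod q)) : (pts l).card = q := by
  rcases l with ⟨d, c⟩ | a
  · have : pts (Sum.inl (d, c) : Line (ZMod q)) =
        (univ : Finset (ZMod q)).image fun x => (x, d * x + c) := by
      ext ⟨x, y⟩
      simp only [pts, mem_filter, mem_univ, true_and, mem_image, Prod.mk.injEq]
      simp [onLine, eq_comm]
    rw [this, card_image_of_injective _ fun x x' h => congrArg Prod.fst h, card_univ, ZMod.card]
  · have : pts (Sum.inr a : Line (ZMod q)) =
        (univ : Finset (ZMod q)).image fun y => (a, y) := by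
      ext ⟨x, y⟩
      simp only [pts, mem_filter, mem_univ, true_and, mem_image, Prod.mk.injEq]
      simp [onLine, eq_comm]
    rw [this, card_image_of_injective _ fun x x' h => congrArg Prod.snd h, card_univ, ZMod.card]

/-- Slopes whose random lines meet `l` properly. -/
def otherDirs (l : Line (ZMod q)) : Finset (ZMod q) :=
  univ.filter fun d => d ≠ 0 ∧ dirOf l ≠ some d

lemma card_otherDirs (l : Line (ZMod q)) :
    (otherDirs l).card ≤ q - 1 ∧ q ≤ (otherDirs l).card + 2 := by
  constructor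
  · have h : otherDirs l ⊆ univ.erase 0 := by
      intro d hd; simp only [otherDirs, mem_filter] at hd; simp [hd.2.1]
    simpa [card_erase_of_mem, ZMod.card] using card_le_card h
  · rcases l with ⟨e, c⟩ | a
    · have h : (univ.erase (0 : ZMod q)).erase e ⊆ otherDirs (Sum.inl (e, c)) := by
        intro d hd
        simp only [mem_erase] at hd
        simp [otherDirs, dirOf, hd.2.1, Ne.symm hd.1]
      have h1 := card_le_card h
      have h2 := pred_card_le_card_erase (a := e) (s := univ.erase (0 : ZMod q))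
      rw [card_erase_of_mem (mem_univ _), card_univ, ZMod.card] at h2
      omega
    · have h : univ.erase (0 : ZMod q) ⊆ otherDirs (Sum.inr a) := by
        intro d hd
        simp only [mem_erase] at hd
        simp [otherDirs, dirOf, hd.1]
      have h1 := card_le_card h
      rw [card_erase_of_mem (mem_univ _), card_univ, ZMod.card] at h1
      omega

lemma liveW_line (ω : ZMod q → ZMod q) (l : Line (ZMod q)) (hl : notRandom ω l) :
    (liveW ω).filter (fun p => onLine p l) =
      aliveSet (otherDirs l) (killSet (pts l)) (pts l) ω := by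
  ext p
  simp only [liveW, aliveSet, mem_filter, mem_univ, true_and, pts, killSet, otherDirs, not_and]
  constructor
  · rintro ⟨hk, hp⟩
    refine ⟨hp, fun d hd _ hkill => ?_⟩
    have : d ∈ killsW ω p := mem_killsW.mpr ⟨hd.1, hkill⟩
    simp [hk] at this
  · rintro ⟨hp, h⟩
    refine ⟨eq_empty_of_forall_notMem fun d hd => ?_, hp⟩
    rw [mem_killsW] at hd
    by_cases hdl : dirOf l = some d
    · rcases l with ⟨e, c⟩ | a
      · simp only [dirOf, Option.some.injEq] at hdl
        subst hdl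
        rw [onLine_iff_icpt] at hp
        obtain ⟨h0, i, hi⟩ := hd
        exact hl ⟨h0, i, hi.trans hp⟩
      · simp [dirOf] at hdl
    · exact h d ⟨hd.1, hdl⟩ hp hd.2

/-- The property `lineCount`. -/
def LineCountProp (M : ℕ) (ω : ZMod q → ZMod q) : Prop :=
  ∃ e, q ≤ 30 * e ∧ ∀ l : Line (ZMod q), notRandom ω l →
    e ≤ ((liveW ω).filter fun p => onLine p l).card ∧
      ((liveW ω).filter fun p => onLine p l).card ≤ e + q / M ^ 8

open Classical in
theorem bad_lineCount : ∀ᶠ M : ℕ in atTop, ∀ (q : ℕ) [Fact q.Prime], Regime M q →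
    ((univ.filter fun ω : ZMod q → ZMod q => ¬ LineCountProp M ω).card : ℝ) ≤
      (q : ℝ) ^ q / 7 := by
  filter_upwards [eventually_ge_atTop 4000, eventually_pow_mul_exp 80 (show (0:ℝ) < 1 / 112 by
    norm_num)] with M hM hMexp q _ hR
  obtain ⟨hq, hlo, hhi⟩ := hR.facts (by omega)
  have hMr : (4000 : ℝ) ≤ M := by exact_mod_cast hM
  have hq0 : (0:ℝ) < q := by exact_mod_cast (show 0 < q by omega)
  set s : ℝ := (q : ℝ) / (3 * (M : ℝ) ^ 8) with hs
  have hM8 : (1:ℝ) ≤ (M : ℝ) ^ 8 := one_le_pow₀ (by linarith)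
  have hs0 : 0 < s := by positivity
  have hsq : 1000 * s ≤ q := by
    rw [hs, mul_div_assoc', div_le_iff₀ (by positivity)]
    have : (M : ℝ) ≤ (M : ℝ) ^ 8 := le_self_pow₀ (by linarith) (by norm_num)
    nlinarith
  have hs6 : 1000 ≤ s := by
    rw [hs, le_div_iff₀ (by positivity)]
    have h1 : (M : ℝ) ^ 40 = (M : ℝ) ^ 8 * (M : ℝ) ^ 32 := by ring
    have h2 : (3000 : ℝ) ≤ (M : ℝ) ^ 32 :=
      le_trans (by linarith) (le_self_pow₀ (by linarith : (1:ℝ) ≤ M) (by norm_num))
    nlinarith
  set κ : ℝ := 3 / (q : ℝ) with hκ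
  set m0 : ℝ := (1 - κ) ^ (q - 1) * q with hm0
  have hκ1 : κ ≤ 1 := by rw [hκ, div_le_one hq0]; exact_mod_cast (show 3 ≤ q by omega)
  have hκ0 : 0 ≤ κ := by positivity
  set P : (ZMod q → ZMod q) → Line (ZMod q) → Prop := fun ω l =>
    s ≤ |((aliveSet (otherDirs l) (killSet (pts l)) (pts l) ω).card : ℝ) -
      (1 - κ) ^ (otherDirs l).card * (pts l).card| with hP
  have hsub : (univ.filter fun ω : ZMod q → ZMod q => ¬ LineCountProp M ω) ⊆
      (univ : Finset (Line (ZMod q))).biUnion fun l => univ.filter fun ω => P ω l := by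
    intro ω hω
    simp only [mem_filter, mem_univ, true_and, mem_biUnion] at hω ⊢
    by_contra hno
    push Not at hno
    refine hω ⟨⌊m0 - s⌋₊, ?_, fun l hl => ?_⟩
    · have h1 : (q : ℝ) / 26 ≤ m0 := by
        rw [hm0]
        have := survive_ge hq (show q - 1 ≤ q by omega)
        calc (q : ℝ) / 26 = 1 / 26 * q := by ring
          _ ≤ _ := by gcongr
      have h2 := Nat.lt_floor_add_one (m0 - s)
      have h3 : (q : ℝ) ≤ 30 * (⌊m0 - s⌋₊ : ℝ) := by
        have : (100 : ℝ) * 10 ≤ q := by linarith [hs6, hsq]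
        linarith
      exact_mod_cast h3
    · rw [liveW_line ω l hl]
      set A : ℝ := ((aliveSet (otherDirs l) (killSet (pts l)) (pts l) ω).card : ℝ) with hA
      have hlt : |A - (1 - κ) ^ (otherDirs l).card * (pts l).card| < s := by
        have := hno l; rw [hP] at this; simpa using this
      rw [card_pts l] at hlt
      obtain ⟨hn1, hn2⟩ := card_otherDirs l
      have hge : m0 ≤ (1 - κ) ^ (otherDirs l).card * q := by
        rw [hm0]
        exact mul_le_mul_of_nonneg_right
          (pow_le_pow_of_le_one (by linarith) (by linarith) hn1) hq0.le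
      have hle : (1 - κ) ^ (otherDirs l).card * q ≤ m0 + 3 := by
        rw [hm0]
        have h1 : (1 - κ) ^ (otherDirs l).card ≤ (1 - κ) ^ (q - 2) :=
          pow_le_pow_of_le_one (by linarith) (by linarith) (by omega)
        have h2 : (1 - κ) ^ (q - 1) = (1 - κ) ^ (q - 2) * (1 - κ) := by
          rw [← pow_succ]; congr 1; omega
        have h3 : κ * q = 3 := by rw [hκ]; field_simp
        have h4 : (1 - κ) ^ (q - 2) * (κ * q) ≤ 1 * 3 := by
          rw [h3]; gcongr; exact pow_le_one₀ (by linarith) (by linarith)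
        calc (1 - κ) ^ (otherDirs l).card * q ≤ (1 - κ) ^ (q - 2) * q := by gcongr
          _ = (1 - κ) ^ (q - 1) * q + (1 - κ) ^ (q - 2) * (κ * q) := by rw [h2]; ring
          _ ≤ _ := by linarith
      obtain ⟨hl1, hl2⟩ := abs_lt.mp hlt
      constructor
      · refine Nat.floor_le_of_le ?_
        rw [← hA]; linarith
      · have h2 := Nat.lt_floor_add_one (m0 - s)
        have h3 : (q : ℝ) / (M : ℝ) ^ 8 < ((q / M ^ 8 : ℕ) : ℝ) + 1 := by
          rw [div_lt_iff₀ (by positivity)]
          have := Nat.lt_mul_div_succ q (show 0 < M ^ 8 by positivity)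
          have : ((q : ℕ) : ℝ) < ((M ^ 8 * (q / M ^ 8 + 1) : ℕ) : ℝ) := by exact_mod_cast this
          push_cast at this
          linarith
        have h4 : (q : ℝ) / (M : ℝ) ^ 8 = 3 * s := by rw [hs]; field_simp
        have : A < ((⌊m0 - s⌋₊ + q / M ^ 8 + 1 : ℕ) : ℝ) := by push_cast; linarith
        rw [hA] at this
        have := Nat.cast_lt.mp this
        omega
  have hcard : ∀ l : Line (ZMod q), ((univ.filter fun ω => P ω l).card : ℝ) ≤
      2 * (q : ℝ) ^ q * exp (-(M : ℝ)) := by
    intro l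
    refine (alive_tail (by omega) (pts l) (otherDirs l) (fun i hi v => ?_)
      (Q := (q : ℝ)) (le_of_eq (by rw [card_pts])) hs0 (by linarith)).trans ?_
    · simp only [otherDirs, mem_filter] at hi
      exact killSet_line_le (pts l) l i v hi.2.2 fun p hp => (mem_filter.mp hp).2
    · refine mul_le_mul_of_nonneg_left (exp_le_exp.mpr ?_) (by positivity)
      rw [neg_div, neg_le_neg_iff, le_div_iff₀ (by positivity)]
      have e : s ^ 2 * (9 * (M : ℝ) ^ 16) = (q : ℝ) * q := by rw [hs]; field_simp; ring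
      have h1 : (M : ℝ) * (36 * (q : ℝ)) * (9 * (M : ℝ) ^ 16) ≤ (q : ℝ) * q := by
        have h2 : (M : ℝ) ^ 40 = (M : ℝ) ^ 17 * (M : ℝ) ^ 23 := by ring
        have h3 : (400 : ℝ) ≤ (M : ℝ) ^ 23 :=
          le_trans (by linarith) (le_self_pow₀ (by linarith : (1:ℝ) ≤ M) (by norm_num))
        have h5 : 324 * (M : ℝ) ^ 17 ≤ q := by
          nlinarith [pow_nonneg (show (0:ℝ) ≤ M by linarith) 17]
        nlinarith
      have hpos : (0:ℝ) < 9 * (M : ℝ) ^ 16 := by positivity
      rw [← e] at h1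
      exact le_of_mul_le_mul_right h1 hpos
  calc ((univ.filter fun ω : ZMod q → ZMod q => ¬ LineCountProp M ω).card : ℝ)
      ≤ (((univ : Finset (Line (ZMod q))).biUnion
          fun l => univ.filter fun ω => P ω l).card : ℝ) := by exact_mod_cast card_le_card hsub
    _ ≤ ∑ l : Line (ZMod q), ((univ.filter fun ω => P ω l).card : ℝ) := by
        exact_mod_cast card_biUnion_le
    _ ≤ ∑ _l : Line (ZMod q), 2 * (q : ℝ) ^ q * exp (-(M : ℝ)) :=
        sum_le_sum fun l _ => hcard l
    _ = ((q : ℝ) * q + q) * (2 * (q : ℝ) ^ q * exp (-(M : ℝ))) := by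
        simp [ZMod.card, card_univ]
    _ ≤ (2 * (2 * (M : ℝ) ^ 40) ^ 2) * (2 * (q : ℝ) ^ q * exp (-(M : ℝ))) := by
        gcongr
        have : (1:ℝ) ≤ q := by exact_mod_cast (show 1 ≤ q by omega)
        nlinarith
    _ = 16 * (q : ℝ) ^ q * ((M : ℝ) ^ 80 * exp (-(M : ℝ))) := by ring
    _ ≤ 16 * (q : ℝ) ^ q * (1 / 112) := by gcongr
    _ = _ := by ring

end Vale.Agent.P045.H84
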