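import Vale.Agent.P045.H84.ExLine

/-!
# Union bounds: pools and number of random lines through a point
-/

namespace Vale.Agent.P045.H84

open Finset Real Filter

variable {q : ℕ} [Fact q.Prime]

/-- `poolSize M` rows of the given block and type. -/
def poolRows (q M : ℕ) (b : ℕ) (S : Six) : Finset (ZMod q) :=
  (range (poolSize M)).image fun j => (((b * 6 + (S : ℕ)) * poolSize M + j : ℕ) : ZMod q)

lemma labels_fit {M : ℕ} (hR : Regime M q) (hM : 2 ≤ M) :
    numBlocks M q * 6 * poolSize M ≤ q := by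
  have h36 : 36 * M ^ 2 ≤ M ^ 10 := by
    calc 36 * M ^ 2 ≤ M ^ 8 * M ^ 2 := Nat.mul_le_mul_right _
          (le_trans (by norm_num) (Nat.pow_le_pow_left hM 8))
      _ = M ^ 10 := by ring
  have hq : M ^ 10 ≤ q :=
    (Nat.pow_le_pow_right (by omega) (by norm_num : 10 ≤ 40)).trans hR.lo.le
  have h1 : q / M ^ 10 * M ^ 10 ≤ q := Nat.div_mul_le_self q _
  have h2 : 36 * M ^ 2 * (q / M ^ 10) ≤ q := by
    calc 36 * M ^ 2 * (q / M ^ 10) ≤ M ^ 10 * (q / M ^ 10) := Nat.mul_le_mul_right _ h36
      _ ≤ q := by linarith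
  simp only [numBlocks, gSize, poolSize]
  nlinarith

lemma blockOf_lt_numBlocks (M : ℕ) (d : ZMod q) (i : Fin 3) : blockOf M d i < numBlocks M q := by
  have h1 : d.val / gSize M ≤ q / gSize M :=
    Nat.div_le_div_right (ZMod.val_lt d).le
  have h2 := i.isLt
  simp only [blockOf, numBlocks]
  omega

lemma poolRows_spec {M : ℕ} (hR : Regime M q) (hM : 2 ≤ M) {b : ℕ} (hb : b < numBlocks M q)
    (S : Six) : (poolRows q M b S).card = poolSize M ∧ poolRows q M b S ⊆ pool M b S := by
  have hP : 0 < poolSize M := by simp only [poolSize]; positivity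
  have hfit := labels_fit hR hM
  have hS : (S : ℕ) < 6 := S.isLt
  have hlt : ∀ j, j < poolSize M →
      (b * 6 + (S : ℕ)) * poolSize M + j < numBlocks M q * 6 * poolSize M := by
    intro j hj
    calc (b * 6 + (S : ℕ)) * poolSize M + j < (b * 6 + (S : ℕ) + 1) * poolSize M := by
          rw [add_mul _ 1, one_mul]; omega
      _ ≤ numBlocks M q * 6 * poolSize M := Nat.mul_le_mul_right _ (by omega)
  have hval : ∀ j, j < poolSize M →
      ((((b * 6 + (S : ℕ)) * poolSize M + j : ℕ) : ZMod q)).val =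
        (b * 6 + (S : ℕ)) * poolSize M + j := by
    intro j hj
    rw [ZMod.val_natCast, Nat.mod_eq_of_lt (lt_of_lt_of_le (hlt j hj) hfit)]
  constructor
  · rw [poolRows, card_image_of_injOn, card_range]
    intro j hj j' hj' h
    simp only [coe_range, Set.mem_Iio] at hj hj'
    have := congrArg ZMod.val h
    simp only [hval j hj, hval j' hj'] at this
    omega
  · intro y hy
    simp only [poolRows, mem_image, mem_range] at hy
    obtain ⟨j, hj, rfl⟩ := hy
    have hdiv : ((b * 6 + (S : ℕ)) * poolSize M + j) / poolSize M = b * 6 + (S : ℕ) := by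
      rw [mul_comm, Nat.mul_add_div hP, Nat.div_eq_of_lt hj, add_zero]
    rw [pool, mem_filter]
    refine ⟨mem_univ _, ?_⟩
    unfold lab0
    simp only [hval j hj, if_pos (hlt j hj), hdiv]
    simp only [Option.some.injEq, Prod.mk.injEq, Fin.ext_iff]
    omega

/-- The property `poolGood`. -/
def PoolGoodProp (M : ℕ) (ω : ZMod q → ZMod q) : Prop :=
  ∀ d : ZMod q, d ≠ 0 → ∀ (i : Fin 3) (S : Six),
    3 * M ≤ ((pool M (blockOf M d i) S).filter fun y =>
      killsW ω (rowPt d (ω d + (i : ℕ)) y) = {d}).card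

open Classical in
theorem bad_poolGood : ∀ᶠ M : ℕ in atTop, ∀ (q : ℕ) [Fact q.Prime], Regime M q →
    ((univ.filter fun ω : ZMod q → ZMod q => ¬ PoolGoodProp M ω).card : ℝ) ≤
      (q : ℝ) ^ q / 7 := by
  filter_upwards [eventually_ge_atTop 200000, eventually_pow_mul_exp 80
    (show (0:ℝ) < 1 / 1008 by norm_num)] with M hM hMexp q _ hR
  obtain ⟨hq, hlo, hhi⟩ := hR.facts (by omega)
  have hMr : (200000 : ℝ) ≤ M := by exact_mod_cast hM
  set κ : ℝ := 3 / (q : ℝ) with hκ
  set T : ZMod q × Fin 3 × Six × ZMod q → Finset (ZMod q × ZMod q) := fun t =>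
    (poolRows q M (blockOf M t.1 t.2.1) t.2.2.1).image (rowPt t.1 t.2.2.2) with hT
  set I : ZMod q × Fin 3 × Six × ZMod q → Finset (ZMod q) := fun t =>
    otherDirs (Sum.inl (t.1, t.2.2.2)) with hI
  have hTcard : ∀ t, (T t).card = poolSize M := by
    intro t
    rw [hT]; simp only
    rw [card_image_of_injective _ fun y y' h => congrArg Prod.snd h]
    exact (poolRows_spec hR (by omega) (blockOf_lt_numBlocks M _ _) _).1
  set s : ℝ := (M : ℝ) ^ 2 / 60 with hs
  set P : (ZMod q → ZMod q) → ZMod q × Fin 3 × Six × ZMod q → Prop := fun ω t =>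
    t.1 ≠ 0 ∧ s ≤ |((aliveSet (I t) (killSet (T t)) (T t) ω).card : ℝ) -
      (1 - κ) ^ (I t).card * (T t).card| with hP
  have hsub : (univ.filter fun ω : ZMod q → ZMod q => ¬ PoolGoodProp M ω) ⊆
      (univ : Finset (ZMod q × Fin 3 × Six × ZMod q)).biUnion
        fun t => univ.filter fun ω => P ω t := by
    intro ω hω
    simp only [mem_filter, mem_univ, true_and, mem_biUnion] at hω ⊢
    by_contra hno
    push Not at hno
    refine hω fun d hd i S => ?_
    set t : ZMod q × Fin 3 × Six × ZMod q := (d, i, S, ω d + (i : ℕ)) with ht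
    have hlt : |((aliveSet (I t) (killSet (T t)) (T t) ω).card : ℝ) -
        (1 - κ) ^ (I t).card * (T t).card| < s := by
      by_contra h
      exact hno t ⟨hd, not_lt.mp h⟩
    have hsurv : (1:ℝ) / 26 ≤ (1 - κ) ^ (I t).card :=
      survive_ge hq ((card_otherDirs _).1.trans (by omega))
    have hPs : ((T t).card : ℝ) = (M : ℝ) ^ 2 := by rw [hTcard]; simp [poolSize]
    have hge : ((3 * M : ℕ) : ℝ) ≤ ((aliveSet (I t) (killSet (T t)) (T t) ω).card : ℝ) := by
      have h1 := (abs_lt.mp hlt).1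
      rw [hPs] at h1
      have h2 : (1:ℝ) / 26 * (M : ℝ) ^ 2 ≤ (1 - κ) ^ (I t).card * (M : ℝ) ^ 2 := by gcongr
      push_cast
      rw [hs] at h1
      nlinarith
    refine le_trans (Nat.cast_le.mp hge) ?_
    refine card_le_card_of_injOn (fun p => p.2) ?_ ?_
    · intro p hp
      simp only [aliveSet, coe_filter, Set.mem_setOf_eq] at hp
      obtain ⟨hp, halive⟩ := hp
      simp only [hT, mem_image] at hp
      obtain ⟨y, hy, rfl⟩ := hp
      simp only [coe_filter, Set.mem_setOf_eq]
      refine ⟨(poolRows_spec hR (by omega) (blockOf_lt_numBlocks M _ _) _).2 hy, ?_⟩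
      ext e
      rw [mem_singleton, mem_killsW]
      constructor
      · rintro ⟨he0, hkill⟩
        by_contra hed
        refine halive e ?_ ?_
        · simp [hI, otherDirs, dirOf, ht, he0, Ne.symm hed]
        · simp only [killSet, mem_filter, hT, mem_image]
          exact ⟨⟨y, hy, rfl⟩, hkill⟩
      · rintro rfl
        exact ⟨hd, i, (icpt_rowPt hd _ _).symm⟩
    · intro p hp p' hp' h
      simp only [aliveSet, coe_filter, Set.mem_setOf_eq, hT, mem_image] at hp hp'
      obtain ⟨⟨y, -, rfl⟩, -⟩ := hp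
      obtain ⟨⟨y', -, rfl⟩, -⟩ := hp'
      simp only [rowPt] at h
      subst h
      rfl
  have hcard : ∀ t, ((univ.filter fun ω => P ω t).card : ℝ) ≤
      2 * (q : ℝ) ^ q * exp (-(M : ℝ)) := by
    intro t
    by_cases ht0 : t.1 = 0
    · have : (univ.filter fun ω => P ω t) = ∅ := by simp [hP, ht0]
      rw [this]; simp only [card_empty, Nat.cast_zero]; positivity
    have hsubset : (univ.filter fun ω => P ω t) ⊆ univ.filter fun ω : ZMod q → ZMod q =>
        s ≤ |((aliveSet (I t) (killSet (T t)) (T t) ω).card : ℝ) -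
          (1 - κ) ^ (I t).card * (T t).card| :=
      monotone_filter_right _ fun ω _ h => h.2
    refine (Nat.cast_le.mpr (card_le_card hsubset)).trans
      ((alive_tail (by omega) (T t) (I t) (fun e he v => ?_) (Q := (M : ℝ) ^ 2)
        (le_of_eq (by rw [hTcard]; simp [poolSize])) (by positivity) ?_).trans ?_)
    · simp only [hI, otherDirs, mem_filter] at he
      refine killSet_line_le (T t) (Sum.inl (t.1, t.2.2.2)) e v he.2.2 fun p hp => ?_
      simp only [hT, mem_image] at hp
      obtain ⟨y, -, rfl⟩ := hp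
      exact (onLine_iff_icpt _ _ _).mpr (icpt_rowPt ht0 _ _)
    · rw [hs, div_le_iff₀ (by norm_num)]; nlinarith
    · refine mul_le_mul_of_nonneg_left (exp_le_exp.mpr ?_) (by positivity)
      rw [neg_div, neg_le_neg_iff, le_div_iff₀ (by positivity), hs]
      nlinarith
  calc ((univ.filter fun ω : ZMod q → ZMod q => ¬ PoolGoodProp M ω).card : ℝ)
      ≤ (((univ : Finset (ZMod q × Fin 3 × Six × ZMod q)).biUnion
          fun t => univ.filter fun ω => P ω t).card : ℝ) := by exact_mod_cast card_le_card hsub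
    _ ≤ ∑ t : ZMod q × Fin 3 × Six × ZMod q, ((univ.filter fun ω => P ω t).card : ℝ) := by
        exact_mod_cast card_biUnion_le
    _ ≤ ∑ _t : ZMod q × Fin 3 × Six × ZMod q, 2 * (q : ℝ) ^ q * exp (-(M : ℝ)) :=
        sum_le_sum fun t _ => hcard t
    _ = 36 * (q : ℝ) ^ 2 * ((q : ℝ) ^ q * exp (-(M : ℝ))) := by
        simp [ZMod.card, card_univ]; ring
    _ ≤ 36 * (2 * (M : ℝ) ^ 40) ^ 2 * ((q : ℝ) ^ q * exp (-(M : ℝ))) := by gcongr
    _ = 144 * (q : ℝ) ^ q * ((M : ℝ) ^ 80 * exp (-(M : ℝ))) := by ring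
    _ ≤ 144 * (q : ℝ) ^ q * (1 / 1008) := by gcongr
    _ = _ := by ring

open Classical in
theorem bad_killsLe : ∀ᶠ M : ℕ in atTop, ∀ (q : ℕ) [Fact q.Prime], Regime M q →
    ((univ.filter fun ω : ZMod q → ZMod q => ¬ ∀ p, (killsW ω p).card ≤ M).card : ℝ) ≤
      (q : ℝ) ^ q / 7 := by
  filter_upwards [eventually_ge_atTop 2, eventually_pow_mul_exp 80
    (show (0:ℝ) < 1 / (28 * exp 6) by positivity)] with M hM hMexp q _ hR
  obtain ⟨hq, hlo, hhi⟩ := hR.facts hM
  have hq0 : (0:ℝ) < q := by exact_mod_cast (show 0 < q by omega)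
  have hp : ∀ p : ZMod q × ZMod q,
      ((univ.filter fun ω : ZMod q → ZMod q => M < (killsW ω p).card).card : ℝ) ≤
        (q : ℝ) ^ q * exp 6 * exp (-(M : ℝ)) := by
    intro p
    set w : ZMod q → ZMod q → ℝ := fun d v =>
      if d ≠ 0 ∧ ∃ i : Fin 3, v + (i : ℕ) = icpt p d then exp 1 else 1 with hw
    have hmark := card_mul_exp_le (univ : Finset (ZMod q → ZMod q))
      (fun ω => M < (killsW ω p).card) (fun ω => ((killsW ω p).card : ℝ)) (M : ℝ)
      (fun ω _ h => by exact_mod_cast h.le)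
    have hexp : ∀ ω : ZMod q → ZMod q, exp ((killsW ω p).card : ℝ) = ∏ d, w d (ω d) := by
      intro ω
      rw [hw]; simp only
      rw [prod_ite, prod_const, prod_const_one, mul_one, ← exp_nat_mul, mul_one]
      rfl
    have hsum : ∀ d, ∑ v, w d v ≤ (q : ℝ) * exp (6 / q) := by
      intro d
      have h1 : ∀ v, w d v ≤ 1 + 2 * (if v ∈ univ.filter (fun v =>
          ∃ i : Fin 3, v + (i : ℕ) = icpt p d) then (1:ℝ) else 0) := by
        intro v
        simp only [hw, mem_filter, mem_univ, true_and]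
        have he : exp (1:ℝ) ≤ 3 := by have := exp_one_lt_d9; linarith
        split_ifs with h2 h3 <;> norm_num
        · linarith
        · exact absurd h2.2 h3
      have h2 : (univ.filter fun v : ZMod q => ∃ i : Fin 3, v + (i : ℕ) = icpt p d).card = 3 := by
        have := card_kill (q := q) (by omega) {p} (mem_singleton_self p) d
        simpa [killSet] using this
      calc ∑ v, w d v ≤ ∑ v, (1 + 2 * (if v ∈ univ.filter (fun v =>
              ∃ i : Fin 3, v + (i : ℕ) = icpt p d) then (1:ℝ) else 0)) := sum_le_sum fun v _ => h1 v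
        _ = (q : ℝ) + 6 := by
            rw [sum_add_distrib, ← mul_sum, sum_boole, filter_mem_eq_inter, univ_inter, h2]
            simp [ZMod.card]; norm_num
        _ = (q : ℝ) * (6 / q + 1) := by field_simp; ring
        _ ≤ (q : ℝ) * exp (6 / q) := by gcongr; exact add_one_le_exp _
    have htot : ∑ ω : ZMod q → ZMod q, exp ((killsW ω p).card : ℝ) ≤ (q : ℝ) ^ q * exp 6 := by
      rw [sum_congr rfl fun ω _ => hexp ω]
      have : ∑ ω : ZMod q → ZMod q, ∏ d, w d (ω d) = ∏ d, ∑ v, w d v := by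
        rw [prod_univ_sum, Fintype.piFinset_univ]
      rw [this]
      calc ∏ d, ∑ v, w d v ≤ ∏ _d : ZMod q, (q : ℝ) * exp (6 / q) := by
            refine prod_le_prod (fun d _ => sum_nonneg fun v _ => ?_) fun d _ => hsum d
            simp only [hw]; split_ifs <;> positivity
        _ = (q : ℝ) ^ q * exp 6 := by
            rw [prod_const, card_univ, ZMod.card, mul_pow, ← exp_nat_mul]
            field_simp
    have := hmark.trans htot
    rw [← le_div_iff₀ (exp_pos _)] at this
    rw [exp_neg, ← div_eq_mul_inv]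
    exact this
  calc ((univ.filter fun ω : ZMod q → ZMod q => ¬ ∀ p, (killsW ω p).card ≤ M).card : ℝ)
      ≤ (((univ : Finset (ZMod q × ZMod q)).biUnion
          fun p => univ.filter fun ω : ZMod q → ZMod q => M < (killsW ω p).card).card : ℝ) := by
        refine Nat.cast_le.mpr (card_le_card ?_)
        intro ω hω
        simp only [mem_filter, mem_univ, true_and, not_forall, not_le, mem_biUnion] at hω ⊢
        exact hω
    _ ≤ ∑ p : ZMod q × ZMod q,
          ((univ.filter fun ω : ZMod q → ZMod q => M < (killsW ω p).card).card : ℝ) := by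
        exact_mod_cast card_biUnion_le
    _ ≤ ∑ _p : ZMod q × ZMod q, (q : ℝ) ^ q * exp 6 * exp (-(M : ℝ)) :=
        sum_le_sum fun p _ => hp p
    _ = (q : ℝ) ^ 2 * ((q : ℝ) ^ q * exp 6 * exp (-(M : ℝ))) := by
        simp [ZMod.card, card_univ]; ring
    _ ≤ (2 * (M : ℝ) ^ 40) ^ 2 * ((q : ℝ) ^ q * exp 6 * exp (-(M : ℝ))) := by gcongr
    _ = 4 * exp 6 * (q : ℝ) ^ q * ((M : ℝ) ^ 80 * exp (-(M : ℝ))) := by ring
    _ ≤ 4 * exp 6 * (q : ℝ) ^ q * (1 / (28 * exp 6)) := by gcongr
    _ = _ := by field_simp; ring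

end Vale.Agent.P045.H84
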