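import Vale.Agent.P045.H84.ExPool
import Vale.Agent.P045.H84.Ex2Kill

/-!
# A good outcome exists

Union bound over uniform `ω : ZMod q → ZMod q`.
* fourFree, oneForbidden, manyKilled: proved in `Ex2Conc`, `Ex2Kill`.
* lineCount, poolGood: `mgf_alive`, loads `≤ 3` per direction (`poolGood`: for every intercept,
  ignoring the slope's own variable; `lineCount`: ignore the line's own slope).
* killsLe: `E 2 ^ #killsW ≤ (1 + 3/q) ^ q ≤ e ^ 3`.
* fourFree: four given slopes of a block are concurrent w.p. `≤ 1/q²`: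
  `≤ numBlocks * G ^ 4 / q² = O(M⁻¹⁰)`.
* oneForbidden: two different (pair, row) events w.p. `≤ 1/q²`:
  `≤ numBlocks * (G² * 6 P)² / q² = O(M⁻⁶)`.
* manyKilled: sum over the value of the rich directions: `≤ (1+ #cand_d/q)` per direction, with
  `#cand ≤ 100 k⁴ / L²` (second moment of the loads), and `mgf_alive` with truncated kills
  (loads `< L`) and `μ = -s / L`: `≤ exp (100 M^34) exp (- c M^36)`, against `(3 q²)^k`.
-/

namespace Vale.Agent.P045.H84

open Finset Filter

open Classical in
theorem exists_outcome : ∀ᶠ M : ℕ in atTop, ∀ (q : ℕ) [Fact q.Prime], Regime M q →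
    ∃ ω : ZMod q → ZMod q, Outcome M ω := by
  filter_upwards [bad_lineCount, bad_killsLe, bad_poolGood, fourFree_bad,
    oneForbidden_bad, manyKilled_bad] with M h1 h2 h3 h4 h5 h6 q _ hR
  by_contra hno
  push Not at hno
  have hsub : (univ : Finset (ZMod q → ZMod q)) ⊆
      univ.filter (fun ω => ¬ LineCountProp M ω) ∪
      univ.filter (fun ω => ¬ ∀ p, (killsW ω p).card ≤ M) ∪
      univ.filter (fun ω => ¬ PoolGoodProp M ω) ∪
      univ.filter (fun ω => ¬ ∀ p b, (blkThrough M ω p b).card ≤ 3) ∪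
      univ.filter (fun ω => ¬ ∀ b, (forbidden M ω b).card ≤ 1) ∪
      univ.filter (fun ω => ¬ ∀ A : Finset (Line (ZMod q)), A.card = kSize M →
        M ^ 69 ≤ (dblPoor M ω A).card → M ^ 68 < (dbl A ∩ liveW ω).card) := by
    intro ω _
    simp only [mem_union, mem_filter, mem_univ, true_and]
    by_contra h
    simp only [not_or, not_not] at h
    obtain ⟨⟨⟨⟨⟨a, b⟩, c⟩, d⟩, e⟩, f⟩ := h
    exact hno ω ⟨a, b, c, d, e, f⟩
  have hle := card_le_card hsub
  rw [card_univ, Fintype.card_fun, ZMod.card] at hle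
  have hle' := hle.trans ((card_union_le _ _).trans (Nat.add_le_add_right ((card_union_le _ _).trans
    (Nat.add_le_add_right ((card_union_le _ _).trans (Nat.add_le_add_right
      ((card_union_le _ _).trans (Nat.add_le_add_right (card_union_le _ _) _)) _)) _)) _))
  have hr := (Nat.cast_le (α := ℝ)).mpr hle'
  push_cast at hr
  have hpos : (0:ℝ) < (q : ℝ) ^ q := by
    have : 0 < q := Nat.pos_of_ne_zero (NeZero.ne q)
    positivity
  have := h1 q hR; have := h2 q hR; have := h3 q hR
  have k4 := h4 q hR; have k5 := h5 q hR; have k6 := h6 q hR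
  rw [ncard_setOf_eq] at k4 k5 k6
  have k4' := (Nat.cast_le (α := ℝ)).mpr k4
  have k5' := (Nat.cast_le (α := ℝ)).mpr k5
  have k6' := (Nat.cast_le (α := ℝ)).mpr k6
  push_cast at k4' k5' k6'
  linarith

end Vale.Agent.P045.H84
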