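import Vale.Agent.P045.H84.SmpSelect

/-!
# Families of lines covering the live points leave few points uncovered

If a family of at most `q + 40 M ^ 32` non-random lines covers the live points and leaves a positive
proportion of the plane uncovered, then a random subfamily of `k` of its lines has many double
points, few of them live and few on rich random lines, against `Outcome.manyKilled`.
-/

namespace Vale.Agent.P045.H84

open Finset Filter

variable {q : ℕ} [Fact q.Prime]

/-- Covering the live points forces almost `q` lines, with little overlap on live points. -/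
theorem cover_live_estimates {M : ℕ} (hR : Regime M q) (hM : 40 ≤ M) {ω : ZMod q → ZMod q}
    {e : ℕ} (he : q ≤ 30 * e)
    (hline : ∀ l : Line (ZMod q), notRandom ω l →
      e ≤ ((liveW ω).filter fun p => onLine p l).card ∧
        ((liveW ω).filter fun p => onLine p l).card ≤ e + q / M ^ 8)
    {Cl : Finset (Line (ZMod q))} (hCl : ∀ l ∈ Cl, notRandom ω l)
    (hcard : Cl.card ≤ q + 40 * M ^ 32) (hcov : ∀ p ∈ liveW ω, ∃ l ∈ Cl, onLine p l) :
    Cl.card ≤ 2 * q ∧ q ≤ Cl.card + 60 * (q / M ^ 8) ∧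
      ∑ p ∈ liveW ω, (mult Cl p - 1) ≤ 88 * M ^ 72 := by
  set r := q / M ^ 8 with hr
  set m := Cl.card with hm
  have h32 : 40 * M ^ 32 ≤ q := by
    calc 40 * M ^ 32 ≤ M * M ^ 32 := by gcongr
      _ = M ^ 33 := by ring
      _ ≤ q := (Nat.pow_le_pow_right (by omega) (by norm_num)).trans hR.lo.le
  have hm2 : m ≤ 2 * q := by omega
  have hrle : r ≤ 2 * M ^ 32 := by
    refine Nat.div_le_of_le_mul ?_
    calc q ≤ 2 * M ^ 40 := hR.hi
      _ = M ^ 8 * (2 * M ^ 32) := by ring
  have hlive : q * e ≤ (liveW ω).card := by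
    rw [card_rows]
    refine le_trans ?_ (sum_le_sum fun c _ => (hline (Sum.inl (0, c)) (fun h => h.1 rfl)).1)
    simp [ZMod.card]
  have hsum : ∑ p ∈ liveW ω, mult Cl p ≤ m * (e + r) := by
    rw [sum_mult, ← smul_eq_mul]
    exact sum_le_card_nsmul _ _ _ fun l hl => (hline l (hCl l hl)).2
  have hone : ∑ p ∈ liveW ω, mult Cl p =
      ∑ p ∈ liveW ω, (mult Cl p - 1) + (liveW ω).card := by
    rw [card_eq_sum_ones, ← sum_add_distrib]
    refine sum_congr rfl fun p hp => (Nat.sub_add_cancel ?_).symm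
    obtain ⟨l, hl, hon⟩ := hcov p hp
    exact card_pos.mpr ⟨l, mem_filter.mpr ⟨hl, hon⟩⟩
  refine ⟨hm2, ?_, ?_⟩
  · by_contra hc
    push Not at hc
    have h1 : q * e ≤ m * (e + r) := by omega
    have h2 : (m + 60 * r + 1) * e ≤ m * e + m * r := by
      calc (m + 60 * r + 1) * e ≤ q * e := Nat.mul_le_mul_right _ hc
        _ ≤ _ := h1.trans (le_of_eq (by ring))
    have h3 : r * m ≤ r * (60 * e) := Nat.mul_le_mul_left _ (by omega)
    have h4 : 0 < e := by have := hR.lo; omega
    linarith [h2, h3, h4]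
  · have hle : e ≤ q := by
      refine ((hline (Sum.inr 0) trivial).1).trans
        ((card_le_card (filter_subset_filter _ (subset_univ _))).trans ?_)
      rw [card_pts_line, ZMod.card]
    have h1 : m * (e + r) ≤ (q + 40 * M ^ 32) * (e + r) := Nat.mul_le_mul_right _ hcard
    have h2 : 40 * M ^ 32 * e + (q + 40 * M ^ 32) * r ≤ 88 * M ^ 72 := by
      calc 40 * M ^ 32 * e + (q + 40 * M ^ 32) * r
          ≤ 40 * M ^ 32 * q + (2 * q) * (2 * M ^ 32) := by gcongr; omega
        _ = 44 * M ^ 32 * q := by ring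
        _ ≤ 44 * M ^ 32 * (2 * M ^ 40) := by gcongr; exact hR.hi
        _ = 88 * M ^ 72 := by ring
    linarith [hlive, hsum, hone, h1, h2]

/-- Many uncovered points force many multiply covered ones. -/
theorem many_double {c0 : ℕ} {Cl : Finset (Line (ZMod q))} {r : ℕ} (hm2 : Cl.card ≤ 2 * q)
    (hmr : q ≤ Cl.card + 60 * r) (hr : 120 * c0 * r ≤ q) (hU : q ^ 2 < c0 * (uncov Cl).card) :
    8 * q ^ 2 ≤
      128 * (c0 * c0) * (univ.filter fun p => 2 ≤ mult Cl p).card := by
  set U := (uncov Cl).card with hUdef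
  set S := ∑ p, (mult Cl p - 1) with hS
  set N := (univ.filter fun p => 2 ≤ mult Cl p).card with hN
  have hq0 : 0 < q := (Fact.out : q.Prime).pos
  have htot : S + q * q = Cl.card * q + U := by
    have h1 : Cl.card * q = ∑ p : ZMod q × ZMod q, mult Cl p := by
      rw [sum_mult, ← smul_eq_mul, ← sum_const]
      exact sum_congr rfl fun l _ => by rw [card_pts_line, ZMod.card]
    have h2 : q * q = ∑ _p : ZMod q × ZMod q, 1 := by simp [ZMod.card]
    have h3 : U = ∑ p : ZMod q × ZMod q, if mult Cl p = 0 then 1 else 0 := by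
      rw [← card_filter, hUdef, uncov]
      congr 1
      refine filter_congr fun p _ => ?_
      simp [mult, filter_eq_empty_iff]
    rw [h1, h2, h3, hS, ← sum_add_distrib, ← sum_add_distrib]
    exact sum_congr rfl fun p _ => by split_ifs <;> omega
  have hlow : q ^ 2 ≤ 2 * c0 * S := by
    have h1 : q * q ≤ (Cl.card + 60 * r) * q := Nat.mul_le_mul_right _ hmr
    have h2 : 120 * c0 * r * q ≤ q * q := Nat.mul_le_mul_right _ hr
    have h3 : c0 * U ≤ c0 * (S + 60 * r * q) := Nat.mul_le_mul_left _ (by linarith)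
    linarith [h2, h3, hU]
  have hcs : S ^ 2 ≤ N * (2 * q) ^ 2 :=
    (sq_sum_excess_le Cl).trans (Nat.mul_le_mul_left _ (Nat.pow_le_pow_left hm2 2))
  refine Nat.le_of_mul_le_mul_right ?_ (show 0 < q ^ 2 by positivity)
  calc 8 * q ^ 2 * q ^ 2 = 8 * (q ^ 2) ^ 2 := by ring
    _ ≤ 8 * (2 * c0 * S) ^ 2 := by gcongr
    _ = 32 * (c0 * c0) * S ^ 2 := by ring
    _ ≤ 32 * (c0 * c0) * (N * (2 * q) ^ 2) := by gcongr
    _ = _ := by ring

theorem uncov_small_aux {c0 C : ℕ} (hc0 : 1 ≤ c0) (hC : C = 128 * (c0 * c0)) {M : ℕ}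
    (hM : 1000 * (C * C) ≤ M) (hR : Regime M q) {ω : ZMod q → ZMod q} (hω : Outcome M ω)
    {Cl : Finset (Line (ZMod q))} (hCl : ∀ l ∈ Cl, notRandom ω l)
    (hcard : Cl.card ≤ q + 40 * M ^ 32) (hcov : ∀ p ∈ liveW ω, ∃ l ∈ Cl, onLine p l) :
    c0 * (uncov Cl).card ≤ q ^ 2 := by
  by_contra hU
  push Not at hU
  obtain ⟨e, he, hline⟩ := hω.lineCount
  have hC1 : c0 ≤ C := by
    rw [hC]; exact (Nat.le_mul_self c0).trans (Nat.le_mul_of_pos_left _ (by norm_num))
  have hC2 : C ≤ C * C := Nat.le_mul_self C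
  obtain ⟨hm2, hmlo, hW⟩ :=
    cover_live_estimates hR (by omega) he hline hCl hcard hcov
  have hM8 : M ≤ M ^ 8 := Nat.le_self_pow (by norm_num) M
  have hdiv : q / M ^ 8 * M ^ 8 ≤ q := Nat.div_mul_le_self q _
  have hr : 120 * c0 * (q / M ^ 8) ≤ q := by
    refine le_trans ?_ hdiv
    rw [mul_comm (q / M ^ 8)]
    exact Nat.mul_le_mul_right _ (by omega)
  have hr2 : 240 * (q / M ^ 8) ≤ q := by
    refine le_trans ?_ hdiv
    rw [mul_comm (q / M ^ 8)]
    exact Nat.mul_le_mul_right _ (by omega)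
  have hq12 : 12 ≤ q := by
    have : M ≤ M ^ 40 := Nat.le_self_pow (by norm_num) M
    have := hR.lo
    omega
  have hN := many_double hm2 hmlo hr hU
  rw [← hC] at hN
  obtain ⟨A, hA, hpoor, hRE⟩ :=
    exists_bad_family hR hω.killsLe hCl (by omega) hM hm2 (by omega) hW hN
  have := hω.manyKilled A hA hpoor
  omega

theorem uncov_small : ∀ᶠ M : ℕ in atTop, ∀ (q : ℕ) [Fact q.Prime], Regime M q →
    ∀ ω : ZMod q → ZMod q, Outcome M ω → ∀ Cl : Finset (Line (ZMod q)),
      (∀ l ∈ Cl, notRandom ω l) → Cl.card ≤ q + 40 * M ^ 32 →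
      (∀ p ∈ liveW ω, ∃ l ∈ Cl, onLine p l) →
      100000000 * (uncov Cl).card ≤ q ^ 2 :=
  (eventually_ge_atTop (1000 *
    (128 * (100000000 * 100000000) * (128 * (100000000 * 100000000))))).mono
    fun _ hM _ _ hR _ hω _ hCl hcard hcov =>
      uncov_small_aux (by norm_num) rfl hM hR hω hCl hcard hcov

end Vale.Agent.P045.H84
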