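import Vale.Agent.P045.H84.Tau
import Vale.Agent.P045.H84.Algebra
import Vale.Agent.P045.H84.Sample
import Vale.Agent.P045.H84.Exists

/-!
# Assembly: intersecting `(q+5)`-partite hypergraphs with covering number `q + 5`
-/

namespace Vale.Agent.P045.H84

open Finset Filter

section Build

variable {q : ℕ} [Fact q.Prime]

theorem blockOf_lt (M : ℕ) (d : ZMod q) (i : Fin 3) : blockOf M d i < numBlocks M q := by
  have h1 : d.val / gSize M ≤ q / gSize M := Nat.div_le_div_right (ZMod.val_lt d).le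
  have h2 := i.isLt
  simp only [blockOf, numBlocks]
  omega

theorem natCast_fin_inj (hq : 3 < q) {i j : Fin 3} (h : ((i : ℕ) : ZMod q) = (j : ℕ)) : i = j := by
  have := congrArg ZMod.val h
  rw [ZMod.val_natCast_of_lt (by omega), ZMod.val_natCast_of_lt (by omega)] at this
  exact Fin.ext this

/-- The configuration attached to an outcome. -/
def config (M : ℕ) (ω : ZMod q → ZMod q) (hq : 3 < q) :
    Config (ZMod q) (Fin (numBlocks M q)) where
  t d i := ω d + (i : ℕ)
  t_inj _ _ _ h := natCast_fin_inj hq (add_left_cancel h)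
  blk d i := ⟨blockOf M d i, blockOf_lt M d i⟩
  lab y := match lab0 M y with
    | none => none
    | some (b, S) =>
      if y ∈ forbidden M ω b then none else if h : b < numBlocks M q then some (⟨b, h⟩, S) else none

variable (M : ℕ) (ω : ZMod q → ZMod q) (hq : 3 < q)

theorem config_kills (p : ZMod q × ZMod q) : (config M ω hq).kills p = killsW ω p := by
  ext d
  rw [Config.mem_kills]
  simp only [killsW, mem_filter, mem_univ, true_and]
  exact Iff.rfl

theorem config_live : (config M ω hq).live = liveW ω := by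
  ext p
  simp [Config.live, liveW, config_kills]

theorem config_nonT (l : Line (ZMod q)) : (config M ω hq).nonT l ↔ notRandom ω l := by
  rcases l with ⟨d, c⟩ | a <;> simp [Config.nonT, Config.isT, config, notRandom]

theorem config_lab {y : ZMod q} {b : Fin (numBlocks M q)} {S : Six}
    (h : (config M ω hq).lab y = some (b, S)) :
    lab0 M y = some ((b : ℕ), S) ∧ y ∉ forbidden M ω b := by
  simp only [config] at h
  split at h
  · simp at h
  · next b' S' hl =>
    split_ifs at h with h1 h2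
    simp only [Option.some.injEq, Prod.mk.injEq] at h
    obtain ⟨rfl, rfl⟩ := h
    exact ⟨hl, h1⟩

theorem config_sameBlk (p : ZMod q × ZMod q) (b : Fin (numBlocks M q)) :
    (config M ω hq).sameBlk p b ⊆ blkThrough M ω p b := by
  intro d hd
  simp only [Config.sameBlk, mem_filter, config_kills] at hd
  obtain ⟨hk, i, hi, hb⟩ := hd
  simp only [killsW, mem_filter] at hk
  simp only [blkThrough, mem_filter, mem_univ, true_and]
  exact ⟨hk.2.1, i, hi, congrArg Fin.val hb⟩

theorem labelled_le : (config M ω hq).labelled.card ≤ numBlocks M q * 6 * poolSize M := by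
  rw [← card_range (numBlocks M q * 6 * poolSize M)]
  refine card_le_card_of_injOn (fun y => y.val) (fun y hy => ?_)
    (fun y _ y' _ h => ZMod.val_injective q h)
  simp only [mem_coe, Config.labelled, mem_filter] at hy
  obtain ⟨⟨b, S⟩, hbS⟩ := Option.isSome_iff_exists.mp hy.2
  have := (config_lab M ω hq hbS).1
  simp only [lab0] at this
  split_ifs at this with h
  simpa using h

theorem config_good (hR : Regime M q) (hM : 1000 ≤ M) (hω : Outcome M ω)
    (hstab : ∀ Cl : Finset (Line (ZMod q)), (∀ l ∈ Cl, notRandom ω l) →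
      Cl.card ≤ q + 40 * M ^ 32 → (∀ p ∈ liveW ω, ∃ l ∈ Cl, onLine p l) →
      100000000 * (uncov Cl).card ≤ q ^ 2) :
    ∃ e0 D J, (config M ω hq).Good e0 D J ∧ (config M ω hq).live.Nonempty := by
  obtain ⟨e, he, hline⟩ := hω.lineCount
  have hG : 0 < gSize M := by simp only [gSize]; positivity
  have h40 : M ^ 40 = M ^ 30 * gSize M := by simp [gSize, ← pow_add]
  have hdiv : q / gSize M ≤ 2 * M ^ 30 := by
    refine Nat.div_le_of_le_mul ?_
    calc q ≤ 2 * M ^ 40 := hR.hi
      _ = gSize M * (2 * M ^ 30) := by rw [h40]; ring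
  have hN : numBlocks M q * 6 * poolSize M ≤ 36 * M ^ 32 + 18 * M ^ 2 := by
    have : numBlocks M q ≤ 6 * M ^ 30 + 3 := by simp only [numBlocks]; omega
    calc numBlocks M q * 6 * poolSize M ≤ (6 * M ^ 30 + 3) * 6 * M ^ 2 := by
          unfold poolSize; gcongr
      _ = 36 * M ^ 32 + 18 * M ^ 2 := by ring
  have hpow : ∀ k, k ≤ 39 → 1000 * M ^ k ≤ M ^ 40 := fun k hk => by
    calc 1000 * M ^ k ≤ M * M ^ k := by gcongr
      _ = M ^ (k + 1) := by ring
      _ ≤ M ^ 40 := Nat.pow_le_pow_right (by omega) (by omega)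
  have h32 : 1000000 * M ^ 32 ≤ q := by
    calc 1000000 * M ^ 32 = 1000 * (1000 * M ^ 32) := by ring
      _ ≤ 1000 * (M * M ^ 32) := by gcongr
      _ = 1000 * M ^ 33 := by ring
      _ ≤ q := (hpow 33 (by norm_num)).trans hR.lo.le
  have h2 : 1000 * M ^ 2 ≤ M ^ 32 := by
    calc 1000 * M ^ 2 ≤ M * M ^ 2 := by gcongr
      _ = M ^ 3 := by ring
      _ ≤ M ^ 32 := Nat.pow_le_pow_right (by omega) (by norm_num)
  have hM2 : M ≤ M ^ 2 := Nat.le_self_pow (by norm_num) M
  have hq8 : 100000000 ≤ q := by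
    have : 1000000 * 1000 ≤ 1000000 * M ^ 32 :=
      Nat.mul_le_mul_left _ (hM.trans (Nat.le_self_pow (by norm_num) M))
    omega
  have hlab := labelled_le M ω hq
  have hcard : Fintype.card (ZMod q) = q := ZMod.card q
  refine ⟨e, 3 * M - 1, M, ⟨by omega, by omega, by omega, ?_, ?_, ?_, ?_, ?_, ?_, ?_⟩, ?_⟩
  · intro l hl
    rw [Config.liveOn, config_live]
    exact (hline l ((config_nonT M ω hq l).mp hl)).1
  · intro p
    rw [config_kills]
    exact hω.killsLe p
  · intro d hd i S
    set b := blockOf M d i with hb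
    set P := (pool M b S).filter (fun y =>
      killsW ω (rowPt d (ω d + (i : ℕ)) y) = {d}) with hP
    have h1 : 3 * M ≤ P.card := hω.poolGood d hd i S
    have h2 : P.card - 1 ≤ (P \ forbidden M ω b).card := by
      have := le_card_sdiff (forbidden M ω b) P
      have := hω.oneForbidden b
      omega
    have h3 : (P \ forbidden M ω b).card ≤ ((config M ω hq).desig d i S).card := by
      refine card_le_card_of_injOn (fun y => rowPt d (ω d + (i : ℕ)) y) (fun y hy => ?_)
        (fun y _ y' _ h => (congrArg Prod.snd h : _))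
      obtain ⟨hy0, hy3⟩ := mem_sdiff.mp (mem_coe.mp hy)
      rw [hP] at hy0
      obtain ⟨hy0, hy2⟩ := mem_filter.mp hy0
      have hy1 : lab0 M y = some (b, S) := (mem_filter.mp hy0).2
      simp only [mem_coe, Config.desig, mem_filter, mem_univ, true_and, config_kills]
      refine ⟨icpt_rowPt hd _ _, hy2, ?_⟩
      rw [hb] at hy1 hy3
      simp [config, rowPt, hy1, hy3, blockOf_lt]
    omega
  · intro d _ i j h
    have h' : blockOf M d i = blockOf M d j := congrArg Fin.val h
    simp only [blockOf] at h'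
    exact Fin.ext (by omega)
  · intro p b
    exact (card_le_card (config_sameBlk M ω hq p b)).trans (hω.fourFree p b)
  · intro p b S hl
    obtain ⟨hl0, hnf⟩ := config_lab M ω hq hl
    refine (card_le_card (config_sameBlk M ω hq p b)).trans ?_
    by_contra hc
    push Not at hc
    exact hnf (mem_filter.mpr ⟨mem_univ _, ⟨S, hl0⟩, p.1, hc⟩)
  · intro Cl h1 h2 h3
    rw [hcard] at h2
    rw [config_live] at h3
    have hU := hstab Cl (fun l hl => (config_nonT M ω hq l).mp (h1 l hl)) (by omega) h3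
    have hb : q ≤ 1000 * (q / 1000) + 999 := by omega
    have key : 4 * ((uncov Cl).card + q + 1) ≤ (q / 1000) * (q / 1000) := by
      have hb' : q ≤ 1001 * (q / 1000) := by omega
      have hb'' : 100000 ≤ q / 1000 := by omega
      nlinarith [Nat.mul_le_mul hb' hb', hU, hb', hb'']
    obtain ⟨z, hz⟩ := stability Cl (q / 1000) (by omega) key (by omega)
    exact ⟨z, by omega⟩
  · rw [config_live]
    have := (hline (Sum.inr 0) trivial).1
    have hpos : 0 < ((liveW ω).filter fun p => onLine p (Sum.inr 0 : Line (ZMod q))).card := by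
      omega
    obtain ⟨p, hp⟩ := card_pos.mp hpos
    exact ⟨p, (mem_filter.mp hp).1⟩

/-- A vertex of any part as an element of one common type. -/
def pad {B : Type} : (i : Part (ZMod q)) → Vert (ZMod q) B i →
    (ZMod q × Option (Fin 3)) ⊕ ((ZMod q ⊕ ZMod q) ⊕ B)
  | Sum.inl _, v => Sum.inl v
  | Sum.inr _, v => Sum.inr v

theorem pad_inj {B : Type} (i : Part (ZMod q)) :
    Function.Injective (pad (q := q) (B := B) i) := by
  rcases i with o | i
  · exact Sum.inl_injective
  · exact Sum.inr_injective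

open Classical in
theorem hypergraph_of_good {B : Type} [Fintype B] [DecidableEq B] (K : Config (ZMod q) B)
    (hq4 : 4 ≤ q) {e0 D J : ℕ} (G : K.Good e0 D J) (hne : K.live.Nonempty) :
    ∃ (n : ℕ) (H : Finset (Fin (q + 5) → Fin n)), H.Nonempty ∧
      (∀ e ∈ H, ∀ f ∈ H, ∃ i, e i = f i) ∧
      ∀ C : Finset (Fin (q + 5) × Fin n), (∀ e ∈ H, ∃ i, (i, e i) ∈ C) → q + 5 ≤ C.card := by
  have hσ : Fintype.card (Part (ZMod q)) = q + 5 := by simp [ZMod.card]
  let σ := (Fintype.equivFinOfCardEq hσ).symm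
  let φ := Fintype.equivFin ((ZMod q × Option (Fin 3)) ⊕ ((ZMod q ⊕ ZMod q) ⊕ B))
  let g : (ZMod q × ZMod q) × Six → (Fin (q + 5) → Fin _) :=
    fun x j => φ (pad (σ j) (K.edge x.1 x.2 (σ j)))
  let H := (univ.filter fun x : (ZMod q × ZMod q) × Six => K.Valid x.1 x.2).image g
  refine ⟨_, H, ?_, ?_, ?_⟩
  · obtain ⟨p, hp⟩ := hne
    exact ⟨g (p, 0), mem_image.mpr ⟨(p, 0), mem_filter.mpr ⟨mem_univ _, K.live_valid hp 0⟩, rfl⟩⟩
  · intro e he f hf
    obtain ⟨⟨p, S⟩, hx, rfl⟩ := mem_image.mp he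
    obtain ⟨⟨p', S'⟩, hy, rfl⟩ := mem_image.mp hf
    obtain ⟨i, hi⟩ := K.intersecting (by simpa [ZMod.card] using hq4) (mem_filter.mp hx).2
      (mem_filter.mp hy).2
    refine ⟨σ.symm i, ?_⟩
    have : ∀ j, j = i → φ (pad j (K.edge p S j)) = φ (pad j (K.edge p' S' j)) := by
      rintro j rfl; rw [hi]
    exact this _ (σ.apply_symm_apply i)
  · intro C hC
    let h : Vx (ZMod q) B → Fin (q + 5) × Fin _ := fun u => (σ.symm u.1, φ (pad u.1 u.2))
    have hinj : Function.Injective h := by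
      rintro ⟨i, v⟩ ⟨i', v'⟩ he
      simp only [h, Prod.mk.injEq, EmbeddingLike.apply_eq_iff_eq] at he
      obtain ⟨rfl, he⟩ := he
      rw [pad_inj i he]
    set C' := C.preimage h hinj.injOn with hC'
    have h1 : C'.card ≤ C.card :=
      card_le_card_of_injOn h (fun u hu => mem_preimage.mp hu) hinj.injOn
    have h2 := K.tau_ge G C' fun p S hv => by
      obtain ⟨j, hj⟩ := hC (g (p, S)) (mem_image.mpr ⟨(p, S), mem_filter.mpr ⟨mem_univ _, hv⟩, rfl⟩)
      refine ⟨⟨σ j, K.edge p S (σ j)⟩, mem_preimage.mpr ?_, σ j, rfl⟩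
      simpa [h, g] using hj
    rw [ZMod.card] at h2
    omega

end Build

theorem exists_root (k : ℕ) (hk : k ≠ 0) (q : ℕ) : ∃ M, M ^ k ≤ q ∧ q < (M + 1) ^ k := by
  classical
  have h : ∃ n, q < (n + 1) ^ k := ⟨q, (Nat.lt_succ_self q).trans_le (Nat.le_self_pow hk _)⟩
  refine ⟨Nat.find h, ?_, Nat.find_spec h⟩
  rcases Nat.eq_zero_or_pos (Nat.find h) with h0 | h0
  · rw [h0, zero_pow hk]
    exact Nat.zero_le q
  · have := Nat.find_min h (m := Nat.find h - 1) (by omega)
    rw [Nat.sub_add_cancel h0] at this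
    omega

theorem pow_succ_le_two_mul (k M : ℕ) (h : 2 * k ≤ M) : (M + 1) ^ k ≤ 2 * M ^ k := by
  suffices hs : ∀ j, j ≤ k → (M + 1) ^ j * (M - j) ≤ M ^ (j + 1) by
    rcases Nat.eq_zero_or_pos M with rfl | hM
    · simp [show k = 0 by omega]
    have h1 := hs k le_rfl
    have h2 : M ≤ 2 * (M - k) := by omega
    refine Nat.le_of_mul_le_mul_right ?_ hM
    calc (M + 1) ^ k * M ≤ (M + 1) ^ k * (2 * (M - k)) := Nat.mul_le_mul_left _ h2
      _ = 2 * ((M + 1) ^ k * (M - k)) := by ring
      _ ≤ 2 * M ^ (k + 1) := Nat.mul_le_mul_left _ h1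
      _ = 2 * M ^ k * M := by ring
  intro j hj
  induction j with
  | zero => simp
  | succ j ih =>
    have h2 : (M + 1) * (M - (j + 1)) ≤ (M - j) * M := by
      obtain ⟨d, hd⟩ : ∃ d, M = d + (j + 1) := ⟨M - (j + 1), by omega⟩
      have e1 : M - (j + 1) = d := by omega
      have e2 : M - j = d + 1 := by omega
      rw [e1, e2]; nlinarith
    calc (M + 1) ^ (j + 1) * (M - (j + 1)) = (M + 1) ^ j * ((M + 1) * (M - (j + 1))) := by ring
      _ ≤ (M + 1) ^ j * ((M - j) * M) := Nat.mul_le_mul_left _ h2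
      _ = (M + 1) ^ j * (M - j) * M := by ring
      _ ≤ M ^ (j + 1) * M := Nat.mul_le_mul_right _ (ih (by omega))
      _ = M ^ (j + 1 + 1) := by ring

/-- For every sufficiently large prime `q` there is an intersecting `(q+5)`-partite hypergraph
with covering number `q + 5`. -/
theorem ryser_counterexample : ∀ᶠ q : ℕ in atTop, q.Prime →
    ∃ (n : ℕ) (H : Finset (Fin (q + 5) → Fin n)), H.Nonempty ∧
      (∀ e ∈ H, ∀ f ∈ H, ∃ i, e i = f i) ∧
      ∀ C : Finset (Fin (q + 5) × Fin n), (∀ e ∈ H, ∃ i, (i, e i) ∈ C) → q + 5 ≤ C.card := by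
  obtain ⟨M₀, hM₀⟩ := eventually_atTop.mp (exists_outcome.and uncov_small)
  set M₁ := max M₀ 1000 with hM₁
  refine eventually_atTop.mpr ⟨(M₁ + 1) ^ 40, fun q hq hqp => ?_⟩
  have : Fact q.Prime := ⟨hqp⟩
  obtain ⟨M, hspec, hgt⟩ := exists_root 40 (by norm_num) q
  have hlo : M₁ + 1 ≤ M := by
    have h := hq.trans_lt hgt
    have := lt_of_pow_lt_pow_left₀ 40 (Nat.zero_le _) h
    omega
  have h2 : (M + 1) ^ 40 ≤ 2 * M ^ 40 := pow_succ_le_two_mul 40 M (by omega)
  have hne : M ^ 40 ≠ q := fun h => Nat.Prime.not_prime_pow (by norm_num) (h ▸ hqp)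
  have hR : Regime M q := ⟨lt_of_le_of_ne hspec hne, by omega⟩
  obtain ⟨hex, hunc⟩ := hM₀ M (by omega)
  obtain ⟨ω, hω⟩ := hex q hR
  have h16 : 16 ≤ q := by
    have h3 := Nat.le_self_pow (show 40 ≠ 0 by norm_num) (M₁ + 1)
    omega
  obtain ⟨e0, D, J, G, hlive⟩ :=
    config_good M ω (show 3 < q by omega) hR (by omega) hω (hunc q hR ω hω)
  exact hypergraph_of_good (config M ω _) (by omega) G hlive

end Vale.Agent.P045.H84
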