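import Vale.Agent.P045.H84.Defs

/-!
# Incidences of a family of lines, and the number of subfamilies containing given lines
-/

namespace Vale.Agent.P045.H84

open Finset

section Lines

variable {F : Type} [Field F] [Fintype F] [DecidableEq F]

/-- Number of lines of `Cl` through `p`. -/
def mult (Cl : Finset (Line F)) (p : F × F) : ℕ := (Cl.filter fun l => onLine p l).card

theorem line_unique {p p' : F × F} (hne : p ≠ p') {l l' : Line F} (h1 : onLine p l)
    (h2 : onLine p' l) (h3 : onLine p l') (h4 : onLine p' l') : l = l' := by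
  rcases l with ⟨d, c⟩ | a <;> rcases l' with ⟨d', c'⟩ | a'
  · rw [onLine_iff_icpt] at h1 h2 h3 h4
    rcases eq_or_ne d d' with rfl | hd
    · rw [← h1, h3]
    · exact absurd (eq_of_icpt hd (h1.trans h2.symm) (h3.trans h4.symm)) hne
  · simp only [onLine] at h1 h2 h3 h4
    exact absurd (Prod.ext (h3.trans h4.symm) (by rw [h1, h2, h3, h4])) hne
  · simp only [onLine] at h1 h2 h3 h4
    exact absurd (Prod.ext (h1.trans h2.symm) (by rw [h3, h4, h1, h2])) hne
  · simp only [onLine] at h1 h3
    rw [← h1, h3]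

theorem card_pts_line (l : Line F) :
    (univ.filter fun p : F × F => onLine p l).card = Fintype.card F := by
  rw [← card_univ]
  rcases l with ⟨d, c⟩ | a
  · refine card_nbij' (fun p => p.1) (fun x => (x, d * x + c)) ?_ ?_ ?_ ?_
    · intro p _; simp
    · intro x _; exact mem_filter.mpr ⟨mem_univ _, (rfl : _)⟩
    · intro p hp
      exact Prod.ext rfl ((mem_filter.mp hp).2 : p.2 = d * p.1 + c).symm
    · intro x _; rfl
  · refine card_nbij' (fun p => p.2) (fun y => (a, y)) ?_ ?_ ?_ ?_
    · intro p _; simp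
    · intro x _; exact mem_filter.mpr ⟨mem_univ _, (rfl : _)⟩
    · intro p hp
      exact Prod.ext ((mem_filter.mp hp).2 : p.1 = a).symm rfl
    · intro x _; rfl

omit [Fintype F] in
theorem sum_mult (Cl : Finset (Line F)) (s : Finset (F × F)) :
    ∑ p ∈ s, mult Cl p = ∑ l ∈ Cl, (s.filter fun p => onLine p l).card :=
  sum_card_bipartiteAbove_eq_sum_card_bipartiteBelow _

theorem sum_mult_pairs_le (Cl : Finset (Line F)) :
    ∑ p, mult Cl p * (mult Cl p - 1) ≤ Cl.card ^ 2 := by
  have hd : ((univ : Finset (F × F)) : Set (F × F)).PairwiseDisjoint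
      fun p => (Cl.filter fun l => onLine p l).offDiag := by
    intro p _ p' _ hne
    rw [Function.onFun, disjoint_left]
    intro x hx hx'
    simp only [mem_offDiag, mem_filter] at hx hx'
    exact hx.2.2 (line_unique hne hx.1.2 hx'.1.2 hx.2.1.2 hx'.2.1.2)
  calc ∑ p, mult Cl p * (mult Cl p - 1)
      = ((univ : Finset (F × F)).biUnion fun p => (Cl.filter fun l => onLine p l).offDiag).card := by
        rw [card_biUnion hd]
        exact sum_congr rfl fun p _ => by rw [offDiag_card, Nat.mul_sub_one]; rfl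
    _ ≤ (Cl ×ˢ Cl).card := by
        refine card_le_card fun x hx => ?_
        simp only [mem_biUnion, mem_offDiag, mem_filter] at hx
        obtain ⟨p, -, h1, h2, -⟩ := hx
        exact mem_product.mpr ⟨h1.1, h2.1⟩
    _ = Cl.card ^ 2 := by rw [card_product, sq]

theorem card_two_le_mult_le (Cl : Finset (Line F)) :
    (univ.filter fun p : F × F => 2 ≤ mult Cl p).card ≤ Cl.card ^ 2 := by
  refine le_trans ?_ (sum_mult_pairs_le Cl)
  rw [card_eq_sum_ones]
  refine (sum_le_sum fun p hp => ?_).trans (sum_le_sum_of_subset (subset_univ _))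
  have h := (mem_filter.mp hp).2
  exact Nat.mul_pos (by omega) (by omega)

theorem sq_sum_excess_le (Cl : Finset (Line F)) :
    (∑ p, (mult Cl p - 1)) ^ 2 ≤
      (univ.filter fun p : F × F => 2 ≤ mult Cl p).card * Cl.card ^ 2 := by
  set Z := univ.filter fun p : F × F => 2 ≤ mult Cl p with hZ
  have h : ∑ p ∈ Z, (mult Cl p - 1) = ∑ p, (mult Cl p - 1) := by
    refine sum_subset (subset_univ _) fun p _ hp => ?_
    simp only [hZ, mem_filter, mem_univ, true_and] at hp
    omega
  rw [← h]
  refine sq_sum_le_card_mul_sum_sq.trans (Nat.mul_le_mul_left _ ?_)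
  refine ((sum_le_sum fun p _ => ?_).trans (sum_le_sum_of_subset (subset_univ _))).trans
    (sum_mult_pairs_le Cl)
  rw [sq]
  exact Nat.mul_le_mul_right _ (Nat.sub_le _ _)

theorem card_rows (s : Finset (F × F)) :
    s.card = ∑ c : F, (s.filter fun p => onLine p (Sum.inl (0, c) : Line F)).card := by
  rw [card_eq_sum_card_fiberwise (f := fun p => p.2) (t := univ) fun p _ => mem_univ _]
  refine sum_congr rfl fun c _ => ?_
  congr 1
  refine filter_congr fun p _ => ?_
  simp [onLine]

end Lines

section Subsets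

variable {α : Type*} [DecidableEq α]

theorem card_supersets (S T : Finset α) (hT : T ⊆ S) (k : ℕ) (hk : T.card ≤ k) :
    ((S.powersetCard k).filter fun A => T ⊆ A).card =
      (S.card - T.card).choose (k - T.card) := by
  rw [← card_sdiff_of_subset hT, ← card_powersetCard]
  refine card_nbij' (fun A => A \ T) (fun B => B ∪ T) ?_ ?_ ?_ ?_
  · intro A hA
    simp only [mem_coe, mem_filter, mem_powersetCard] at hA ⊢
    refine ⟨sdiff_subset_sdiff hA.1.1 Subset.rfl, ?_⟩
    rw [card_sdiff_of_subset hA.2, hA.1.2]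
  · intro B hB
    simp only [mem_coe, mem_filter, mem_powersetCard] at hB ⊢
    have hd : Disjoint B T := disjoint_of_subset_left hB.1 sdiff_disjoint
    refine ⟨⟨union_subset (hB.1.trans sdiff_subset) hT, ?_⟩, subset_union_right⟩
    rw [card_union_of_disjoint hd, hB.2]
    omega
  · intro A hA
    simp only [mem_coe, mem_filter] at hA
    exact sdiff_union_of_subset hA.2
  · intro B hB
    simp only [mem_coe, mem_powersetCard] at hB
    exact union_sdiff_cancel_right (disjoint_of_subset_left hB.1 sdiff_disjoint)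

theorem choose_down (n k : ℕ) (hk : 1 ≤ k) (hn : 1 ≤ n) :
    n * (n - 1).choose (k - 1) = n.choose k * k := by
  obtain ⟨k, rfl⟩ := Nat.exists_eq_add_of_le' hk
  obtain ⟨n, rfl⟩ := Nat.exists_eq_add_of_le' hn
  simpa using Nat.add_one_mul_choose_eq n k

theorem choose_down2 (m k : ℕ) (hk : 2 ≤ k) (hm : 2 ≤ m) :
    m * (m - 1) * (m - 2).choose (k - 2) = m.choose k * (k * (k - 1)) := by
  have h1 := choose_down m k (by omega) (by omega)
  have h2 := choose_down (m - 1) (k - 1) (by omega) (by omega)
  simp only [Nat.sub_sub] at h2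
  calc m * (m - 1) * (m - 2).choose (k - 2) = m * ((m - 1) * (m - (1 + 1)).choose (k - (1 + 1))) := by
        ring
    _ = m * ((m - 1).choose (k - 1) * (k - 1)) := by rw [h2]
    _ = _ := by rw [← mul_assoc, h1]; ring

theorem choose_down4_le (m k : ℕ) (hk : 4 ≤ k) (hm : 4 ≤ m) :
    (m - 3) ^ 4 * (m - 4).choose (k - 4) ≤ m.choose k * k ^ 4 := by
  have h1 := choose_down2 m k (by omega) (by omega)
  have h2 := choose_down2 (m - 2) (k - 2) (by omega) (by omega)
  simp only [Nat.sub_sub] at h2
  norm_num at h2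
  have h3 : (m - 3) ^ 4 ≤ m * (m - 1) * ((m - 2) * (m - 3)) := by
    calc (m - 3) ^ 4 = (m - 3) * (m - 3) * ((m - 3) * (m - 3)) := by ring
      _ ≤ _ := by gcongr <;> omega
  have h4 : (k - 2) * (k - 3) * (k * (k - 1)) ≤ k ^ 4 := by
    calc (k - 2) * (k - 3) * (k * (k - 1)) ≤ k * k * (k * k) := by gcongr <;> omega
      _ = k ^ 4 := by ring
  calc (m - 3) ^ 4 * (m - 4).choose (k - 4)
      ≤ m * (m - 1) * ((m - 2) * (m - 3)) * (m - 4).choose (k - 4) := by gcongr
    _ = m * (m - 1) * (((m - 2) * (m - 3)) * (m - 4).choose (k - 4)) := by ring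
    _ = m * (m - 1) * ((m - 2).choose (k - 2) * ((k - 2) * (k - 3))) := by rw [h2]
    _ = m.choose k * ((k - 2) * (k - 3) * (k * (k - 1))) := by rw [← mul_assoc, h1]; ring
    _ ≤ m.choose k * k ^ 4 := by gcongr

end Subsets

end Vale.Agent.P045.H84
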