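import Vale.Agent.P045.H84.Choice
import Vale.Agent.P045.H84.SmpCount

/-!
# A sampled subfamily whose double points are poorly killed
-/

namespace Vale.Agent.P045.H84

open Finset

variable {q : ℕ} [Fact q.Prime]

/-- The slopes and indices of all random lines. -/
def smpIdx (q : ℕ) [Fact q.Prime] : Finset (ZMod q × Fin 3) :=
  (univ.filter fun d : ZMod q => d ≠ 0) ×ˢ univ

/-- The points of `s` on the random line with index `x`. -/
def onRand (ω : ZMod q → ZMod q) (s : Finset (ZMod q × ZMod q)) (x : ZMod q × Fin 3) :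
    Finset (ZMod q × ZMod q) :=
  s.filter fun p => ω x.1 + (x.2 : ℕ) = icpt p x.1

theorem smp_fin3_cast_inj (hq : 3 < q) {i j : Fin 3} (h : ((i : ℕ) : ZMod q) = (j : ℕ)) : i = j := by
  have := congrArg ZMod.val h
  rw [ZMod.val_natCast_of_lt (by omega), ZMod.val_natCast_of_lt (by omega)] at this
  exact Fin.ext this

theorem sum_onRand_le (hq : 3 < q) {M : ℕ} {ω : ZMod q → ZMod q}
    (hkill : ∀ p, (killsW ω p).card ≤ M) (s : Finset (ZMod q × ZMod q)) :
    ∑ x ∈ smpIdx q, (onRand ω s x).card ≤ M * s.card := by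
  refine (sum_card_bipartiteAbove_eq_sum_card_bipartiteBelow
    (fun (x : ZMod q × Fin 3) p => ω x.1 + (x.2 : ℕ) = icpt p x.1)).trans_le ?_
  rw [mul_comm]
  refine sum_le_card_nsmul _ _ M fun p _ => (card_le_card_of_injOn Prod.fst ?_ ?_).trans (hkill p)
  · intro x hx
    simp only [mem_coe, bipartiteBelow, smpIdx, mem_filter, mem_product, mem_univ, and_true,
      true_and] at hx
    simp only [mem_coe, killsW, mem_filter, mem_univ, true_and]
    exact ⟨hx.1, x.2, hx.2⟩
  · intro x hx y hy h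
    simp only [mem_coe, bipartiteBelow, mem_filter] at hx hy
    have h2 := hy.2
    rw [← h, ← hx.2] at h2
    exact Prod.ext h (smp_fin3_cast_inj hq (add_left_cancel h2).symm)

theorem card_smpIdx_le : (smpIdx q).card ≤ 3 * q := by
  rw [smpIdx, card_product, card_univ, Fintype.card_fin, mul_comm]
  exact Nat.mul_le_mul_left _ ((card_filter_le _ _).trans (by simp [ZMod.card]))

theorem card_onRand_le (ω : ZMod q → ZMod q) (s : Finset (ZMod q × ZMod q))
    (x : ZMod q × Fin 3) : (onRand ω s x).card ≤ q := by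
  refine le_trans (card_le_card fun p hp => ?_)
    ((card_pts_line (Sum.inl (x.1, ω x.1 + (x.2 : ℕ)) : Line (ZMod q))).trans (ZMod.card q)).le
  exact mem_filter.mpr ⟨mem_univ _, (onLine_iff_icpt _ _ _).mpr (mem_filter.mp hp).2.symm⟩

section Sampling

variable (Cl : Finset (Line (ZMod q))) (Z : Finset (ZMod q × ZMod q))
  (a b : ZMod q × ZMod q → Line (ZMod q))

/-- Points whose two designated lines both lie in `A`. -/
def chosen (A : Finset (Line (ZMod q))) : Finset (ZMod q × ZMod q) :=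
  Z.filter fun p => a p ∈ A ∧ b p ∈ A

/-- The designated lines: two lines of `Cl` through the point. -/
def Design : Prop :=
  ∀ p ∈ Z, a p ∈ Cl ∧ b p ∈ Cl ∧ a p ≠ b p ∧ onLine p (a p) ∧ onLine p (b p)

variable {Cl Z a b}

theorem sum_chosen (hD : Design Cl Z a b) {k : ℕ} (hk : 2 ≤ k) :
    ∑ A ∈ Cl.powersetCard k, (chosen Z a b A).card =
      Z.card * (Cl.card - 2).choose (k - 2) := by
  refine (sum_card_bipartiteAbove_eq_sum_card_bipartiteBelow
    (fun A p => a p ∈ A ∧ b p ∈ A)).trans ?_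
  rw [← smul_eq_mul, ← sum_const]
  refine sum_congr rfl fun p hp => ?_
  obtain ⟨h1, h2, h3, -, -⟩ := hD p hp
  have hc : ({a p, b p} : Finset (Line (ZMod q))).card = 2 := card_pair h3
  rw [← hc, ← card_supersets Cl {a p, b p} (by simp [insert_subset_iff, h1, h2]) k (by omega)]
  simp [bipartiteBelow, insert_subset_iff]

theorem sum_pair_le (hD : Design Cl Z a b) {k : ℕ} (hk : 4 ≤ k) {R : Line (ZMod q)} (hR : R ∉ Cl)
    {Zl : Finset (ZMod q × ZMod q)} (hZl : Zl ⊆ Z) (hon : ∀ p ∈ Zl, onLine p R) :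
    ∑ A ∈ Cl.powersetCard k, (chosen Zl a b A).card ^ 2 ≤
      Zl.card * (Cl.card - 2).choose (k - 2) + Zl.card ^ 2 * (Cl.card - 4).choose (k - 4) := by
  set N2 := (Cl.card - 2).choose (k - 2)
  set N4 := (Cl.card - 4).choose (k - 4)
  have hpair : ∀ x ∈ Zl ×ˢ Zl, ((Cl.powersetCard k).filter fun A =>
      (a x.1 ∈ A ∧ b x.1 ∈ A) ∧ (a x.2 ∈ A ∧ b x.2 ∈ A)).card ≤
      (if x.1 = x.2 then N2 else 0) + N4 := by
    rintro ⟨p, p'⟩ hx
    obtain ⟨hp, hp'⟩ := mem_product.mp hx
    obtain ⟨h1, h2, h3, h4, h5⟩ := hD p (hZl hp)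
    obtain ⟨g1, g2, g3, g4, g5⟩ := hD p' (hZl hp')
    rcases eq_or_ne p p' with rfl | hne
    · simp only [if_true]
      have hc : ({a p, b p} : Finset (Line (ZMod q))).card = 2 := card_pair h3
      refine le_trans (le_of_eq ?_) (Nat.le_add_right _ _)
      simp only [N2]
      rw [← hc, ← card_supersets Cl {a p, b p} (by simp [insert_subset_iff, h1, h2]) k (by omega)]
      simp [insert_subset_iff]
    · have hx : ∀ l ∈ Cl, onLine p l → ∀ l', onLine p' l' → l ≠ l' := by
        rintro l hl hpl l' hpl' rfl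
        exact hR (line_unique hne hpl hpl' (hon p hp) (hon p' hp') ▸ hl)
      have e1 := hx _ h1 h4 _ g4
      have e2 := hx _ h1 h4 _ g5
      have e3 := hx _ h2 h5 _ g4
      have e4 := hx _ h2 h5 _ g5
      set T : Finset (Line (ZMod q)) := {a p, b p, a p', b p'} with hT
      have hc : T.card = 4 := by simp [hT, h3, g3, e1, e2, e3, e4]
      simp only [if_neg hne, zero_add, N4]
      rw [← hc, ← card_supersets Cl T (by simp [hT, insert_subset_iff, h1, h2, g1, g2]) k (by omega)]
      simp [hT, insert_subset_iff, and_assoc]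
  calc ∑ A ∈ Cl.powersetCard k, (chosen Zl a b A).card ^ 2
      = ∑ A ∈ Cl.powersetCard k, ((Zl ×ˢ Zl).filter fun x =>
          (a x.1 ∈ A ∧ b x.1 ∈ A) ∧ (a x.2 ∈ A ∧ b x.2 ∈ A)).card :=
        sum_congr rfl fun A _ => by
          rw [sq, ← card_product, chosen]
          congr 1
          exact (filter_product (fun p => a p ∈ A ∧ b p ∈ A) (fun p => a p ∈ A ∧ b p ∈ A)).symm
    _ = ∑ x ∈ Zl ×ˢ Zl, ((Cl.powersetCard k).filter fun A =>
          (a x.1 ∈ A ∧ b x.1 ∈ A) ∧ (a x.2 ∈ A ∧ b x.2 ∈ A)).card :=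
        sum_card_bipartiteAbove_eq_sum_card_bipartiteBelow _
    _ ≤ ∑ x ∈ Zl ×ˢ Zl, ((if x.1 = x.2 then N2 else 0) + N4) := sum_le_sum hpair
    _ = _ := by
        rw [sum_add_distrib, sum_product, sum_const, card_product, smul_eq_mul, ← sq]
        simp

theorem sum_onRand_sq_le (hD : Design Cl Z a b) {k : ℕ} (hk : 4 ≤ k) (hq : 3 < q) {M : ℕ}
    {ω : ZMod q → ZMod q} (hCl : ∀ l ∈ Cl, notRandom ω l)
    (hkill : ∀ p, (killsW ω p).card ≤ M) :
    ∑ A ∈ Cl.powersetCard k, ∑ x ∈ smpIdx q, (onRand ω (chosen Z a b A) x).card ^ 2 ≤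
      M * (Z.card * (Cl.card - 2).choose (k - 2)) + 3 * q ^ 3 * (Cl.card - 4).choose (k - 4) := by
  rw [sum_comm]
  calc ∑ x ∈ smpIdx q, ∑ A ∈ Cl.powersetCard k, (onRand ω (chosen Z a b A) x).card ^ 2
      = ∑ x ∈ smpIdx q, ∑ A ∈ Cl.powersetCard k, (chosen (onRand ω Z x) a b A).card ^ 2 :=
        sum_congr rfl fun x _ => sum_congr rfl fun A _ => by
          rw [onRand, chosen, chosen, onRand, filter_comm]
    _ ≤ ∑ x ∈ smpIdx q, ((onRand ω Z x).card * (Cl.card - 2).choose (k - 2) +
          (onRand ω Z x).card ^ 2 * (Cl.card - 4).choose (k - 4)) := by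
        refine sum_le_sum fun x hx => sum_pair_le hD hk
          (R := Sum.inl (x.1, ω x.1 + (x.2 : ℕ))) ?_ (filter_subset _ _) ?_
        · intro hl
          simp only [smpIdx, mem_product, mem_filter] at hx
          exact hCl _ hl ⟨hx.1.2, x.2, rfl⟩
        · exact fun p hp => (onLine_iff_icpt _ _ _).mpr (mem_filter.mp hp).2.symm
    _ = (∑ x ∈ smpIdx q, (onRand ω Z x).card) * (Cl.card - 2).choose (k - 2) +
          (∑ x ∈ smpIdx q, (onRand ω Z x).card ^ 2) * (Cl.card - 4).choose (k - 4) := by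
        rw [sum_add_distrib, sum_mul, sum_mul]
    _ ≤ M * Z.card * (Cl.card - 2).choose (k - 2) + 3 * q ^ 3 * (Cl.card - 4).choose (k - 4) := by
        gcongr
        · exact sum_onRand_le hq hkill Z
        · calc ∑ x ∈ smpIdx q, (onRand ω Z x).card ^ 2 ≤ (smpIdx q).card * q ^ 2 := by
                simpa using sum_le_card_nsmul (smpIdx q) _ (q ^ 2) fun x _ =>
                  Nat.pow_le_pow_left (card_onRand_le ω Z x) 2
            _ ≤ 3 * q * q ^ 2 := Nat.mul_le_mul_right _ card_smpIdx_le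
            _ = 3 * q ^ 3 := by ring
    _ = _ := by ring

theorem sum_dbl_inter_le (s : Finset (ZMod q × ZMod q)) {k : ℕ} (hk : 1 ≤ k) :
    ∑ A ∈ Cl.powersetCard k, (dbl A ∩ s).card ≤
      (∑ p ∈ s, (mult Cl p - 1)) * (Cl.card - 1).choose (k - 1) := by
  set N1 := (Cl.card - 1).choose (k - 1) with hN1
  calc ∑ A ∈ Cl.powersetCard k, (dbl A ∩ s).card
      = ∑ A ∈ Cl.powersetCard k, (s.filter fun p => 2 ≤ mult A p).card :=
        sum_congr rfl fun A _ => by
          congr 1
          ext p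
          rw [mem_inter, dbl, mem_filter, mem_filter, and_comm]
          simp [mult]
    _ = ∑ p ∈ s, ((Cl.powersetCard k).filter fun A => 2 ≤ mult A p).card :=
        sum_card_bipartiteAbove_eq_sum_card_bipartiteBelow _
    _ ≤ ∑ p ∈ s, (mult Cl p - 1) * N1 := by
        refine sum_le_sum fun p _ => ?_
        rcases Nat.lt_or_ge (mult Cl p) 2 with hlt | hge
        · rw [filter_false_of_mem fun A hA h => ?_]
          · simp
          have : mult A p ≤ mult Cl p :=
            card_le_card (filter_subset_filter _ (mem_powersetCard.mp hA).1)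
          omega
        · have hsum : ∑ A ∈ Cl.powersetCard k, mult A p = mult Cl p * N1 := by
            calc ∑ A ∈ Cl.powersetCard k, mult A p
                = ∑ A ∈ Cl.powersetCard k,
                    ((Cl.filter fun l => onLine p l).filter fun l => l ∈ A).card :=
                  sum_congr rfl fun A hA => by
                    unfold mult
                    congr 1
                    ext l
                    simp only [mem_filter]
                    exact ⟨fun h => ⟨⟨(mem_powersetCard.mp hA).1 h.1, h.2⟩, h.1⟩,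
                      fun h => ⟨h.2, h.1.2⟩⟩
              _ = ∑ l ∈ Cl.filter (fun l => onLine p l),
                    ((Cl.powersetCard k).filter fun A => l ∈ A).card :=
                  sum_card_bipartiteAbove_eq_sum_card_bipartiteBelow (fun A l => l ∈ A)
              _ = ∑ _l ∈ Cl.filter (fun l => onLine p l), N1 := sum_congr rfl fun l hl => by
                  have := card_supersets Cl {l} (singleton_subset_iff.mpr (mem_filter.mp hl).1) k
                    (by simpa using hk)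
                  simpa [hN1] using this
              _ = mult Cl p * N1 := by simp [mult]
          have h2 : ((Cl.powersetCard k).filter fun A => 2 ≤ mult A p).card * 2 ≤
              ∑ A ∈ Cl.powersetCard k, mult A p := by
            rw [← smul_eq_mul, ← sum_const]
            exact (sum_le_sum fun A hA => (mem_filter.mp hA).2).trans
              (sum_le_sum_of_subset (filter_subset _ _))
          have h3 : mult Cl p * N1 ≤ 2 * ((mult Cl p - 1) * N1) := by
            rw [← mul_assoc]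
            exact Nat.mul_le_mul_right _ (by omega)
          omega
    _ = _ := by rw [sum_mul]

theorem chosen_subset_dbl (hD : Design Cl Z a b) (A : Finset (Line (ZMod q))) :
    chosen Z a b A ⊆ dbl A := by
  intro p hp
  obtain ⟨hpZ, ha, hb⟩ := mem_filter.mp hp
  obtain ⟨-, -, h3, h4, h5⟩ := hD p hpZ
  exact mem_filter.mpr ⟨mem_univ _, one_lt_card.mpr
    ⟨a p, mem_filter.mpr ⟨ha, h4⟩, b p, mem_filter.mpr ⟨hb, h5⟩, h3⟩⟩

end Sampling

theorem card_richDirs_le {M : ℕ} {ω : ZMod q → ZMod q} (hkill : ∀ p, (killsW ω p).card ≤ M)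
    (A : Finset (Line (ZMod q))) :
    (richDirs M ω A).card * lThr M ≤ M * A.card ^ 2 := by
  refine le_trans ?_ (Nat.mul_le_mul_left M (card_two_le_mult_le A))
  calc (richDirs M ω A).card * lThr M
      ≤ ∑ d ∈ richDirs M ω A, (load A d (ω d)).card := by
        rw [← smul_eq_mul, ← sum_const]
        exact sum_le_sum fun d hd => (mem_filter.mp hd).2.2
    _ = ∑ p ∈ dbl A,
          ((richDirs M ω A).filter fun d => ∃ i : Fin 3, ω d + (i : ℕ) = icpt p d).card :=
        sum_card_bipartiteAbove_eq_sum_card_bipartiteBelow _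
    _ ≤ (dbl A).card * M := by
        refine sum_le_card_nsmul _ _ M fun p _ => (card_le_card fun d hd => ?_).trans (hkill p)
        obtain ⟨h1, h2⟩ := mem_filter.mp hd
        exact mem_filter.mpr ⟨mem_univ _, (mem_filter.mp h1).2.1, h2⟩
    _ = M * (univ.filter fun p => 2 ≤ mult A p).card := by rw [mul_comm]; rfl

theorem card_le_poor_add {M : ℕ} (ω : ZMod q → ZMod q) {A : Finset (Line (ZMod q))}
    {P : Finset (ZMod q × ZMod q)} (hP : P ⊆ dbl A) :
    P.card ≤ (dblPoor M ω A).card +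
      ∑ x ∈ richDirs M ω A ×ˢ (univ : Finset (Fin 3)), (onRand ω P x).card := by
  refine le_trans (card_le_card fun p hp => ?_)
    ((card_union_le (dblPoor M ω A)
      ((richDirs M ω A ×ˢ (univ : Finset (Fin 3))).biUnion (onRand ω P))).trans
      (Nat.add_le_add_left card_biUnion_le _))
  by_cases h : ∀ d ∈ richDirs M ω A, p ∉ load A d (ω d)
  · exact mem_union_left _ (mem_filter.mpr ⟨hP hp, h⟩)
  · push Not at h
    obtain ⟨d, hd, hl⟩ := h
    obtain ⟨-, i, hi⟩ := mem_filter.mp hl
    exact mem_union_right _ (mem_biUnion.mpr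
      ⟨(d, i), mem_product.mpr ⟨hd, mem_univ _⟩, mem_filter.mpr ⟨hp, hi⟩⟩)

/-- Few double points on live points and many double points outside the rich lines. -/
theorem exists_bad_family {M : ℕ} (hR : Regime M q) {ω : ZMod q → ZMod q}
    (hkill : ∀ p, (killsW ω p).card ≤ M) {Cl : Finset (Line (ZMod q))}
    (hCl : ∀ l ∈ Cl, notRandom ω l) {C : ℕ} (hC : 1 ≤ C) (hM : 1000 * (C * C) ≤ M)
    (hm2 : Cl.card ≤ 2 * q) (hmlo : q ≤ 2 * (Cl.card - 3))
    (hW : ∑ p ∈ liveW ω, (mult Cl p - 1) ≤ 88 * M ^ 72)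
    (hN : 8 * q ^ 2 ≤ C * (univ.filter fun p => 2 ≤ mult Cl p).card) :
    ∃ A : Finset (Line (ZMod q)), A.card = kSize M ∧ M ^ 69 ≤ (dblPoor M ω A).card ∧
      (dbl A ∩ liveW ω).card ≤ M ^ 68 := by
  set k := kSize M with hk
  have hCC : 1 ≤ C * C := Nat.mul_pos hC hC
  have hM1000 : 1000 ≤ M := by omega
  have hk35 : k = M ^ 35 := rfl
  have hq40 := hR.lo
  have hk4 : 4 ≤ k := by
    rw [hk35]; exact le_trans (by omega) (Nat.le_self_pow (by norm_num) M)
  have h2k : 4 * k ≤ q := by
    calc 4 * k ≤ M * M ^ 35 := by rw [hk35]; gcongr; omega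
      _ = M ^ 36 := by ring
      _ ≤ q := (Nat.pow_le_pow_right (by omega) (by norm_num)).trans hq40.le
  set m := Cl.card with hm
  have hkm : k ≤ m := by omega
  set Z := univ.filter fun p => 2 ≤ mult Cl p with hZ
  have hdes : ∀ p ∈ Z, ∃ ab : Line (ZMod q) × Line (ZMod q),
      ab.1 ∈ Cl ∧ ab.2 ∈ Cl ∧ ab.1 ≠ ab.2 ∧ onLine p ab.1 ∧ onLine p ab.2 := by
    intro p hp
    obtain ⟨l, hl, l', hl', hne⟩ := one_lt_card.mp (mem_filter.mp hp).2
    exact ⟨(l, l'), (mem_filter.mp hl).1, (mem_filter.mp hl').1, hne, (mem_filter.mp hl).2,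
      (mem_filter.mp hl').2⟩
  choose! ab hab using hdes
  set a := fun p => (ab p).1
  set b := fun p => (ab p).2
  have hD : Design Cl Z a b := fun p hp => hab p hp
  set N0 := m.choose k with hN0
  have hSk : (Cl.powersetCard k).card = N0 := card_powersetCard _ _
  set Rl := fun A => (chosen Z a b A).card with hRl
  set RE := fun A => (dbl A ∩ liveW ω).card with hRE
  set Q := fun A => ∑ x ∈ smpIdx q, (onRand ω (chosen Z a b A) x).card ^ 2 with hQ
  -- every member has at most `M ^ 70` double points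
  have hRl_le : ∀ A ∈ Cl.powersetCard k, Rl A ≤ M ^ 70 := by
    intro A hA
    refine (card_le_card (chosen_subset_dbl hD A)).trans ((card_two_le_mult_le A).trans ?_)
    rw [(mem_powersetCard.mp hA).2, hk35, ← pow_mul]
  have hRlsum : ∑ A ∈ Cl.powersetCard k, Rl A = Z.card * (m - 2).choose (k - 2) :=
    sum_chosen hD (by omega)
  -- the mean of `Rl` is of order `k ^ 2`
  have hlow : N0 * M ^ 70 ≤ C * ∑ A ∈ Cl.powersetCard k, Rl A := by
    rw [hRlsum]
    have h1 := choose_down2 m k (by omega) (by omega)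
    have h2 : k * k ≤ 2 * (k * (k - 1)) := by
      calc k * k ≤ k * (2 * (k - 1)) := Nat.mul_le_mul_left _ (by omega)
        _ = 2 * (k * (k - 1)) := by ring
    calc N0 * M ^ 70 = N0 * (k * k) := by rw [hk35]; ring
      _ ≤ N0 * (2 * (k * (k - 1))) := by gcongr
      _ = 2 * (m * (m - 1) * (m - 2).choose (k - 2)) := by rw [h1, hN0]; ring
      _ ≤ 2 * (2 * q * (2 * q) * (m - 2).choose (k - 2)) := by gcongr; omega
      _ = 8 * q ^ 2 * (m - 2).choose (k - 2) := by ring
      _ ≤ C * Z.card * (m - 2).choose (k - 2) := Nat.mul_le_mul_right _ hN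
      _ = _ := by ring
  -- few live double points on average
  have hREsum : ∑ A ∈ Cl.powersetCard k, RE A ≤ 264 * M ^ 67 * N0 := by
    refine (sum_dbl_inter_le (Cl := Cl) (liveW ω) (by omega)).trans ?_
    have h1 := choose_down m k (by omega) (by omega)
    rw [← hm]
    refine Nat.le_of_mul_le_mul_left ?_ (show 0 < M ^ 40 by positivity)
    calc M ^ 40 * ((∑ p ∈ liveW ω, (mult Cl p - 1)) * (m - 1).choose (k - 1))
        ≤ (3 * m) * ((88 * M ^ 72) * (m - 1).choose (k - 1)) := by gcongr; omega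
      _ = 264 * M ^ 72 * (m * (m - 1).choose (k - 1)) := by ring
      _ = 264 * M ^ 72 * (N0 * M ^ 35) := by rw [h1, hN0, hk35]
      _ = M ^ 40 * (264 * M ^ 67 * N0) := by ring
  -- small second moment of the loads on average
  have hQsum : ∑ A ∈ Cl.powersetCard k, Q A ≤ 49 * M ^ 100 * N0 := by
    refine (sum_onRand_sq_le hD hk4 (by omega) hCl hkill).trans ?_
    rw [← hRlsum, ← hm]
    have h1 : M * ∑ A ∈ Cl.powersetCard k, Rl A ≤ M ^ 100 * N0 := by
      calc M * ∑ A ∈ Cl.powersetCard k, Rl A ≤ M * (N0 * M ^ 70) := by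
            gcongr; rw [← hSk, ← smul_eq_mul]; exact sum_le_card_nsmul _ _ _ hRl_le
        _ = M ^ 71 * N0 := by ring
        _ ≤ M ^ 100 * N0 := by gcongr <;> omega
    have h2 : 3 * q ^ 3 * (m - 4).choose (k - 4) ≤ 48 * M ^ 100 * N0 := by
      refine Nat.le_of_mul_le_mul_left ?_ (show 0 < q by omega)
      calc q * (3 * q ^ 3 * (m - 4).choose (k - 4)) = 3 * (q ^ 4 * (m - 4).choose (k - 4)) := by
            ring
        _ ≤ 3 * ((2 * (m - 3)) ^ 4 * (m - 4).choose (k - 4)) := by gcongr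
        _ = 48 * ((m - 3) ^ 4 * (m - 4).choose (k - 4)) := by ring
        _ ≤ 48 * (N0 * k ^ 4) := by
            exact Nat.mul_le_mul_left _ (choose_down4_le m k hk4 (by omega))
        _ = M ^ 40 * (48 * M ^ 100 * N0) := by rw [hk35]; ring
        _ ≤ q * (48 * M ^ 100 * N0) := by gcongr
    calc M * ∑ A ∈ Cl.powersetCard k, Rl A + 3 * q ^ 3 * (m - 4).choose (k - 4)
        ≤ M ^ 100 * N0 + 48 * M ^ 100 * N0 := Nat.add_le_add h1 h2
      _ = _ := by ring
  -- selection
  have hC1 : 626 * C ≤ M := (Nat.mul_le_mul (by norm_num) (Nat.le_mul_self C)).trans hM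
  have hsel : ∑ A ∈ Cl.powersetCard k, (2 * C * (RE A * M ^ 33 + Q A) + M ^ 101) ≤
      ∑ A ∈ Cl.powersetCard k, 2 * C * (Rl A * M ^ 31) := by
    rw [sum_add_distrib, sum_const, smul_eq_mul, ← mul_sum, ← mul_sum, sum_add_distrib, ← sum_mul,
      ← sum_mul, hSk]
    calc 2 * C * ((∑ A ∈ Cl.powersetCard k, RE A) * M ^ 33 + ∑ A ∈ Cl.powersetCard k, Q A) +
          N0 * M ^ 101
        ≤ 2 * C * (264 * M ^ 67 * N0 * M ^ 33 + 49 * M ^ 100 * N0) + N0 * M ^ 101 := by gcongr
      _ = 626 * C * (M ^ 100 * N0) + N0 * M ^ 101 := by ring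
      _ ≤ M * (M ^ 100 * N0) + N0 * M ^ 101 := by gcongr
      _ = 2 * (N0 * M ^ 70) * M ^ 31 := by ring
      _ ≤ 2 * (C * ∑ A ∈ Cl.powersetCard k, Rl A) * M ^ 31 := by gcongr
      _ = _ := by ring
  obtain ⟨A, hA, hAle⟩ := exists_le_of_sum_le (powersetCard_nonempty.mpr hkm) hsel
  have hAk := (mem_powersetCard.mp hA).2
  have hRA := hRl_le A hA
  have hcancel : RE A * M ^ 33 + Q A ≤ M ^ 101 := by
    refine Nat.le_of_mul_le_mul_left ?_ (show 0 < 2 * C by omega)
    calc 2 * C * (RE A * M ^ 33 + Q A) ≤ 2 * C * (Rl A * M ^ 31) := by omega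
      _ ≤ 2 * C * (M ^ 70 * M ^ 31) := by gcongr
      _ = 2 * C * M ^ 101 := by ring
  have hRlA : M ^ 70 ≤ 2 * C * Rl A := by
    refine Nat.le_of_mul_le_mul_right ?_ (show 0 < M ^ 31 by positivity)
    calc M ^ 70 * M ^ 31 = M ^ 101 := by ring
      _ ≤ 2 * C * (Rl A * M ^ 31) := by omega
      _ = _ := by ring
  refine ⟨A, hAk, ?_, ?_⟩
  · by_contra hc
    push Not at hc
    set S := ∑ x ∈ richDirs M ω A ×ˢ (univ : Finset (Fin 3)),
      (onRand ω (chosen Z a b A) x).card with hS
    have hPle : Rl A ≤ (dblPoor M ω A).card + S := card_le_poor_add ω (chosen_subset_dbl hD A)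
    have hrich : (richDirs M ω A).card ≤ M ^ 38 := by
      refine Nat.le_of_mul_le_mul_right ?_ (show 0 < M ^ 33 by positivity)
      calc (richDirs M ω A).card * M ^ 33 ≤ M * A.card ^ 2 := card_richDirs_le hkill A
        _ = M ^ 38 * M ^ 33 := by rw [hAk, hk35]; ring
    have hS2 : S ^ 2 ≤ 3 * M ^ 139 := by
      refine (sq_sum_le_card_mul_sum_sq).trans ?_
      calc (richDirs M ω A ×ˢ (univ : Finset (Fin 3))).card *
            ∑ x ∈ richDirs M ω A ×ˢ (univ : Finset (Fin 3)), (onRand ω (chosen Z a b A) x).card ^ 2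
          ≤ (M ^ 38 * 3) * Q A := by
            rw [card_product, card_univ, Fintype.card_fin]
            gcongr
            refine sum_le_sum_of_subset (product_subset_product (fun d hd => ?_) Subset.rfl)
            exact mem_filter.mpr ⟨mem_univ _, (mem_filter.mp hd).2.1⟩
        _ ≤ M ^ 38 * 3 * M ^ 101 := by gcongr; omega
        _ = 3 * M ^ 139 := by ring
    have h4 : M ^ 70 ≤ 4 * C * S := by
      have h5 : 2 * C * (M ^ 69 + S) ≥ M ^ 70 :=
        hRlA.trans (Nat.mul_le_mul_left _ (by omega))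
      have h6 : 4 * C * M ^ 69 ≤ M ^ 70 := by
        calc 4 * C * M ^ 69 ≤ M * M ^ 69 := by gcongr; omega
          _ = M ^ 70 := by ring
      linarith [h5, h6]
    have h7 : M ^ 140 ≤ 48 * (C * C) * M ^ 139 := by
      calc M ^ 140 = (M ^ 70) ^ 2 := by ring
        _ ≤ (4 * C * S) ^ 2 := Nat.pow_le_pow_left h4 2
        _ = 16 * (C * C) * S ^ 2 := by ring
        _ ≤ 16 * (C * C) * (3 * M ^ 139) := by gcongr
        _ = _ := by ring
    have h8 : M ≤ 48 * (C * C) := by
      refine Nat.le_of_mul_le_mul_right ?_ (show 0 < M ^ 139 by positivity)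
      calc M * M ^ 139 = M ^ 140 := by ring
        _ ≤ _ := h7
    omega
  · refine Nat.le_of_mul_le_mul_right ?_ (show 0 < M ^ 33 by positivity)
    calc RE A * M ^ 33 ≤ M ^ 101 := by omega
      _ = M ^ 68 * M ^ 33 := by ring

end Vale.Agent.P045.H84
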