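import Mathlib

/-!
# Partite hypergraphs: covers and matchings, and the passage to disjoint copies

The definitions follow the problem statement: a finite vertex set split into `r` parts, edges
are sets of vertices with exactly one vertex in each part.
-/

namespace Vale.Agent.P045.H84

open Finset

variable {V : Type} {r : ℕ}

/-- `r`-partite `r`-uniform: every edge has exactly one vertex in each of the `r` parts. -/
def PartiteUniform (part : V → Fin r) (E : Finset (Finset V)) : Prop :=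
  ∀ e ∈ E, ∀ i : Fin r, ∃! v, v ∈ e ∧ part v = i

/-- A matching: a family of pairwise disjoint edges. -/
def IsMatchingOf (E M : Finset (Finset V)) : Prop :=
  M ⊆ E ∧ ∀ e ∈ M, ∀ f ∈ M, e ≠ f → Disjoint e f

/-- The matching number of `E` is `n`. -/
def HasMatchingNumber (E : Finset (Finset V)) (n : ℕ) : Prop :=
  (∃ M, IsMatchingOf E M ∧ M.card = n) ∧ ∀ M, IsMatchingOf E M → M.card ≤ n

/-- A vertex cover: a set of vertices meeting every edge. -/
def IsVertexCover (E : Finset (Finset V)) (C : Finset V) : Prop :=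
  ∀ e ∈ E, ∃ v ∈ C, v ∈ e

/-- The covering number of `E` is `n`. -/
def HasCoveringNumber (E : Finset (Finset V)) (n : ℕ) : Prop :=
  (∃ C, IsVertexCover E C ∧ C.card = n) ∧ ∀ C, IsVertexCover E C → n ≤ C.card

/-- An intersecting family of edges that cannot be covered by fewer than `r` vertices gives,
for every `n`, a hypergraph with matching number `n` and covering number `r * n`. -/
theorem exists_copies {P ι : Type} [Fintype P] {W : P → Type} (hr : Fintype.card P = r)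
    (hr0 : 0 < r) (edge : ι → (i : P) → W i) (s : Finset ι) (hs : s.Nonempty)
    (hmeet : ∀ a ∈ s, ∀ b ∈ s, ∃ i, edge a i = edge b i)
    (hcov : ∀ C : Finset ((i : P) × W i),
      (∀ a ∈ s, ∃ u ∈ C, ∃ i, u = ⟨i, edge a i⟩) → r ≤ C.card) (n : ℕ) :
    ∃ (V : Type) (_ : Fintype V) (part : V → Fin r) (E : Finset (Finset V)),
      PartiteUniform part E ∧ HasMatchingNumber E n ∧ HasCoveringNumber E (r * n) := by
  classical
  let e : P ≃ Fin r := Fintype.equivFinOfCardEq hr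
  set U : Finset ((i : P) × W i) :=
    s.biUnion fun a => univ.image fun i => ⟨i, edge a i⟩ with hU
  let V := Fin n × {u // u ∈ U}
  have hmemU : ∀ a ∈ s, ∀ i, (⟨i, edge a i⟩ : (i : P) × W i) ∈ U := fun a ha i =>
    mem_biUnion.mpr ⟨a, ha, mem_image.mpr ⟨i, mem_univ _, rfl⟩⟩
  let mk : Fin n × {a // a ∈ s} → Finset V := fun ka =>
    univ.image fun i : P => (ka.1, (⟨⟨i, edge ka.2.1 i⟩, hmemU _ ka.2.2 i⟩ : {u // u ∈ U}))
  have mem_mk : ∀ (ka : Fin n × {a // a ∈ s}) (v : V),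
      v ∈ mk ka ↔ ∃ i : P, v.1 = ka.1 ∧ v.2.1 = ⟨i, edge ka.2.1 i⟩ := by
    intro ka v
    simp only [mk, mem_image, mem_univ, true_and]
    constructor
    · rintro ⟨i, rfl⟩; exact ⟨i, rfl, rfl⟩
    · rintro ⟨i, h1, h2⟩; exact ⟨i, Prod.ext h1.symm (Subtype.ext h2.symm)⟩
  obtain ⟨a0, ha0⟩ := hs
  have hP : Nonempty P := Fintype.card_pos_iff.mp (hr ▸ hr0)
  obtain ⟨i0⟩ := hP
  have hmk_ne : ∀ ka, (mk ka).Nonempty := fun ka =>
    ⟨_, (mem_mk ka (ka.1, ⟨⟨i0, edge ka.2.1 i0⟩, hmemU _ ka.2.2 i0⟩)).mpr ⟨i0, rfl, rfl⟩⟩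
  refine ⟨V, inferInstance, fun v => e v.2.1.1, (univ : Finset _).image mk, ?_, ⟨?_, ?_⟩, ⟨?_, ?_⟩⟩
  · intro f hf i
    obtain ⟨ka, -, rfl⟩ := mem_image.mp hf
    refine ⟨(ka.1, ⟨⟨e.symm i, edge ka.2.1 (e.symm i)⟩, hmemU _ ka.2.2 _⟩),
      ⟨(mem_mk _ _).mpr ⟨_, rfl, rfl⟩, e.apply_symm_apply i⟩, ?_⟩
    rintro ⟨k, u, hu⟩ ⟨hv, hi⟩
    obtain ⟨j, h1, h2⟩ := (mem_mk _ _).mp hv
    simp only at h1 h2 hi
    subst h1 h2
    have hji : j = e.symm i := (e.symm_apply_eq.mpr hi.symm).symm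
    subst hji
    rfl
  · refine ⟨(univ : Finset (Fin n)).image fun k => mk (k, ⟨a0, ha0⟩), ⟨?_, ?_⟩, ?_⟩
    · intro f hf
      obtain ⟨k, -, rfl⟩ := mem_image.mp hf
      exact mem_image.mpr ⟨_, mem_univ _, rfl⟩
    · intro f hf g hg hne
      obtain ⟨k, -, rfl⟩ := mem_image.mp hf
      obtain ⟨l, -, rfl⟩ := mem_image.mp hg
      rw [disjoint_left]
      intro v hv hv'
      obtain ⟨i, h1, -⟩ := (mem_mk _ _).mp hv
      obtain ⟨j, h2, -⟩ := (mem_mk _ _).mp hv'
      simp only at h1 h2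
      exact hne (by rw [← h1, ← h2])
    · rw [card_image_of_injective _ ?_, card_univ, Fintype.card_fin]
      intro k l hkl
      obtain ⟨v, hv⟩ := hmk_ne (k, ⟨a0, ha0⟩)
      have hkl' : mk (k, ⟨a0, ha0⟩) = mk (l, ⟨a0, ha0⟩) := hkl
      have hv' : v ∈ mk (l, ⟨a0, ha0⟩) := hkl' ▸ hv
      obtain ⟨i, h1, -⟩ := (mem_mk _ _).mp hv
      obtain ⟨j, h2, -⟩ := (mem_mk _ _).mp hv'
      simp only at h1 h2
      exact h1.symm.trans h2
  · intro M hM
    have hka : ∀ f ∈ M, ∃ ka, mk ka = f := fun f hf => by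
      obtain ⟨ka, -, h⟩ := mem_image.mp (hM.1 hf)
      exact ⟨ka, h⟩
    choose g hg using hka
    have hinj : ∀ f (hf : f ∈ M) f' (hf' : f' ∈ M), (g f hf).1 = (g f' hf').1 → f = f' := by
      intro f hf f' hf' hk
      by_contra hne
      obtain ⟨i, hi⟩ := hmeet _ (g f hf).2.2 _ (g f' hf').2.2
      have hd := hM.2 f hf f' hf' hne
      rw [disjoint_left] at hd
      refine hd (a := ((g f hf).1, ⟨⟨i, edge (g f hf).2.1 i⟩, hmemU _ (g f hf).2.2 i⟩)) ?_ ?_
      · have h := (mem_mk (g f hf)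
          ((g f hf).1, ⟨⟨i, edge (g f hf).2.1 i⟩, hmemU _ (g f hf).2.2 i⟩)).mpr ⟨i, rfl, rfl⟩
        exact (congrArg (fun x => _ ∈ x) (hg f hf)).mp h
      · have h := (mem_mk (g f' hf')
          ((g f hf).1, ⟨⟨i, edge (g f hf).2.1 i⟩, hmemU _ (g f hf).2.2 i⟩)).mpr
            ⟨i, hk, congrArg (Sigma.mk i) hi⟩
        exact (congrArg (fun x => _ ∈ x) (hg f' hf')).mp h
    have : M.attach.card ≤ (univ : Finset (Fin n)).card :=
      card_le_card_of_injOn (fun f => (g f.1 f.2).1) (fun _ _ => mem_univ _)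
        (fun f _ f' _ h => Subtype.ext (hinj _ _ _ _ h))
    simpa using this
  · refine ⟨(univ : Finset (Fin n × P)).image fun kp =>
      (kp.1, ⟨⟨kp.2, edge a0 kp.2⟩, hmemU _ ha0 _⟩), ?_, ?_⟩
    · intro f hf
      obtain ⟨⟨k, a, ha⟩, -, rfl⟩ := mem_image.mp hf
      obtain ⟨i, hi⟩ := hmeet _ ha _ ha0
      exact ⟨_, mem_image.mpr ⟨(k, i), mem_univ _, rfl⟩,
        (mem_mk _ _).mpr ⟨i, rfl, (congrArg (Sigma.mk i) hi).symm⟩⟩
    · rw [card_image_of_injective _ ?_, card_univ, Fintype.card_prod, Fintype.card_fin, hr,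
        mul_comm]
      intro x y h
      exact Prod.ext (congrArg (fun v : V => v.1) h) (congrArg (fun v : V => v.2.1.1) h)
  · intro C hC
    have hk : ∀ k, r ≤ (C.filter fun v => v.1 = k).card := by
      intro k
      refine (hcov ((C.filter fun v => v.1 = k).image fun v => v.2.1) ?_).trans card_image_le
      intro a ha
      obtain ⟨v, hvC, hv⟩ := hC (mk (k, ⟨a, ha⟩)) (mem_image.mpr ⟨_, mem_univ _, rfl⟩)
      obtain ⟨i, h1, h2⟩ := (mem_mk _ _).mp hv
      exact ⟨_, mem_image.mpr ⟨v, mem_filter.mpr ⟨hvC, h1⟩, rfl⟩, i, h2⟩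
    rw [card_eq_sum_card_fiberwise (t := (univ : Finset (Fin n))) (f := fun v => v.1)
      (fun _ _ => mem_univ _)]
    calc r * n = ∑ _k : Fin n, r := by simp [mul_comm]
      _ ≤ _ := sum_le_sum fun k _ => hk k

end Vale.Agent.P045.H84
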