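import Vale.Agent.P045.H84.Defs

/-!
# The combinatorial part: the hypergraph is intersecting and its covering number is `q + 5`
-/

namespace Vale.Agent.P045.H84

open Finset

variable {F B : Type} [Field F] [Fintype F] [DecidableEq F] [DecidableEq B]

namespace Config

variable (K : Config F B)

theorem valid_kills_le {p : F × F} {S : Six} (h : K.Valid p S) : (K.kills p).card ≤ 1 := by
  rcases h with h | ⟨d, i, h⟩
  · simp [h]
  · simp only [desig, mem_filter] at h
    simp [h.2.2.1]

theorem mem_kills {p : F × F} {d : F} : d ∈ K.kills p ↔ K.isT d (icpt p d) := by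
  simp [kills]

theorem valid_on_T {p : F × F} {S : Six} (h : K.Valid p S) {d : F} {i : Fin 3}
    (hd : d ≠ 0) (hi : K.t d i = icpt p d) : K.lab p.2 = some (K.blk d i, S) := by
  have hk : d ∈ K.kills p := K.mem_kills.mpr ⟨hd, i, hi⟩
  rcases h with h | ⟨e, j, h⟩
  · simp [h] at hk
  · simp only [desig, mem_filter] at h
    obtain ⟨-, h1, h2, h3⟩ := h
    rw [h2, mem_singleton] at hk
    subst hk
    have : i = j := K.t_inj d (by rw [hi, h1])
    subst this
    exact h3

/-- Every two edges share a vertex. -/
theorem intersecting (hq : 4 ≤ Fintype.card F) {p p' : F × F} {S S' : Six}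
    (h : K.Valid p S) (h' : K.Valid p' S') : ∃ i : Part F, K.edge p S i = K.edge p' S' i := by
  classical
  by_cases hpp : p = p'
  · subst hpp
    obtain ⟨d, -, hd⟩ := exists_mem_notMem_of_card_lt_card
      (s := insert (0 : F) (K.kills p)) (t := (univ : Finset F)) (by
        calc (insert (0 : F) (K.kills p)).card ≤ (K.kills p).card + 1 := card_insert_le _ _
          _ ≤ 2 := by have := K.valid_kills_le h; omega
          _ < _ := by rw [card_univ]; omega)
    simp only [mem_insert, not_or, mem_kills] at hd
    refine ⟨Sum.inl (some d), ?_⟩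
    change K.dirVert p S (some d) = K.dirVert p S' (some d)
    simp [dirVert, hd.1, hd.2]
  · by_cases hx : p.1 = p'.1
    · rcases cols_meet S S' with ⟨i, h1, h2⟩ | hP
      · exact ⟨Sum.inr i, show K.slotVert p S i = K.slotVert p' S' i by simp [slotVert, h1, h2, hx]⟩
      · exact ⟨Sum.inl none, show K.dirVert p S none = K.dirVert p' S' none by simp [dirVert, hP, hx]⟩
    by_cases hy : p.2 = p'.2
    · rcases rows_meet S S' with ⟨i, h1, h2⟩ | hP
      · exact ⟨Sum.inr i, show K.slotVert p S i = K.slotVert p' S' i by simp [slotVert, h1, h2, hy]⟩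
      · exact ⟨Sum.inl (some 0), show K.dirVert p S (some 0) = K.dirVert p' S' (some 0) by
          simp [dirVert, hP, hy]⟩
    set d : F := (p.2 - p'.2) / (p.1 - p'.1) with hd
    have hd0 : d ≠ 0 := div_ne_zero (sub_ne_zero.mpr hy) (sub_ne_zero.mpr hx)
    have hc : icpt p d = icpt p' d := by
      have : d * (p.1 - p'.1) = p.2 - p'.2 := div_mul_cancel₀ _ (sub_ne_zero.mpr hx)
      simp only [icpt]
      linear_combination -this
    by_cases hT : K.isT d (icpt p d)
    · obtain ⟨-, i, hi⟩ := hT
      have hl := K.valid_on_T h hd0 hi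
      have hl' := K.valid_on_T h' hd0 (hi.trans hc)
      rcases rows_meet S S' with ⟨j, h1, h2⟩ | hP
      · exact ⟨Sum.inr j, show K.slotVert p S j = K.slotVert p' S' j by
          simp [slotVert, rowClass, h1, h2, hl, hl']⟩
      · have hT' : K.isT d (icpt p' d) := ⟨hd0, i, hi.trans hc⟩
        exact ⟨Sum.inl (some d), show K.dirVert p S (some d) = K.dirVert p' S' (some d) by
          simp [dirVert, hd0, hT', hP, hc]⟩
    · refine ⟨Sum.inl (some d), ?_⟩
      have hT' : ¬ K.isT d (icpt p' d) := hc ▸ hT
      change K.dirVert p S (some d) = K.dirVert p' S' (some d)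
      simp [dirVert, hd0, hT', hc]

end Config

/-- A vertex of the hypergraph. -/
abbrev Vx (F B : Type) := (i : Part F) × Vert F B i

/-- A vertex of a direction part. -/
def dv (o : Option F) (v : F × Option (Fin 3)) : Vx F B := ⟨Sum.inl o, v⟩

/-- A vertex of a slot part. -/
def sv (i : Fin 4) (v : (F ⊕ F) ⊕ B) : Vx F B := ⟨Sum.inr i, v⟩

theorem dv_inj {o o' : Option F} {v v' : F × Option (Fin 3)}
    (h : (dv o v : Vx F B) = dv o' v') : o = o' ∧ v = v' := by
  unfold dv at h
  have h1 := (Sigma.ext_iff.mp h).1
  simp only [Sum.inl.injEq] at h1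
  subst h1
  exact ⟨rfl, eq_of_heq (Sigma.ext_iff.mp h).2⟩

theorem sv_inj {i i' : Fin 4} {v v' : (F ⊕ F) ⊕ B}
    (h : (sv i v : Vx F B) = sv i' v') : i = i' ∧ v = v' := by
  unfold sv at h
  have h1 := (Sigma.ext_iff.mp h).1
  simp only [Sum.inr.injEq] at h1
  subst h1
  exact ⟨rfl, eq_of_heq (Sigma.ext_iff.mp h).2⟩

theorem dv_ne_sv {o : Option F} {v : F × Option (Fin 3)} {i : Fin 4} {w : (F ⊕ F) ⊕ B} :
    (dv o v : Vx F B) ≠ sv i w := fun h => by
  have h1 := (Sigma.ext_iff.mp h).1
  simp [dv, sv] at h1

theorem local_lb_R : ∀ a b : Loc, ∃ S : Six, covR S a = false ∧ covR S b = false := by decide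

theorem local_lb_C : ∀ a b : Loc, ∃ S : Six, covC S a = false ∧ covC S b = false := by decide

/-- Covering all six types needs three local vertices. -/
theorem three_le_of_local (cov : Six → Loc → Bool)
    (hcov : ∀ a b : Loc, ∃ S : Six, cov S a = false ∧ cov S b = false)
    (U : Finset Loc) (h : ∀ S, ∃ u ∈ U, cov S u = true) : 3 ≤ U.card := by
  by_contra hc
  push Not at hc
  have : ∃ a b : Loc, U ⊆ {a, b} := by
    interval_cases hU : U.card
    · exact ⟨Sum.inl 0, Sum.inl 0, by simp [card_eq_zero.mp hU]⟩
    · obtain ⟨a, rfl⟩ := card_eq_one.mp hU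
      exact ⟨a, a, by simp⟩
    · obtain ⟨a, b, -, rfl⟩ := card_eq_two.mp hU
      exact ⟨a, b, subset_rfl⟩
  obtain ⟨a, b, hab⟩ := this
  obtain ⟨S, ha, hb⟩ := hcov a b
  obtain ⟨u, hu, hus⟩ := h S
  have := hab hu
  simp only [mem_insert, mem_singleton] at this
  rcases this with rfl | rfl <;> simp_all

namespace Config

variable (K : Config F B)

/-- Local vertices of a row. -/
def locR (y : F) : Loc → Vx F B
  | Sum.inl i => sv i (K.rowClass y i)
  | Sum.inr P => dv (some 0) (y, some P)

/-- Local vertices of a column. -/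
def locC (x : F) : Loc → Vx F B
  | Sum.inl i => sv i (Sum.inl (Sum.inr x))
  | Sum.inr P => dv none (x, some P)

/-- Local vertices of a random line. -/
def locT (d : F) (i : Fin 3) : Loc → Vx F B
  | Sum.inl j => sv j (Sum.inr (K.blk d i))
  | Sum.inr P => dv (some d) (K.t d i, some P)

theorem locR_inj (y : F) : Function.Injective (K.locR y) := by
  rintro (a | a) (b | b) h <;> simp only [locR] at h
  · rw [(sv_inj h).1]
  · exact absurd h.symm dv_ne_sv
  · exact absurd h dv_ne_sv
  · simpa using (dv_inj h).2

theorem locC_inj (x : F) : Function.Injective (locC (F := F) (B := B) x) := by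
  rintro (a | a) (b | b) h <;> simp only [locC] at h
  · rw [(sv_inj h).1]
  · exact absurd h.symm dv_ne_sv
  · exact absurd h dv_ne_sv
  · simpa using (dv_inj h).2

theorem locT_inj (d : F) (i : Fin 3) : Function.Injective (K.locT d i) := by
  rintro (a | a) (b | b) h <;> simp only [locT] at h
  · rw [(sv_inj h).1]
  · exact absurd h.symm dv_ne_sv
  · exact absurd h dv_ne_sv
  · simpa using (dv_inj h).2

/-- The line attached to a vertex, if any. -/
def vline : Vx F B → Option (Line F)
  | ⟨Sum.inl none, v⟩ => some (Sum.inr v.1)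
  | ⟨Sum.inl (some d), v⟩ =>
    if d = 0 ∨ (v.2 = none ∧ ¬ K.isT d v.1) then some (Sum.inl (d, v.1)) else none
  | ⟨Sum.inr _, Sum.inl (Sum.inl y)⟩ => some (Sum.inl (0, y))
  | ⟨Sum.inr _, Sum.inl (Sum.inr x)⟩ => some (Sum.inr x)
  | ⟨Sum.inr _, Sum.inr _⟩ => none

theorem vline_nonT {u : Vx F B} {l : Line F} (h : K.vline u = some l) : K.nonT l := by
  rcases u with ⟨(o | i), v⟩
  · rcases o with - | d
    · simp only [vline, Option.some.injEq] at h; subst h; simp [nonT]
    · simp only [vline] at h
      split_ifs at h with hc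
      simp only [Option.some.injEq] at h; subst h
      rcases hc with rfl | ⟨-, h2⟩
      · simp [nonT, isT]
      · exact h2
  · rcases v with (y | x) | b <;> simp only [vline, Option.some.injEq, reduceCtorEq] at h <;>
      subst h <;> simp [nonT, isT]

/-- `u` lies on the edge `(p, S)`. -/
def onEdge (u : Vx F B) (p : F × F) (S : Six) : Prop :=
  ∃ i : Part F, u = ⟨i, K.edge p S i⟩

/-- Case analysis of the vertices of an edge. -/
theorem onEdge_cases {u : Vx F B} {p : F × F} {S : Six} (h : K.onEdge u p S) :
    (∃ i, mem S i = true ∧ u = sv i (K.rowClass p.2 i)) ∨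
    (∃ i, mem S i = false ∧ u = sv i (Sum.inl (Sum.inr p.1))) ∨
    u = dv none (p.1, some (pairing S)) ∨
    u = dv (some 0) (p.2, some (pairing S)) ∨
    (∃ d, d ≠ 0 ∧ u = dv (some d)
      (icpt p d, if K.isT d (icpt p d) then some (pairing S) else none)) := by
  obtain ⟨(o | i), rfl⟩ := h
  · rcases o with - | d
    · exact Or.inr (Or.inr (Or.inl rfl))
    · by_cases hd : d = 0
      · subst hd
        refine Or.inr (Or.inr (Or.inr (Or.inl ?_)))
        simp [edge, dirVert, dv]
      · refine Or.inr (Or.inr (Or.inr (Or.inr ⟨d, hd, ?_⟩)))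
        simp [edge, dirVert, dv, hd]
  · cases hm : mem S i
    · refine Or.inr (Or.inl ⟨i, hm, ?_⟩)
      simp [edge, slotVert, sv, hm]
    · refine Or.inl ⟨i, hm, ?_⟩
      simp [edge, slotVert, sv, hm]

theorem vline_plain {p : F × F} {S : Six} {d : F} (hd : d ≠ 0) (hT : ¬ K.isT d (icpt p d)) :
    K.vline (dv (some d) (icpt p d, if K.isT d (icpt p d) then some (pairing S) else none))
      = some (Sum.inl (d, icpt p d)) := by
  simp [vline, dv, hd, hT]

theorem live_notT {p : F × F} (hp : p ∈ K.live) (d : F) : ¬ K.isT d (icpt p d) := by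
  intro h
  simp only [live, mem_filter] at hp
  have := K.mem_kills.mpr h
  simp [hp.2] at this

theorem live_valid {p : F × F} (hp : p ∈ K.live) (S : Six) : K.Valid p S := by
  simp only [live, mem_filter] at hp
  exact Or.inl hp.2

/-- On a row: a covering vertex is local or comes from another line through the point. -/
theorem cover_row {u : Vx F B} {p : F × F} {S : Six} (hp : p ∈ K.live) (h : K.onEdge u p S) :
    (∃ v, covR S v = true ∧ u = K.locR p.2 v) ∨
    ∃ l, K.vline u = some l ∧ onLine p l ∧ l ≠ Sum.inl (0, p.2) := by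
  rcases K.onEdge_cases h with ⟨i, hm, rfl⟩ | ⟨i, -, rfl⟩ | rfl | rfl | ⟨d, hd, rfl⟩
  · exact Or.inl ⟨Sum.inl i, by simp [covR, hm], rfl⟩
  · exact Or.inr ⟨Sum.inr p.1, by simp [vline, sv], by simp [onLine], by simp⟩
  · exact Or.inr ⟨Sum.inr p.1, by simp [vline, dv], by simp [onLine], by simp⟩
  · exact Or.inl ⟨Sum.inr (pairing S), by simp [covR], rfl⟩
  · exact Or.inr ⟨_, K.vline_plain hd (K.live_notT hp d), (onLine_iff_icpt _ _ _).mpr rfl,
      by simp [hd]⟩

/-- On a column. -/
theorem cover_col {u : Vx F B} {p : F × F} {S : Six} (hp : p ∈ K.live) (hlab : K.lab p.2 = none)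
    (h : K.onEdge u p S) :
    (∃ v, covC S v = true ∧ u = locC (B := B) p.1 v) ∨
    ∃ l, K.vline u = some l ∧ onLine p l ∧ l ≠ Sum.inr p.1 := by
  rcases K.onEdge_cases h with ⟨i, -, rfl⟩ | ⟨i, hm, rfl⟩ | rfl | rfl | ⟨d, hd, rfl⟩
  · exact Or.inr ⟨Sum.inl (0, p.2), by simp [vline, sv, rowClass, hlab], by simp [onLine], by simp⟩
  · exact Or.inl ⟨Sum.inl i, by simp [covC, hm], rfl⟩
  · exact Or.inl ⟨Sum.inr (pairing S), by simp [covC], rfl⟩
  · exact Or.inr ⟨Sum.inl (0, p.2), by simp [vline, dv], by simp [onLine], by simp⟩
  · exact Or.inr ⟨_, K.vline_plain hd (K.live_notT hp d), (onLine_iff_icpt _ _ _).mpr rfl,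
      by simp⟩

/-- At a designated point. -/
theorem cover_desig {u : Vx F B} {p : F × F} {S : Six} {d : F} {i : Fin 3} (hd : d ≠ 0)
    (hp : p ∈ K.desig d i S) (h : K.onEdge u p S) :
    (∃ v, covR S v = true ∧ u = K.locT d i v) ∨
    ∃ l, K.vline u = some l ∧ onLine p l ∧ l ≠ Sum.inl (d, K.t d i) := by
  simp only [desig, mem_filter] at hp
  obtain ⟨-, hc, hk, hl⟩ := hp
  rcases K.onEdge_cases h with ⟨j, hm, rfl⟩ | ⟨j, -, rfl⟩ | rfl | rfl | ⟨e, he, rfl⟩
  · exact Or.inl ⟨Sum.inl j, by simp [covR, hm], by simp [locT, rowClass, hl, hm]⟩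
  · exact Or.inr ⟨Sum.inr p.1, by simp [vline, sv], by simp [onLine], by simp⟩
  · exact Or.inr ⟨Sum.inr p.1, by simp [vline, dv], by simp [onLine], by simp⟩
  · exact Or.inr ⟨Sum.inl (0, p.2), by simp [vline, dv], by simp [onLine],
      by simp [Ne.symm hd]⟩
  · by_cases hed : e = d
    · subst hed
      have hT : K.isT e (icpt p e) := ⟨hd, i, hc.symm⟩
      exact Or.inl ⟨Sum.inr (pairing S), by simp [covR], by simp [locT, hc ▸ hT, hc]⟩
    · have hT : ¬ K.isT e (icpt p e) := by
        rw [← K.mem_kills, hk, mem_singleton]; exact hed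
      exact Or.inr ⟨_, K.vline_plain he hT, (onLine_iff_icpt _ _ _).mpr rfl, by simp [hed]⟩

/-- The lines of the same block through a point. -/
def sameBlk (p : F × F) (b : B) : Finset F :=
  (K.kills p).filter fun d => ∃ i, K.t d i = icpt p d ∧ K.blk d i = b

/-- What is needed of the random choice. -/
structure Good (e0 D J : ℕ) : Prop where
  q_big : 30 + 3 * J + 4 * K.labelled.card ≤ Fintype.card F
  D_big : J + 10 ≤ D
  e0_big : K.labelled.card + 4 ≤ e0
  live_line : ∀ l, K.nonT l → e0 ≤ (K.liveOn l).card
  kills_le : ∀ p, (K.kills p).card ≤ J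
  desig_ge : ∀ d, d ≠ 0 → ∀ i S, D ≤ (K.desig d i S).card
  blk_inj : ∀ d, d ≠ 0 → Function.Injective (K.blk d)
  four : ∀ p b, (K.sameBlk p b).card ≤ 3
  pair : ∀ p b S, K.lab p.2 = some (b, S) → (K.sameBlk p b).card ≤ 1
  stable : ∀ Cl : Finset (Line F), (∀ l ∈ Cl, K.nonT l) →
    Cl.card ≤ Fintype.card F + 4 + K.labelled.card →
    (∀ p ∈ K.live, ∃ l ∈ Cl, onLine p l) →
    ∃ z : Centre F, (Cl.filter fun l => ¬ through z l).card + K.labelled.card + 2 < e0

/-- Two different lines meet in at most one point. -/
theorem eq_of_two_lines {p p' : F × F} {l m : Line F} (hlm : l ≠ m) (h1 : onLine p l)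
    (h2 : onLine p m) (h3 : onLine p' l) (h4 : onLine p' m) : p = p' := by
  rcases l with ⟨d, c⟩ | a <;> rcases m with ⟨e, f⟩ | b
  · rw [onLine_iff_icpt] at h1 h2 h3 h4
    by_cases hde : d = e
    · subst hde
      exact absurd (by rw [← h1, ← h2] : c = f) (by simpa using hlm)
    · exact eq_of_icpt hde (h1.trans h3.symm) (h2.trans h4.symm)
  · simp only [onLine] at h1 h2 h3 h4
    exact Prod.ext (h2.trans h4.symm) (by rw [h1, h3, h2, h4])
  · simp only [onLine] at h1 h2 h3 h4
    exact Prod.ext (h1.trans h3.symm) (by rw [h2, h4, h1, h3])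
  · simp only [onLine] at h1 h2 h3 h4
    exact absurd (by rw [← h1, ← h2] : a = b) (by simpa using hlm)

/-- Points of a line each lying on another line of `Ls` are at most as many as `Ls`. -/
theorem points_le_lines {P : Finset (F × F)} {L : Line F} {Ls : Finset (Line F)}
    (hP : ∀ p ∈ P, onLine p L) (h : ∀ p ∈ P, ∃ l ∈ Ls, l ≠ L ∧ onLine p l) :
    P.card ≤ Ls.card := by
  choose! f hf hne hon using h
  exact card_le_card_of_injOn f (fun p hp => hf p hp)
    (fun p hp p' hp' he => eq_of_two_lines (hne p hp).symm (hP p hp) (hon p hp) (hP p' hp')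
      (he ▸ hon p' hp'))

/-- The centre as a point, if it is one. -/
def ctrSet : Centre F → Finset (F × F)
  | Sum.inl p => {p}
  | Sum.inr _ => ∅

theorem card_ctrSet (z : Centre F) : (ctrSet z).card ≤ 1 := by
  rcases z with p | o <;> simp [ctrSet]

/-- Two lines through a centre share no other point. -/
theorem not_through {z : Centre F} {L l : Line F} {p : F × F} (hL : through z L) (hne : l ≠ L)
    (h1 : onLine p L) (h2 : onLine p l) (hp : p ∉ ctrSet z) : ¬ through z l := by
  intro hl
  rcases z with p0 | o
  · exact hp (by simpa [ctrSet] using eq_of_two_lines hne h2 h1 hl hL)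
  · simp only [through] at hL hl
    rcases l with ⟨d, c⟩ | a <;> rcases L with ⟨e, f⟩ | b <;> simp [dirOf] at hL hl
    · subst hl; simp only [Option.some.injEq] at hL
      subst hL
      rw [onLine_iff_icpt] at h1 h2
      exact hne (by rw [← h1, ← h2])
    · subst hl; simp at hL
    · subst hl; simp at hL
    · simp only [onLine] at h1 h2
      exact hne (by rw [← h1, ← h2])

theorem vline_eq_plain {u : Vx F B} {d c : F} (hd : d ≠ 0)
    (h : K.vline u = some (Sum.inl (d, c))) : u = dv (some d) (c, none) := by
  rcases u with ⟨(o | i), v⟩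
  · rcases o with - | e
    · simp [vline] at h
    · rcases v with ⟨c', ver⟩
      simp only [vline] at h
      split_ifs at h with hc
      simp only [Option.some.injEq, Sum.inl.injEq, Prod.mk.injEq] at h
      obtain ⟨rfl, rfl⟩ := h
      rcases hc with hc | ⟨hv, -⟩
      · exact absurd hc hd
      · subst hv; rfl
  · rcases v with (y | x) | b <;> simp [vline] at h
    exact absurd h.1.symm hd

open Classical in
/-- A covering set has at least `q + 5` vertices. -/
theorem tau_ge {e0 D J : ℕ} (G : K.Good e0 D J) (C : Finset (Vx F B))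
    (hC : ∀ p S, K.Valid p S → ∃ u ∈ C, K.onEdge u p S) :
    Fintype.card F + 5 ≤ C.card := by
  by_contra hlt
  push Not at hlt
  set q := Fintype.card F with hq
  set nb := K.labelled.card with hnb
  have hbig := G.q_big
  have hDbig := G.D_big
  have he0 := G.e0_big
  -- the lines underlying `C`, together with all labelled rows
  set Cl : Finset (Line F) := (C.biUnion fun u => (K.vline u).toFinset) ∪
    K.labelled.image (fun y => (Sum.inl (0, y) : Line F)) with hCl
  have mem_Cl_of : ∀ u ∈ C, ∀ l, K.vline u = some l → l ∈ Cl := fun u hu l hl =>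
    mem_union_left _ (mem_biUnion.mpr ⟨u, hu, by simp [hl]⟩)
  have hClcard : Cl.card ≤ q + 4 + nb := by
    refine (card_union_le _ _).trans ?_
    have h1 : (C.biUnion fun u => (K.vline u).toFinset).card ≤ C.card * 1 :=
      card_biUnion_le_card_mul _ _ _ fun u _ => by cases K.vline u <;> simp
    have h2 : (K.labelled.image fun y => (Sum.inl (0, y) : Line F)).card ≤ nb := card_image_le
    omega
  have hClnonT : ∀ l ∈ Cl, K.nonT l := by
    intro l hl
    rcases mem_union.mp hl with h | h
    · obtain ⟨u, -, h⟩ := mem_biUnion.mp h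
      exact K.vline_nonT (Option.mem_toFinset.mp h)
    · obtain ⟨y, -, rfl⟩ := mem_image.mp h
      simp [nonT, isT]
  -- a row all of whose local vertices are its own, or a labelled row, is a line of `Cl`
  have row_mem : ∀ y v, K.locR y v ∈ C → (Sum.inl (0, y) : Line F) ∈ Cl := by
    intro y v hv
    by_cases hy : y ∈ K.labelled
    · exact mem_union_right _ (mem_image.mpr ⟨y, hy, rfl⟩)
    · have hl : K.lab y = none := by simpa [labelled] using hy
      refine mem_Cl_of _ hv _ ?_
      rcases v with i | P <;> simp [locR, vline, sv, dv, rowClass, hl]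
  have hcover : ∀ p ∈ K.live, ∃ l ∈ Cl, onLine p l := by
    intro p hp
    obtain ⟨u, hu, he⟩ := hC p 0 (K.live_valid hp 0)
    rcases K.cover_row hp he with ⟨v, -, rfl⟩ | ⟨l, hl, hon, -⟩
    · exact ⟨_, row_mem _ v hu, by simp [onLine]⟩
    · exact ⟨l, mem_Cl_of u hu l hl, hon⟩
  obtain ⟨z, hz⟩ := G.stable Cl hClnonT hClcard hcover
  set NT := Cl.filter (fun l => ¬ through z l) with hNT
  -- every other line through the centre must itself be in `C`
  have plain_mem : ∀ d c, d ≠ 0 → ¬ K.isT d c → through z (Sum.inl (d, c) : Line F) →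
      (dv (some d) (c, none) : Vx F B) ∈ C := by
    intro d c hd hT hthr
    by_contra hnot
    have hpts : (K.liveOn (Sum.inl (d, c)) \ ctrSet z).card ≤ NT.card := by
      refine points_le_lines (L := Sum.inl (d, c)) (fun p hp => ?_) fun p hp => ?_
      · simp only [mem_sdiff, liveOn, mem_filter] at hp; exact hp.1.2
      simp only [mem_sdiff, liveOn, mem_filter] at hp
      obtain ⟨⟨hlive, hon⟩, hpz⟩ := hp
      obtain ⟨u, hu, he⟩ := hC p 0 (K.live_valid hlive 0)
      obtain ⟨l, hl, hne, hlon⟩ : ∃ l ∈ Cl, l ≠ Sum.inl (d, c) ∧ onLine p l := by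
        rcases K.cover_row hlive he with ⟨v, -, rfl⟩ | ⟨l, hl, hlon, -⟩
        · exact ⟨_, row_mem _ v hu, by simp [Ne.symm hd], by simp [onLine]⟩
        · refine ⟨l, mem_Cl_of u hu l hl, ?_, hlon⟩
          rintro rfl
          exact hnot (K.vline_eq_plain hd hl ▸ hu)
      exact ⟨l, mem_filter.mpr ⟨hl, not_through hthr hne hon hlon hpz⟩, hne, hlon⟩
    have h1 := card_ctrSet z
    have h2 := le_card_sdiff (ctrSet z) (K.liveOn (Sum.inl (d, c)))
    have h3 := G.live_line (Sum.inl (d, c)) hT
    omega
  -- rows and columns through the centre carry three of their own vertices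
  have row_three : ∀ y, through z (Sum.inl (0, y) : Line F) →
      3 ≤ (C.filter fun u => ∃ v, u = K.locR y v).card := by
    intro y hthr
    have hU : ∀ S, ∃ v ∈ univ.filter (fun v => K.locR y v ∈ C), covR S v = true := by
      intro S
      by_contra hnot
      push Not at hnot
      have hpts : (K.liveOn (Sum.inl (0, y)) \ ctrSet z).card ≤ NT.card := by
        refine points_le_lines (L := Sum.inl (0, y)) (fun p hp => ?_) fun p hp => ?_
        · simp only [mem_sdiff, liveOn, mem_filter] at hp; exact hp.1.2
        simp only [mem_sdiff, liveOn, mem_filter] at hp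
        obtain ⟨⟨hlive, hon⟩, hpz⟩ := hp
        have hy : p.2 = y := by simpa [onLine] using hon
        obtain ⟨u, hu, he⟩ := hC p S (K.live_valid hlive S)
        rcases K.cover_row hlive he with ⟨v, hv, rfl⟩ | ⟨l, hl, hlon, hne⟩
        · have := hnot v (by simpa [hy] using hu)
          simp [hv] at this
        · rw [hy] at hne
          exact ⟨l, mem_filter.mpr ⟨mem_Cl_of u hu l hl, not_through hthr hne hon hlon hpz⟩,
            hne, hlon⟩
      have h1 := card_ctrSet z
      have h2 := le_card_sdiff (ctrSet z) (K.liveOn (Sum.inl (0, y)))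
      have h3 := G.live_line (Sum.inl (0, y)) (by simp [nonT, isT])
      omega
    refine (three_le_of_local covR local_lb_R _ hU).trans ?_
    rw [← card_image_of_injective _ (K.locR_inj y)]
    refine card_le_card fun u hu => ?_
    obtain ⟨v, hv, rfl⟩ := mem_image.mp hu
    exact mem_filter.mpr ⟨(mem_filter.mp hv).2, v, rfl⟩
  have col_three : ∀ x, through z (Sum.inr x : Line F) →
      3 ≤ (C.filter fun u => ∃ v, u = locC (B := B) x v).card := by
    intro x hthr
    have hU : ∀ S, ∃ v ∈ univ.filter (fun v => locC (B := B) x v ∈ C), covC S v = true := by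
      intro S
      by_contra hnot
      push Not at hnot
      set P := ((K.liveOn (Sum.inr x)).filter fun p => p.2 ∉ K.labelled) \ ctrSet z with hP
      have hpts : P.card ≤ NT.card := by
        refine points_le_lines (L := Sum.inr x) (fun p hp => ?_) fun p hp => ?_
        · simp only [hP, mem_sdiff, liveOn, mem_filter] at hp; exact hp.1.1.2
        simp only [hP, mem_sdiff, liveOn, mem_filter] at hp
        obtain ⟨⟨⟨hlive, hon⟩, hlab⟩, hpz⟩ := hp
        have hx : p.1 = x := by simpa [onLine] using hon
        obtain ⟨u, hu, he⟩ := hC p S (K.live_valid hlive S)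
        have hlab' : K.lab p.2 = none := by simpa [labelled] using hlab
        rcases K.cover_col hlive hlab' he with ⟨v, hv, rfl⟩ | ⟨l, hl, hlon, hne⟩
        · have := hnot v (by simpa [hx] using hu)
          simp [hv] at this
        · rw [hx] at hne
          exact ⟨l, mem_filter.mpr ⟨mem_Cl_of u hu l hl, not_through hthr hne hon hlon hpz⟩,
            hne, hlon⟩
      have hdrop : ((K.liveOn (Sum.inr x)).filter fun p => p.2 ∈ K.labelled).card ≤ nb := by
        refine card_le_card_of_injOn (fun p => p.2) (fun p hp => (mem_filter.mp hp).2) ?_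
        intro p hp p' hp' he
        have h1 := (mem_filter.mp (mem_filter.mp hp).1).2
        have h2 := (mem_filter.mp (mem_filter.mp hp').1).2
        simp only [onLine] at h1 h2
        exact Prod.ext (h1.trans h2.symm) he
      have h0 := card_filter_add_card_filter_not (s := K.liveOn (Sum.inr x))
        (fun p => p.2 ∈ K.labelled)
      have h1 := card_ctrSet z
      have h2 := le_card_sdiff (ctrSet z)
        ((K.liveOn (Sum.inr x)).filter fun p => p.2 ∉ K.labelled)
      have h3 := G.live_line (Sum.inr x) (by simp [nonT])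
      simp only [← hP] at h2
      omega
    refine (three_le_of_local covC local_lb_C _ hU).trans ?_
    rw [← card_image_of_injective _ (locC_inj (B := B) x)]
    refine card_le_card fun u hu => ?_
    obtain ⟨v, hv, rfl⟩ := mem_image.mp hu
    exact mem_filter.mpr ⟨(mem_filter.mp hv).2, v, rfl⟩
  -- random lines through the centre are covered locally, up to a small set of other vertices
  have T_local : ∀ Pl : Finset (Vx F B),
      (∀ u ∈ Pl, ∃ l, K.vline u = some l ∧ through z l) → (C \ Pl).card + 1 < D →
      ∀ d i, d ≠ 0 → through z (Sum.inl (d, K.t d i) : Line F) →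
        ∀ S, ∃ v, covR S v = true ∧ K.locT d i v ∈ C := by
    intro Pl hPl hsmall d i hd hthr S
    by_contra hnot
    push Not at hnot
    set Ls := (C \ Pl).biUnion fun u => (K.vline u).toFinset with hLs
    have hLsc : Ls.card ≤ (C \ Pl).card * 1 :=
      card_biUnion_le_card_mul _ _ _ fun u _ => by cases K.vline u <;> simp
    have hpts : (K.desig d i S \ ctrSet z).card ≤ Ls.card := by
      refine points_le_lines (L := Sum.inl (d, K.t d i)) (fun p hp => ?_) fun p hp => ?_
      · simp only [mem_sdiff, desig, mem_filter] at hp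
        exact (onLine_iff_icpt _ _ _).mpr hp.1.2.1
      simp only [mem_sdiff] at hp
      obtain ⟨hdes, hpz⟩ := hp
      have hon : onLine p (Sum.inl (d, K.t d i) : Line F) := by
        simp only [desig, mem_filter] at hdes
        exact (onLine_iff_icpt _ _ _).mpr hdes.2.1
      obtain ⟨u, hu, he⟩ := hC p S (Or.inr ⟨d, i, hdes⟩)
      rcases K.cover_desig hd hdes he with ⟨v, hv, rfl⟩ | ⟨l, hl, hlon, hne⟩
      · exact absurd hu (hnot v hv)
      · refine ⟨l, mem_biUnion.mpr ⟨u, mem_sdiff.mpr ⟨hu, fun huP => ?_⟩, by simp [hl]⟩, hne,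
          hlon⟩
        obtain ⟨l', hl', hthr'⟩ := hPl u huP
        rw [hl, Option.some.injEq] at hl'
        subst hl'
        exact not_through hthr hne hon hlon hpz hthr'
    have h1 := card_ctrSet z
    have h2 := le_card_sdiff (ctrSet z) (K.desig d i S)
    have h3 := G.desig_ge d hd i S
    omega
  rcases z with p0 | o
  · -- an affine centre
    set kl := K.kills p0 with hkl
    set Dp := univ \ insert 0 kl with hDp
    have hDpc : q ≤ Dp.card + 1 + kl.card := by
      have h1 := le_card_sdiff (insert 0 kl) (univ : Finset F)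
      have h2 := card_insert_le (0 : F) kl
      rw [card_univ] at h1
      simp only [← hDp] at h1
      omega
    set Pl : Finset (Vx F B) := Dp.image fun d => dv (some d) (icpt p0 d, none) with hPl
    have hPlc : Pl.card = Dp.card := by
      refine card_image_of_injective _ fun a b h => ?_
      exact Option.some.inj (dv_inj h).1
    have hDp_mem : ∀ d ∈ Dp, d ≠ 0 ∧ ¬ K.isT d (icpt p0 d) := by
      intro d hd
      simp only [hDp, mem_sdiff, mem_insert, not_or, hkl] at hd
      exact ⟨hd.2.1, fun h => hd.2.2 (K.mem_kills.mpr h)⟩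
    have hPlC : Pl ⊆ C := by
      intro u hu
      obtain ⟨d, hd, rfl⟩ := mem_image.mp hu
      obtain ⟨h0, hT⟩ := hDp_mem d hd
      exact plain_mem d _ h0 hT (by simp [through, onLine_iff_icpt])
    have hPlthr : ∀ u ∈ Pl, ∃ l, K.vline u = some l ∧ through (Sum.inl p0) l := by
      intro u hu
      obtain ⟨d, hd, rfl⟩ := mem_image.mp hu
      obtain ⟨h0, hT⟩ := hDp_mem d hd
      exact ⟨Sum.inl (d, icpt p0 d), by simp [vline, dv, hT], by simp [through, onLine_iff_icpt]⟩
    have hJ : kl.card ≤ J := G.kills_le p0
    have hsd : (C \ Pl).card + 1 < D := by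
      rw [card_sdiff_of_subset hPlC]
      omega
    have Tloc := T_local Pl hPlthr hsd
    set A := C.filter fun u => ∃ v, u = K.locR p0.2 v with hA
    set Bc := C.filter fun u => ∃ v, u = locC (B := B) p0.1 v with hBc
    have hA3 : 3 ≤ A.card := row_three p0.2 (by simp [through, onLine])
    have hB3 : 3 ≤ Bc.card := col_three p0.1 (by simp [through, onLine])
    have hidx : ∀ d ∈ kl, ∃ i, K.t d i = icpt p0 d := fun d hd => (K.mem_kills.mp hd).2
    choose! idx hidx using hidx
    set bl : F → B := fun d => K.blk d (idx d) with hbl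
    set X : B → Finset (Vx F B) := fun b => C.filter fun u => (¬ ∃ v, u = K.locR p0.2 v) ∧
      ∃ d ∈ kl, ∃ i, K.t d i = icpt p0 d ∧ K.blk d i = b ∧ ∃ v, u = K.locT d i v with hX
    have hkd : ∀ d ∈ kl, d ≠ 0 := fun d hd => (K.mem_kills.mp hd).1
    have hXb : ∀ b ∈ kl.image bl, (kl.filter fun d => bl d = b).card ≤ (X b).card := by
      intro b hb
      obtain ⟨d, hd, rfl⟩ := mem_image.mp hb
      have hsub : (kl.filter fun e => bl e = bl d) ⊆ K.sameBlk p0 (bl d) := fun e he => by
        simp only [mem_filter] at he
        simp only [sameBlk, mem_filter]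
        exact ⟨he.1, idx e, hidx e he.1, he.2⟩
      have hg := card_le_card hsub
      have hd0 := hkd d hd
      have hthr : through (Sum.inl p0) (Sum.inl (d, K.t d (idx d)) : Line F) := by
        simp [through, onLine_iff_icpt, hidx d hd]
      have hloc := Tloc d (idx d) hd0 hthr
      have inX : ∀ v, K.locT d (idx d) v ∈ C → (¬ ∃ w, K.locT d (idx d) v = K.locR p0.2 w) →
          K.locT d (idx d) v ∈ X (bl d) := fun v h1 h2 =>
        mem_filter.mpr ⟨h1, h2, d, hd, idx d, hidx d hd, rfl, v, rfl⟩
      by_cases hlink : ∃ S, K.lab p0.2 = some (bl d, S)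
      · obtain ⟨S0, hS0⟩ := hlink
        have h1 := G.pair p0 (bl d) S0 hS0
        obtain ⟨v, hv, hvC⟩ := hloc (compl6 S0)
        have : K.locT d (idx d) v ∈ X (bl d) := by
          refine inX v hvC ?_
          rintro ⟨w, hw⟩
          rcases v with j | P <;> rcases w with j' | P' <;> simp only [locT, locR] at hw
          · obtain ⟨rfl, hw⟩ := sv_inj hw
            simp only [covR, mem_compl6, Bool.not_eq_true'] at hv
            simp [rowClass, hS0, hv] at hw
          · exact absurd hw.symm dv_ne_sv
          · exact absurd hw dv_ne_sv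
          · exact hd0 (Option.some.inj (dv_inj hw).1)
        have := card_pos.mpr ⟨_, this⟩
        omega
      · have h4 := G.four p0 (bl d)
        have hU : ∀ S, ∃ v ∈ univ.filter (fun v => K.locT d (idx d) v ∈ C), covR S v = true := by
          intro S
          obtain ⟨v, hv, hvC⟩ := hloc S
          exact ⟨v, mem_filter.mpr ⟨mem_univ _, hvC⟩, hv⟩
        have h3 := three_le_of_local covR local_lb_R _ hU
        rw [← card_image_of_injective _ (K.locT_inj d (idx d))] at h3
        have : (univ.filter fun v => K.locT d (idx d) v ∈ C).image (K.locT d (idx d))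
            ⊆ X (bl d) := by
          intro u hu
          obtain ⟨v, hv, rfl⟩ := mem_image.mp hu
          refine inX v (mem_filter.mp hv).2 ?_
          rintro ⟨w, hw⟩
          rcases v with j | P <;> rcases w with j' | P' <;> simp only [locT, locR] at hw
          · obtain ⟨rfl, hw⟩ := sv_inj hw
            unfold rowClass at hw
            split at hw
            · next b' S' hlab =>
              split_ifs at hw
              · exact hlink ⟨S', by rw [hlab, show b' = bl d from (Sum.inr.inj hw).symm]⟩
            · simp at hw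
          · exact absurd hw.symm dv_ne_sv
          · exact absurd hw dv_ne_sv
          · exact hd0 (Option.some.inj (dv_inj hw).1)
        have := card_le_card this
        omega
    have hXdisj : ((kl.image bl : Finset B) : Set B).PairwiseDisjoint X := by
      intro b _ b' _ hbb
      rw [Function.onFun, disjoint_left]
      intro u hu hu'
      simp only [hX, mem_filter] at hu hu'
      obtain ⟨-, -, d, hd, i, hi, rfl, v, rfl⟩ := hu
      obtain ⟨-, -, d', hd', i', hi', rfl, v', hv'⟩ := hu'
      rcases v with j | P <;> rcases v' with j' | P' <;> simp only [locT] at hv'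
      · exact hbb (Sum.inr.inj (sv_inj hv').2)
      · exact absurd hv'.symm dv_ne_sv
      · exact absurd hv' dv_ne_sv
      · obtain ⟨he, hc⟩ := dv_inj hv'
        obtain rfl := Option.some.inj he
        rw [K.t_inj d (Prod.mk.inj hc).1] at hbb
        exact hbb rfl
    set XX := (kl.image bl).biUnion X with hXX
    have hXXc : kl.card ≤ XX.card := by
      rw [hXX, card_biUnion hXdisj, card_eq_sum_card_image bl kl]
      exact sum_le_sum hXb
    have hXXs : ∀ u ∈ XX, u ∈ C ∧ (¬ ∃ v, u = K.locR p0.2 v) ∧
        ∃ d ∈ kl, ∃ i v, u = K.locT d i v := by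
      intro u hu
      obtain ⟨b, -, hub⟩ := mem_biUnion.mp hu
      obtain ⟨h1, h2, d, hd, i, -, -, v, hv⟩ := mem_filter.mp hub
      exact ⟨h1, h2, d, hd, i, v, hv⟩
    have d1 : Disjoint A Bc := by
      rw [disjoint_left]
      intro u hu hu'
      obtain ⟨v, rfl⟩ := (mem_filter.mp hu).2
      obtain ⟨w, hw⟩ := (mem_filter.mp hu').2
      rcases v with j | P <;> rcases w with j' | P' <;> simp only [locR, locC] at hw
      · have h1 := (sv_inj hw).2
        unfold rowClass at h1
        split at h1
        · split_ifs at h1 <;> simp at h1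
        · simp at h1
      · exact absurd hw.symm dv_ne_sv
      · exact absurd hw dv_ne_sv
      · have h0 := (dv_inj hw).1; simp at h0
    have d2 : Disjoint (A ∪ Bc) XX := by
      rw [disjoint_left]
      intro u hu hu'
      obtain ⟨-, hnA, d, hd, i, v, rfl⟩ := hXXs u hu'
      rcases mem_union.mp hu with h | h
      · exact hnA (mem_filter.mp h).2
      · obtain ⟨w, hw⟩ := (mem_filter.mp h).2
        rcases v with j | P <;> rcases w with j' | P' <;> simp only [locT, locC] at hw
        · have h0 := (sv_inj hw).2; simp at h0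
        · exact dv_ne_sv hw.symm
        · exact dv_ne_sv hw
        · have h0 := (dv_inj hw).1; simp at h0
    have d3 : Disjoint Pl (A ∪ Bc ∪ XX) := by
      rw [disjoint_left]
      intro u hu hu'
      obtain ⟨e, he, rfl⟩ := mem_image.mp hu
      obtain ⟨he0, -⟩ := hDp_mem e he
      rcases mem_union.mp hu' with h | h
      · rcases mem_union.mp h with h | h
        · obtain ⟨w, hw⟩ := (mem_filter.mp h).2
          rcases w with j | P <;> simp only [locR] at hw
          · exact dv_ne_sv hw
          · have h0 := (dv_inj hw).2; simp at h0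
        · obtain ⟨w, hw⟩ := (mem_filter.mp h).2
          rcases w with j | P <;> simp only [locC] at hw
          · exact dv_ne_sv hw
          · have h0 := (dv_inj hw).1; simp at h0
      · obtain ⟨-, -, d, -, i, w, hw⟩ := hXXs _ h
        rcases w with j | P <;> simp only [locT] at hw
        · exact dv_ne_sv hw
        · have h0 := (dv_inj hw).2; simp at h0
    have hall : Pl ∪ (A ∪ Bc ∪ XX) ⊆ C := union_subset hPlC (union_subset
      (union_subset (filter_subset _ _) (filter_subset _ _)) fun u hu => (hXXs u hu).1)
    have := card_le_card hall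
    rw [card_union_of_disjoint d3, card_union_of_disjoint d2, card_union_of_disjoint d1] at this
    omega
  · rcases o with - | d
    · -- all columns
      set X : F → Finset (Vx F B) := fun x => C.filter fun u => ∃ v, u = locC (B := B) x v with hX
      have hdis : ((univ : Finset F) : Set F).PairwiseDisjoint X := by
        intro x _ x' _ hxx
        rw [Function.onFun, disjoint_left]
        intro u hu hu'
        obtain ⟨v, rfl⟩ := (mem_filter.mp hu).2
        obtain ⟨w, hw⟩ := (mem_filter.mp hu').2
        rcases v with j | P <;> rcases w with j' | P' <;> simp only [locC] at hw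
        · exact hxx (by simpa using (sv_inj hw).2)
        · exact absurd hw.symm dv_ne_sv
        · exact absurd hw dv_ne_sv
        · exact hxx (Prod.mk.inj (dv_inj hw).2).1
      have h1 : q * 3 ≤ ((univ : Finset F).biUnion X).card := by
        rw [card_biUnion hdis, hq, ← card_univ]
        simpa [mul_comm] using card_nsmul_le_sum (univ : Finset F) (fun x => (X x).card) 3
          (fun x _ => col_three x (by simp [through, dirOf]))
      have h2 : ((univ : Finset F).biUnion X).card ≤ C.card :=
        card_le_card (biUnion_subset.mpr fun x _ => filter_subset _ _)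
      omega
    · by_cases hd : d = 0
      · subst hd
        -- all rows
        set R := (univ : Finset F) \ K.labelled with hR
        set X : F → Finset (Vx F B) := fun y => C.filter fun u => ∃ v, u = K.locR y v with hX
        have hlab : ∀ y ∈ R, K.lab y = none := fun y hy => by
          simpa [hR, labelled] using hy
        have hdis : ((R : Finset F) : Set F).PairwiseDisjoint X := by
          intro y hy y' hy' hyy
          rw [Function.onFun, disjoint_left]
          intro u hu hu'
          obtain ⟨v, rfl⟩ := (mem_filter.mp hu).2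
          obtain ⟨w, hw⟩ := (mem_filter.mp hu').2
          rcases v with j | P <;> rcases w with j' | P' <;> simp only [locR] at hw
          · refine hyy ?_
            simpa [rowClass, hlab y hy, hlab y' hy'] using (sv_inj hw).2
          · exact absurd hw.symm dv_ne_sv
          · exact absurd hw dv_ne_sv
          · exact hyy (Prod.mk.inj (dv_inj hw).2).1
        have h1 : R.card * 3 ≤ (R.biUnion X).card := by
          rw [card_biUnion hdis]
          simpa [mul_comm] using card_nsmul_le_sum R (fun y => (X y).card) 3
            (fun y _ => row_three y (by simp [through, dirOf]))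
        have h2 : (R.biUnion X).card ≤ C.card :=
          card_le_card (biUnion_subset.mpr fun x _ => filter_subset _ _)
        have h3 := le_card_sdiff K.labelled (univ : Finset F)
        rw [card_univ] at h3
        simp only [← hR] at h3
        omega
      · -- another direction
        set Ti := (univ : Finset (Fin 3)).image (K.t d) with hTi
        set R := (univ : Finset F) \ Ti with hR
        set Pl : Finset (Vx F B) := R.image fun c => dv (some d) (c, none) with hPl
        have hnT : ∀ c ∈ R, ¬ K.isT d c := fun c hc h => by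
          obtain ⟨-, i, hi⟩ := h
          simp [hR, hTi] at hc
          exact hc i hi
        have hPlC : Pl ⊆ C := fun u hu => by
          obtain ⟨c, hc, rfl⟩ := mem_image.mp hu
          exact plain_mem d c hd (hnT c hc) (by simp [through, dirOf])
        have hPlthr : ∀ u ∈ Pl, ∃ l, K.vline u = some l ∧ through (Sum.inr (some d)) l := by
          intro u hu
          obtain ⟨c, hc, rfl⟩ := mem_image.mp hu
          exact ⟨Sum.inl (d, c), by simp [vline, dv, hnT c hc], by simp [through, dirOf]⟩
        have hPlc : q ≤ Pl.card + 3 := by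
          rw [hPl, card_image_of_injective _ (fun a b h => (Prod.mk.inj (dv_inj h).2).1)]
          have h1 := le_card_sdiff Ti (univ : Finset F)
          rw [card_univ] at h1
          have h2 : Ti.card ≤ 3 := card_image_le.trans (by simp)
          simp only [← hR] at h1
          omega
        have hsd : (C \ Pl).card + 1 < D := by
          rw [card_sdiff_of_subset hPlC]
          omega
        have Tloc := T_local Pl hPlthr hsd d
        set X : Fin 3 → Finset (Vx F B) := fun i => C.filter fun u => ∃ v, u = K.locT d i v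
          with hX
        have hX3 : ∀ i, 3 ≤ (X i).card := fun i => by
          have hU : ∀ S, ∃ v ∈ univ.filter (fun v => K.locT d i v ∈ C), covR S v = true := by
            intro S
            obtain ⟨v, hv, hvC⟩ := Tloc i hd (by simp [through, dirOf]) S
            exact ⟨v, mem_filter.mpr ⟨mem_univ _, hvC⟩, hv⟩
          refine (three_le_of_local covR local_lb_R _ hU).trans ?_
          rw [← card_image_of_injective _ (K.locT_inj d i)]
          refine card_le_card fun u hu => ?_
          obtain ⟨v, hv, rfl⟩ := mem_image.mp hu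
          exact mem_filter.mpr ⟨(mem_filter.mp hv).2, v, rfl⟩
        have hdis : ((univ : Finset (Fin 3)) : Set (Fin 3)).PairwiseDisjoint X := by
          intro i _ i' _ hii
          rw [Function.onFun, disjoint_left]
          intro u hu hu'
          obtain ⟨v, rfl⟩ := (mem_filter.mp hu).2
          obtain ⟨w, hw⟩ := (mem_filter.mp hu').2
          rcases v with j | P <;> rcases w with j' | P' <;> simp only [locT] at hw
          · exact hii (G.blk_inj d hd (Sum.inr.inj (sv_inj hw).2))
          · exact absurd hw.symm dv_ne_sv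
          · exact absurd hw dv_ne_sv
          · exact hii (K.t_inj d (Prod.mk.inj (dv_inj hw).2).1)
        have h1 : 9 ≤ ((univ : Finset (Fin 3)).biUnion X).card := by
          rw [card_biUnion hdis, Fin.sum_univ_three]
          have := hX3 0; have := hX3 1; have := hX3 2
          omega
        have hdj : Disjoint Pl ((univ : Finset (Fin 3)).biUnion X) := by
          rw [disjoint_left]
          intro u hu hu'
          obtain ⟨c, -, rfl⟩ := mem_image.mp hu
          obtain ⟨i, -, hi⟩ := mem_biUnion.mp hu'
          obtain ⟨w, hw⟩ := (mem_filter.mp hi).2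
          rcases w with j | P <;> simp only [locT] at hw
          · exact dv_ne_sv hw
          · have h0 := (dv_inj hw).2; simp at h0
        have hsub : (univ : Finset (Fin 3)).biUnion X ⊆ C :=
          biUnion_subset.mpr fun i _ => filter_subset _ _
        have := card_le_card (union_subset hPlC hsub)
        rw [card_union_of_disjoint hdj] at this
        omega

end Config

end Vale.Agent.P045.H84
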